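import Crest.Agent.N218.D7.St
import Crest.Agent.N218.In.Defs

/-!
# Row 218, block D7 (helper75): the honest orbit loop for the `e`-invariant (FROZEN statements, glue)
-/

set_option autoImplicit false
set_option linter.unusedVariables false

open Set Module

noncomputable section

namespace Crest.Agent.N218.D7

open Pm In K

/-- the chart -/
abbrev R11 : Type := EuclideanSpace ℝ (Fin 11)
/-- the ambient space of the sphere -/
abbrev R12 : Type := EuclideanSpace ℝ (Fin 12)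

/-- `e` cuts out the unit sphere -/
structure IsSph (e : Emb Sx R12 ℝ) : Prop where
  Ω : ∀ p, p ∈ e.Ω ↔ p ≠ 0
  π : ∀ p, p ≠ 0 → (e.π p).1 = ‖p‖⁻¹ • p
  n : ∀ p, p ≠ 0 → e.n p = Real.log ‖p‖

/-- the flat loop problem `(((b, r), w), y) ↦ ((r, log |w|), P ((b, ang w), y))` -/
def flat {k : ℕ} {E : Type} [NormedAddCommGroup E] [NormedSpace ℝ E] [FiniteDimensional ℝ E]
    (P : Pb (R11 × UnitAddCircle) k E) : PB (XX ((R11 × ℝ) × ℂ) k E).ls (XX (ℝ × ℝ) k E) :=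
  ⟨{z : ((R11 × ℝ) × ℂ) × V k E | z.1.2 ≠ 0 ∧ ((z.1.1.1, ang z.1.2), z.2) ∈ P.O},
    fun z : ((R11 × ℝ) × ℂ) × V k E =>
      ((z.1.1.2, Real.log ‖z.1.2‖), P.h ((z.1.1.1, ang z.1.2), z.2))⟩

/-- the specification of the `e`-invariant (`INVE = ∃ J, SpE J`) -/
def SpE (J : AI 12) : Prop :=
  ∀ {Γ : Type} [Group Γ] [Fintype Γ] [TopologicalSpace Γ] [DiscreteTopology Γ]
    (χ : Γ →* Circle), ∀ X V : Rep Γ, Gq χ → Adm 12 X V → Cx V.ls →
  ∀ o : OE χ (cc χ) X.ls V, ∃ s : ℤˣ, ∀ P φ, EV χ (cc χ) o P φ → J.ν χ X V P = s • φ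

theorem inve_iff : INVE ↔ ∃ J, SpE J := Iff.rfl

/-- change of chart (any abstract invariant) -/
def CHT : Prop := ∀ (J : AI 12) (e : Emb Sx R12 ℝ) (c : Emb (Sx × UnitAddCircle) (R12 × ℂ) (ℝ × ℝ))
  (E : Type) [NormedAddCommGroup E] [NormedSpace ℂ E] [FiniteDimensional ℂ E] (k : ℕ) (δ : ℝ)
  (v : Sx × E → E) (p : Sx), IsSph e → e.Circ c → 16 ≤ k → 0 < δ → NS v p (4 * δ) →
  ∃ v' : R11 × E → E, NF v' (4 * δ) ∧ Pe (c.inv J k (sp E) (OL k v δ))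
    (J.ν (ck k) (XX ((R11 × ℝ) × ℂ) k E) (XX (ℝ × ℝ) k E) (flat (OL k v' δ)))

/-- the flat orbit loop has invariant zero -/
def ORBJ : Prop := ∀ (J : AI 12), SpE J →
  ∀ (E : Type) [NormedAddCommGroup E] [NormedSpace ℂ E] [FiniteDimensional ℂ E] (k : ℕ) (δ : ℝ)
  (v : R11 × E → E), 16 ≤ k → 0 < δ → NF v (4 * δ) →
    J.ν (ck k) (XX ((R11 × ℝ) × ℂ) k E) (XX (ℝ × ℝ) k E) (flat (OL k v δ)) = 0

theorem orbt (h1 : CHT) (h2 : ORBJ) {J : AI 12} (hJ : SpE J) {e : Emb Sx R12 ℝ} (he : IsSph e)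
    {c : Emb (Sx × UnitAddCircle) (R12 × ℂ) (ℝ × ℝ)} (hc : e.Circ c) {T : Th Sx QQ}
    (hT : T.an = c.inv J) : ORBT T := by
  intro E _ _ _ k δ v p hk hd hv
  obtain ⟨v', nv, a⟩ := h1 J e c E k δ v p he hc hk hd hv
  rw [h2 J hJ E k δ v' hk hd nv] at a
  rw [hT]
  rcases a with a | a
  exacts [a, a.trans neg_zero]

end Crest.Agent.N218.D7

end
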