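import Crest.Agent.N218.D7.OrbP
import Crest.Agent.N218.K.Col

/-!
# Row 218, block D7 (helper87): the cone of an orbit problem, restricted to rays
-/

set_option autoImplicit false
set_option linter.unusedVariables false
set_option linter.unusedSectionVars false

open Crest.Agent.R204.K357 unitInterval Topology Filter Set OnePoint

noncomputable section

namespace Crest.Agent.N218.Orb

open K

/-- extension by zero at infinity -/
theorem cont_ext {P W X : Type} [TopologicalSpace P] [TopologicalSpace W] [TopologicalSpace X]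
    [T2Space W] [CompactSpace X] {g : X → ℂ} (hg : Continuous g) {m : P × W → X}
    (hm : Continuous m) (h : ∀ C, IsCompact C → (∀ x ∈ C, g x ≠ 0) →
      ∃ K, IsCompact K ∧ ∀ p w, w ∉ K → m (p, w) ∉ C) :
    Continuous fun z : P × OnePoint W => (OnePoint.rec 0 (fun w => g (m (z.1, w))) z.2 : ℂ) := by
  rw [continuous_iff_continuousAt]
  rintro ⟨p, w⟩
  induction w using OnePoint.rec with
  | coe w =>
    have e : IsOpenEmbedding (Prod.map id (↑) : P × W → P × OnePoint W) :=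
      IsOpenEmbedding.id.prodMap isOpenEmbedding_coe
    exact (e.continuousAt_iff (x := (p, w))).1 (hg.comp hm).continuousAt
  | infty =>
    change Tendsto _ _ (𝓝 0)
    rw [Metric.tendsto_nhds]
    intro ε hε
    obtain ⟨K, hK, k⟩ := h {x | ε ≤ ‖g x‖} (isClosed_le continuous_const hg.norm).isCompact
      fun x a b => by rw [mem_ofPred_eq, b, norm_zero] at a; exact a.not_gt hε
    have : ∀ᶠ z : P × OnePoint W in 𝓝 (p, ∞), z.2 ∈ (↑) '' Kᶜ ∪ {∞} :=
      continuous_snd.continuousAt.eventually (hasBasis_nhds_infty.mem_of_mem ⟨hK.isClosed, hK⟩)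
    filter_upwards [this]
    rintro ⟨q, z⟩ (⟨w, hw, e⟩ | e)
    · obtain rfl : (w : OnePoint W) = z := e
      rw [dist_zero_right]
      exact not_le.1 (k q w hw)
    · obtain rfl : z = ∞ := e
      change dist (0 : ℂ) 0 < ε
      rwa [dist_self]

section mk
variable {Γ : Type} [Group Γ] [TopologicalSpace Γ] {A : Type} [CommRing A] [Algebra ℂ A]

/-- a continuous invariant family of characters -/
def mkH (Z : GS Γ) (ev : Z.Z → A →ₐ[ℂ] ℂ) (hc : ∀ u, Continuous fun z => ev z u)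
    (hi : ∀ g z u, ev (Z.act g z) u = ev z u) : A →ₐ[ℂ] C(Z.Q, ℂ) where
  toFun u := Z.lift ⟨fun z => ev z u, hc u⟩ fun g z => hi g z u
  map_one' := ContinuousMap.ext fun x => by
    obtain ⟨z, rfl⟩ := Z.pr_surj x; exact map_one (ev z)
  map_mul' a b := ContinuousMap.ext fun x => by
    obtain ⟨z, rfl⟩ := Z.pr_surj x; exact map_mul (ev z) a b
  map_zero' := ContinuousMap.ext fun x => by
    obtain ⟨z, rfl⟩ := Z.pr_surj x; exact map_zero (ev z)
  map_add' a b := ContinuousMap.ext fun x => by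
    obtain ⟨z, rfl⟩ := Z.pr_surj x; exact map_add (ev z) a b
  commutes' r := ContinuousMap.ext fun x => by
    obtain ⟨z, rfl⟩ := Z.pr_surj x; exact (ev z).commutes r

theorem mkH_pr (Z : GS Γ) (ev : Z.Z → A →ₐ[ℂ] ℂ) (hc : ∀ u, Continuous fun z => ev z u)
    (hi : ∀ g z u, ev (Z.act g z) u = ev z u) (u : A) (z : Z.Z) :
    mkH Z ev hc hi u (Z.pr z) = ev z u := rfl

/-- homotopic families give the same map -/
theorem mkH_ht (Z : GS Γ) (ev : I → Z.Z → A →ₐ[ℂ] ℂ)
    (hc : ∀ u, Continuous fun z : I × Z.Z => ev z.1 z.2 u)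
    (hi : ∀ a g z u, ev a (Z.act g z) u = ev a z u) (x : KC A) :
    KA (mkH Z (ev 0) (fun u => (hc u).comp (.prodMk_right 0)) (hi 0)) x =
      KA (mkH Z (ev 1) (fun u => (hc u).comp (.prodMk_right 1)) (hi 1)) x := by
  refine R204.HInv313.map_apply_eq_of_homotopy (fun a => ((mkH Z (ev a)
    (fun u => (hc u).comp (.prodMk_right a)) (hi a) : A →ₐ[ℂ] C(Z.Q, ℂ)) : A →+* C(Z.Q, ℂ)))
    (fun u => ContinuousMap.continuous_of_continuous_uncurry _ ?_) x
  have o : IsOpenQuotientMap (Prod.map id Z.pr : I × Z.Z → I × Z.Q) :=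
    IsOpenQuotientMap.id.prodMap ⟨Z.pr_surj, Z.pr.continuous, Z.pr_open⟩
  exact o.isQuotientMap.continuous_iff.2 (hc u)

theorem KA_comp {B C : Type} [CommRing B] [Algebra ℂ B] [CommRing C] [Algebra ℂ C]
    (f : A →ₐ[ℂ] B) (g : B →ₐ[ℂ] C) (x : KC A) : KA g (KA f x) = KA (g.comp f) x :=
  (K0.map_comp (g : B →+* C) (f : A →+* B) x).symm

theorem KA_ps {B : Type} [CommRing B] [Algebra ℂ B] (f : A →ₐ[ℂ] B) (x : KC A) :
    KA f (ps A x) = ps B (KA f x) := (psi_map (p := 3) f x).symm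

end mk

/-- a parameter of the suspension -/
structure SP (sg : ℝ → I) : Prop where
  ct : Continuous sg
  bot : Tendsto sg atBot (𝓝 0)
  top : Tendsto sg atTop (𝓝 1)

/-- the parameter along a ray -/
def ry (sg : ℝ → I) (r : ℝ) : I := if r ≤ 0 then 0 else sg (Real.log r)

theorem ry_exp (sg : ℝ → I) (l : ℝ) : ry sg (Real.exp l) = sg l := by
  rw [ry, if_neg (Real.exp_pos l).not_ge, Real.log_exp]

theorem ry_zero (sg : ℝ → I) : ry sg 0 = 0 := if_pos le_rfl

theorem SP.ry {sg : ℝ → I} (h : SP sg) : Continuous (ry sg) := by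
  refine continuous_iff_continuousAt.2 fun r => ?_
  rcases lt_trichotomy r 0 with a | rfl | a
  · exact continuousAt_const.congr ((eventually_lt_nhds a).mono fun x b => (if_pos b.le).symm)
  · rw [continuousAt_iff_continuous_left_right]
    refine ⟨(continuousWithinAt_const (b := (0 : I))).congr (fun x b => if_pos b) (if_pos le_rfl), ?_⟩
    rw [← continuousWithinAt_Ioi_iff_Ici, ContinuousWithinAt, ry_zero]
    exact (h.bot.comp Real.tendsto_log_nhdsGT_zero).congr'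
      (eventually_nhdsWithin_of_forall fun x b => (if_neg (not_le.2 b)).symm)
  · exact (h.ct.continuousAt.comp (Real.continuousAt_log a.ne')).congr
      ((eventually_gt_nhds a).mono fun x b => (if_neg b.not_ge).symm)

variable {G : Type} [Group G] [TopologicalSpace G] [CompactSpace G]
  {q : ℕ} {φ : G →* Circle} {M N : LS Circle} {Y : GS Circle} {W : Rep Circle}
  (d : OD q φ M N) (sg : ℝ → I)

/-- the ray with slope `a` -/
def OD.ray (z : (I × Y.Z) × M.Z × ℝ) : (Y.Z × OnePoint N.Z) × I :=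
  ((z.1.2, (d.e (z.2.1, ((z.1.1 * Real.exp z.2.2 : ℝ) : ℂ)) : N.Z)),
    ry sg ((1 - z.1.1) * Real.exp z.2.2))

variable {sg}

theorem OD.ray_cont (h : SP sg) : Continuous (d.ray (Y := Y) sg) :=
  (continuous_fst.snd.prodMk (continuous_coe.comp (d.e.continuous.comp (by fun_prop)))).prodMk
    (h.ry.comp (by fun_prop))

theorem OD.ray_proper (h : SP sg) {C : Set ((Y.Z × OnePoint N.Z) × I)} (hC : IsCompact C)
    (h1 : ∀ x ∈ C, x.1.2 ≠ ∞) (h2 : ∀ x ∈ C, x.2 ≠ 1)
    (h3 : ∀ y v, (((y, ((d.e (v, 0) : N.Z) : OnePoint N.Z)), 0) : (Y.Z × OnePoint N.Z) × I) ∉ C) :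
    ∃ K, IsCompact K ∧ ∀ p w, w ∉ K → d.ray sg (p, w) ∉ C := by
  have k1 : IsCompact ((↑) ⁻¹' ((fun x => x.1.2) '' C) : Set N.Z) :=
    ((isClosed_iff_of_notMem (s := (fun x : (Y.Z × OnePoint N.Z) × I => x.1.2) '' C)
      fun ⟨x, a, b⟩ => h1 x a b).1
      (hC.image continuous_fst.snd).isClosed).2
  have k2 := k1.image d.e.symm.continuous
  obtain ⟨R, hR⟩ := (k2.image continuous_snd).isBounded.exists_norm_le
  obtain ⟨L, hL⟩ := eventually_atTop.1 (h.top.eventually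
    ((hC.image continuous_snd).isClosed.isOpen_compl.mem_nhds fun ⟨x, a, b⟩ => h2 x a b))
  have cn : Continuous fun z : (Y.Z × M.Z) × ℂ × ℝ =>
      (((z.1.1, (d.e (z.1.2, z.2.1) : N.Z)), ry sg z.2.2) : (Y.Z × OnePoint N.Z) × I) :=
    (continuous_fst.fst.prodMk (continuous_coe.comp (d.e.continuous.comp (by fun_prop)))).prodMk
      (h.ry.comp (by fun_prop))
  obtain ⟨U, V, -, oV, sU, sV, hUV⟩ := generalized_tube_lemma
    (isCompact_univ.prod (k2.image continuous_fst)) (isCompact_singleton (x := ((0, 0) : ℂ × ℝ)))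
    (hC.isClosed.isOpen_compl.preimage cn) (by
      rintro ⟨⟨y, v⟩, z⟩ ⟨-, e⟩
      obtain rfl : z = (0, 0) := e
      change ((y, _), ry sg 0) ∉ C
      rw [ry_zero]
      exact h3 y v)
  obtain ⟨δ, d0, hδ⟩ := Metric.isOpen_iff.1 oV _ (sV rfl)
  refine ⟨_ ×ˢ Icc (Real.log δ) (Real.log (2 * (|R| + Real.exp L))),
    (k2.image continuous_fst).prod isCompact_Icc, ?_⟩
  rintro ⟨a, y⟩ ⟨v, l⟩ hw m
  have a0 := a.2.1
  have a1 := a.2.2
  have e0 := Real.exp_pos l
  have eL := Real.exp_pos L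
  have mk : (v, ((a * Real.exp l : ℝ) : ℂ)) ∈ d.e.symm '' ((↑) ⁻¹' ((fun x => x.1.2) '' C)) :=
    ⟨d.e _, ⟨_, m, rfl⟩, d.e.symm_apply_apply _⟩
  refine hw ⟨⟨_, mk, rfl⟩, not_lt.1 fun b => ?_, not_lt.1 fun b => ?_⟩
  · have b' : Real.exp l < δ := by rwa [← Real.exp_log d0, Real.exp_lt_exp]
    refine hUV (⟨sU ⟨trivial, _, mk, rfl⟩, hδ ?_⟩ : (((y, v), ((a * Real.exp l : ℝ) : ℂ),
      (1 - a) * Real.exp l) : (Y.Z × M.Z) × ℂ × ℝ) ∈ U ×ˢ V) m
    rw [Metric.mem_ball, Prod.dist_eq, dist_zero_right, dist_zero_right, Complex.norm_real,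
      Real.norm_of_nonneg (by positivity), Real.norm_of_nonneg (mul_nonneg (by linarith) e0.le)]
    exact max_lt (by nlinarith) (by nlinarith)
  · have b' : 2 * (|R| + Real.exp L) < Real.exp l := by
      rwa [← Real.exp_log (show 0 < 2 * (|R| + Real.exp L) by positivity), Real.exp_lt_exp]
    have r1 := hR _ ⟨_, mk, rfl⟩
    rw [Complex.norm_real, Real.norm_of_nonneg (by positivity)] at r1
    have r2 := le_abs_self R
    have r3 := abs_nonneg R
    have r4 : Real.exp L ≤ (1 - a) * Real.exp l := by nlinarith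
    refine hL (Real.log ((1 - a) * Real.exp l)) ?_ ⟨_, m, ?_⟩
    · rwa [Real.le_log_iff_exp_le (eL.trans_le r4)]
    · exact if_neg (eL.trans_le r4).not_ge

variable (sg) (F : H1 (Sb Y N) (Sb Y W.ls))

/-- evaluation on the rays -/
def OD.ev (a : I) (z : Y.Z × OnePoint (M.Z × ℝ)) : Cn F →ₐ[ℂ] ℂ :=
  OnePoint.rec ((ContinuousMap.evalAlgHom ℂ ℂ (pt Y W.ls z.1 ∞)).comp (Cn.res F))
    (fun w => (ContinuousMap.evalAlgHom ℂ ℂ (pt Y N z.1 (d.ray sg ((a, z.1), w)).1.2,
      (d.ray sg ((a, z.1), w)).2)).comp ((AlgHom.fst ℂ _ _).comp (Cn F).val)) z.2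

variable {sg F}

theorem OD.ev_cont (h : SP sg) (h0 : ∀ y v, F.f (pt Y N y (d.e (v, 0) : N.Z)) = pt Y W.ls y ∞)
    (u : Cn F) : Continuous fun z : I × Y.Z × OnePoint (M.Z × ℝ) => d.ev sg F z.1 z.2 u := by
  have cb : Continuous fun y : Y.Z => u.1.2 (pt Y W.ls y ∞) :=
    u.1.2.continuous.comp ((Y.prod W.ls.sph).pr.continuous.comp (.prodMk_left _))
  have cg : Continuous fun x : (Y.Z × OnePoint N.Z) × I =>
      u.1.1 (pt Y N x.1.1 x.1.2, x.2) - u.1.2 (pt Y W.ls x.1.1 ∞) :=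
    (u.1.1.continuous.comp (((Y.prod N.sph).pr.continuous.comp continuous_fst).prodMk
      continuous_snd)).sub (cb.comp continuous_fst.fst)
  have c := cont_ext cg (d.ray_cont h) fun C hC k => d.ray_proper h hC
    (fun x m e => k x m (by rw [e]; exact sub_eq_zero.2 (u.2.2.2 (Y.pr x.1.1) x.2)))
    (fun x m e => k x m (by rw [e]; exact sub_eq_zero.2 (u.2.2.1 _)))
    fun y v m => k _ m (sub_eq_zero.2 ((u.2.1 _).trans (congrArg u.1.2 (h0 y v))))
  refine ((c.comp (show Continuous fun z : I × Y.Z × OnePoint (M.Z × ℝ) => ((z.1, z.2.1), z.2.2)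
    by fun_prop)).add (cb.comp continuous_snd.fst)).congr ?_
  rintro ⟨a, y, z⟩
  induction z using OnePoint.rec with
  | infty => exact zero_add _
  | coe w => exact sub_add_cancel _ _

theorem OD.ev_act (a : I) (ζ : Circle) (hζ : a = 0 ∨ (ζ : ℂ) ^ q = 1) (y : Y.Z)
    (z : OnePoint (M.Z × ℝ)) (u : Cn F) :
    d.ev sg F a (Y.act ζ y, (R1 M).sph.act ζ z) u = d.ev sg F a (y, z) u := by
  induction z using OnePoint.rec with
  | infty => exact congrArg u.1.2 (pt_act (M := W.ls) ζ y ∞)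
  | coe w =>
    refine congrArg u.1.1 (Prod.ext ?_ rfl)
    refine Eq.trans ?_ (pt_act (M := N) ζ y (d.e (w.1, ((a * Real.exp w.2 : ℝ) : ℂ)) : N.Z))
    rw [LS.sph_coe, d.he]
    rcases hζ with rfl | e
    · simp only [OD.ray, Set.Icc.coe_zero, zero_mul, Complex.ofReal_zero, mul_zero]; rfl
    · rw [e, one_mul]; rfl

/-- **the cone of an orbit problem**: restriction to the axis, and its description on the slice -/
theorem OD.core {hφ : Continuous φ} {P : FP (Y.res φ hφ) ((R1 M).res φ hφ) (W.res φ hφ)}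
    (hP : P.Ok) (hF : (d.orb P).Rp F) (h : SP sg) (D : SD (Sb Y N) (Sb Y (R1 N)))
    (hD : ∀ y (z : N.Z) l, D.c (pt Y N y z, sg l) = pt Y (R1 N) y (OnePoint.some (z, l)))
    (j : C((Sb Y (R1 M)).E, (Sb Y (R1 N)).E)) (j0 : ∀ y, j (pt Y _ y ∞) = pt Y _ y ∞)
    (j1 : ∀ y v l, j (pt Y _ y (OnePoint.some (v, l))) = pt Y _ y (OnePoint.some (d.e (v, 0), l)))
    (r1 : C((Sb (Y.res φ hφ) ((R1 M).res φ hφ)).E, (Sb Y (R1 M)).E))
    (e1 : ∀ y z, r1 (pt _ _ y z) = pt Y _ y z)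
    (r2 : C((Sb (Y.res φ hφ) (W.res φ hφ).ls).E, (Sb Y W.ls).E))
    (e2 : ∀ y z, r2 (pt _ _ y z) = pt Y _ y z) (μ : KC (Cn F)) :
    ∃ μ₀ : KS Y (R1 M), pull (Sb Y (R1 M)).s μ₀ = pull (Sb Y W.ls).s (KA (Cn.res F) μ) ∧
      (∀ ρ x, ps _ μ - KA (Cn.bas F) ρ * μ = KA (Cn.inc F D) x →
        ps _ μ₀ - (Sb Y (R1 M)).sm ρ μ₀ = pull j x) ∧
      ∃ χ, P.Cut χ ∧ ∀ F' : C((Sb (Y.res φ hφ) ((R1 M).res φ hφ)).E,
          (Sb (Y.res φ hφ) (W.res φ hφ).ls).E), (∀ y, F' (pt _ _ y ∞) = pt _ _ y ∞) →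
        (∀ y (w : ((R1 M).res φ hφ).Z), F' (pt _ _ y w) = pt _ _ y (P.col χ (y, w))) →
        pull r1 μ₀ = pull F' (pull r2 (KA (Cn.res F) μ)) := by
  obtain ⟨χ, hχ, hf⟩ := hF
  have h0 : ∀ y v, F.f (pt Y N y (d.e (v, 0) : N.Z)) = pt Y W.ls y ∞ := fun y v => by
    have z : χ (y, d.e (v, 0)) = 0 := by
      by_contra k
      exact (hχ.mem k).1 (by rw [d.e.symm_apply_apply])
    rw [hf, FP.col, if_pos z]; rfl
  have c := d.ev_cont h h0
  let i0 : Cn F →ₐ[ℂ] C((Sb Y (R1 M)).E, ℂ) := mkH (A := Cn F) (Y.prod (R1 M).sph) (d.ev sg F 0)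
    (fun u => (c u).comp (.prodMk_right 0)) fun g z u => d.ev_act 0 g (.inl rfl) z.1 z.2 u
  refine ⟨KA i0 μ, ?_, fun ρ x e => ?_, _, d.cut hP hχ, fun F' f0 f1 => ?_⟩
  · rw [pull, pull, KA_comp, KA_comp]
    congr 2
    ext u x
    obtain ⟨y, rfl⟩ := Y.pr_surj x
    rfl
  · have := congrArg (KA i0) e
    rw [map_sub, map_mul, KA_ps, KA_comp, KA_comp] at this
    rw [Ex.sm, pull, pull]
    convert this using 4
    · congr 1
      ext u x
      obtain ⟨⟨y, z⟩, rfl⟩ := (Y.prod (R1 M).sph).pr_surj x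
      induction z using OnePoint.rec <;> rfl
    · congr 1
      ext u x
      obtain ⟨⟨y, z⟩, rfl⟩ := (Y.prod (R1 M).sph).pr_surj x
      induction z using OnePoint.rec with
      | infty => exact congrArg u (j0 y)
      | coe w =>
        refine congrArg u ((j1 y w.1 w.2).trans ((hD y _ _).symm.trans (congrArg D.c ?_)))
        simp only [OD.ray, Set.Icc.coe_zero, zero_mul, Complex.ofReal_zero, sub_zero, one_mul,
          ry_exp]
  · let Z := (Y.res φ hφ).prod ((R1 M).res φ hφ).sph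
    let ev : I → Z.Z → Cn F →ₐ[ℂ] ℂ := d.ev sg F
    have c' : ∀ u, Continuous fun z : I × Z.Z => ev z.1 z.2 u := c
    have hi : ∀ a (g : G) (z : Z.Z) (u : Cn F), ev a (Z.act g z) u = ev a z u := by
      rintro a g ⟨y, z⟩ u
      refine Eq.trans ?_ (d.ev_act a (φ g) (.inr (d.pw_one g)) y z u)
      induction z using OnePoint.rec <;> rfl
    have := mkH_ht (A := Cn F) Z ev c' hi μ
    rw [pull, pull, pull, KA_comp, KA_comp, KA_comp]
    refine Eq.trans ?_ (this.trans ?_)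
    · congr 2
      ext u x
      obtain ⟨⟨y, z⟩, rfl⟩ := Z.pr_surj x
      exact congrArg (i0 u) (e1 y z)
    · congr 2
      ext u x
      obtain ⟨⟨y, z⟩, rfl⟩ := Z.pr_surj x
      symm
      induction z using OnePoint.rec with
      | infty => exact congrArg u.1.2 ((congrArg r2 (f0 y)).trans (e2 y ∞))
      | coe w =>
        refine (congrArg u.1.2 ((congrArg r2 (f1 y w)).trans ((e2 y _).trans ?_))).trans
          ((u.2.1 (pt Y N y (d.e (w.1, (Real.exp w.2 : ℝ)) : N.Z))).symm.trans (congrArg u.1.1 ?_))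
        · rw [hf]
          congr 1
          unfold FP.col
          split_ifs with k
          · rfl
          · rw [d.f_e hP ((d.mem_e hP _ _ _).1 (hχ.sub (subset_closure k)))]
            rfl
        · simp only [OD.ray, Set.Icc.coe_one, one_mul, sub_self, zero_mul, ry_zero]

end Crest.Agent.N218.Orb

end
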