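import Crest.Agent.N218.D7.Dt
import Crest.Agent.N218.K.Cx1
import Crest.Agent.N218.K.Lam
import Crest.Agent.N218.K.Dcm

/-!
# Row 218, block D7 (helper25): problems that extend over `5 L ^ (h / 2)`
-/

set_option autoImplicit false
set_option linter.unusedVariables false
set_option linter.unusedSectionVars false

open Set Polynomial Module

noncomputable section

namespace Crest.Agent.N218.D7

open K Fo Al

namespace Ext

/-! ### the parity -/

/-- `1 + ε` -/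
def η : DualNumber (ZMod 2) := 1 + DualNumber.eps

theorem two_eq : (2 : DualNumber (ZMod 2)) = 0 := by
  rw [← map_ofNat (algebraMap (ZMod 2) (DualNumber (ZMod 2))) 2, show (2 : ZMod 2) = 0 from rfl,
    map_zero]

theorem η_sq : η ^ 2 = 1 := by
  have := DualNumber.eps_mul_eps (R := ZMod 2)
  rw [η]
  linear_combination this + DualNumber.eps * two_eq

theorem η_even {n : ℕ} (h : Even n) : η ^ n = 1 := by
  obtain ⟨k, rfl⟩ := h
  rw [← two_mul, pow_mul, η_sq, one_pow]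

theorem κ_rho (k : ℕ) : aeval η (rho3 (X ^ k : ℤ[X])) = η ^ k := by
  have := η_even (n := k * 2) (by simp)
  simp only [rho3, map_add, map_pow, map_one, aeval_X, ← pow_mul, this]
  linear_combination two_eq

theorem κ_ker {r n : ℕ} (hr : 2 ≤ r) (hn : Even n) {a : ℤ[X]}
    (h : a ∈ Ideal.span {(1 - X : ℤ[X]) ^ r, X ^ n - 1}) : aeval η a = 0 := by
  obtain ⟨u, v, rfl⟩ := Ideal.mem_span_pair.1 h
  obtain ⟨k, rfl⟩ := Nat.exists_eq_add_of_le hr
  have : (1 - η) ^ 2 = 0 := by linear_combination η_sq + (1 - η) * two_eq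
  simp only [map_add, map_mul, map_pow, map_sub, map_one, aeval_X, η_even hn, pow_add, this]
  ring

theorem κ_fst (a : ℤ[X]) : (aeval η a).fst = ((a.eval 1 : ℤ) : ZMod 2) := by
  have := aeval_algHom_apply (TrivSqZeroExt.fstHom ℤ (ZMod 2) (ZMod 2)) η a
  rw [show TrivSqZeroExt.fstHom ℤ (ZMod 2) (ZMod 2) η = algebraMap ℤ (ZMod 2) 1 by simp [η],
    aeval_algebraMap_apply_eq_algebraMap_eval] at this
  exact this.symm

theorem parity {ι : Type} [Fintype ι] (k : ι → ℕ) {m n : ℕ} (hm : Even m) (hn : Even n)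
    {a : ℤ[X]} (h : (∏ i, rho3 (X ^ k i)) * rho3 X ^ 11 * a -
      expand ℤ 3 a * (3 ^ 6 * (∏ i, rho3 (X ^ k i)) * rho3 (X ^ m) ^ 5) ∈
        Ideal.span {(1 - X : ℤ[X]) ^ 11, X ^ n - 1}) : 2 ∣ a.eval 1 := by
  have e := κ_ker (by norm_num) hn h
  have e1 : aeval η (rho3 (X : ℤ[X])) = η := by simpa using κ_rho 1
  have e3 : η ^ 3 = η := by rw [pow_succ', η_sq, mul_one]
  have e11 : η ^ 11 = η := by rw [pow_succ', η_even (by decide), mul_one]
  have e4 : (3 : DualNumber (ZMod 2)) = 1 := by linear_combination two_eq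
  simp only [map_sub, map_mul, map_pow, map_prod, κ_rho, e1, expand_aeval, e3, e11, map_ofNat, e4,
    η_even hm, Finset.prod_pow_eq_pow_sum] at e
  have e5 := η_even (n := (∑ i, k i) * 2) (by simp)
  have e6 : aeval η a * DualNumber.eps = 0 := by
    rw [pow_mul] at e5
    rw [show DualNumber.eps = η - 1 by rw [η]; ring]
    linear_combination η ^ (∑ i, k i) * e - aeval η a * (η - 1) * e5
  have e7 := congrArg TrivSqZeroExt.snd e6
  rw [DualNumber.snd_mul, κ_fst] at e7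
  exact (ZMod.intCast_zmod_eq_zero_iff_dvd _ 2).1 (by simpa using e7)

/-! ### the Euler class -/

theorem euler {Γ : Type} [Group Γ] [TopologicalSpace Γ] [CompactSpace Γ] {Y : GS Γ} {M : LS Γ}
    {W : Rep Γ} {G : C((Sb Y M).E, (Sb Y (M.prod W.ls)).E)}
    (hG : Mp id (OnePoint.map fun w : M.Z => (w, (0 : W.W))) G) {x : KS Y M} {y : KS Y W.ls}
    (hx : (Sb Y M).Rd x) (hy : (Sb Y W.ls).Rd y) :
    pull G (xm x y) = (Sb Y M).sm (pull (z0 Y W) y) x := by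
  let ι : C((Sb Y M).E, (smd Y M W.ls).P.E) :=
    GS.qmap (Y.prod M.sph) ((Y.prod W.ls.sph).prod M.sph)
      ⟨fun z => ((z.1, ((0 : W.W) : OnePoint W.W)), z.2), by fun_prop⟩ fun g z =>
        ⟨g, Prod.ext (Prod.ext rfl (congrArg OnePoint.some (map_zero (W.ρ g)))) rfl⟩
  rw [← pull_pull ι (smd Y M W.ls).c G ?_, xm, SmD.c_mul _ hx hy, map_mul,
    pull_pull_id ι (smd Y M W.ls).q ?_, pull_sq ι (smd Y M W.ls).P.p (Sb Y M).p (z0 Y W) ?_,
    Ex.sm, mul_comm]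
  · intro e; obtain ⟨y, w, rfl⟩ := pt_surj e; rfl
  · intro e; obtain ⟨y, w, rfl⟩ := pt_surj e; rfl
  · intro e; obtain ⟨y, w, rfl⟩ := pt_surj e
    rw [hG]
    induction w using OnePoint.rec <;> rfl

variable {Γ : Type} [Group Γ] [Fintype Γ] [TopologicalSpace Γ] [DiscreteTopology Γ]
  {χ : Γ →* Circle}

/-- the tautological section -/
def sec (χ : Γ →* Circle) (r : ℕ) : Sec (Sp χ (cc χ) r) χ :=
  ⟨Fin r, ⟨fun u : US r => u.1, continuous_subtype_val⟩, fun u => u.2, fun _ _ _ => rfl⟩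

theorem Lc_ev (r k : ℕ) : Lc (Sp χ (cc χ) r) (χ ^ k) = ev χ (cc χ) r (X ^ k) := by
  rw [Lc_pow ⟨sec χ r⟩, map_pow, ev, aeval_X]
  exact congrArg (· ^ k) (Lc_eq (sec χ r))

theorem rho_ev (r k : ℕ) :
    rho3 (Lc (Sp χ (cc χ) r) (χ ^ k)) = ev χ (cc χ) r (rho3 (X ^ k)) := by
  simp only [rho3, Lc_ev, map_add, map_one, map_pow]

theorem unit_up (hK : KLN) (hχ : Function.Injective χ) {r r' : ℕ} (h : 0 < r) (h' : 0 < r')
    {u : ℤ[X]} (hu : IsUnit (ev χ (cc χ) r u)) : IsUnit (ev χ (cc χ) r' u) := by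
  obtain ⟨k1, k2, -⟩ := hK χ r hχ h
  obtain ⟨-, k3, -⟩ := hK χ r' hχ h'
  obtain ⟨v, hv⟩ := hu.exists_right_inv
  obtain ⟨v, rfl⟩ := k1 v
  obtain ⟨a, b, e⟩ := Ideal.mem_span_pair.1 ((k2 (u * v - 1)).1 (by rw [map_sub, map_mul, hv]; simp))
  have n1 : IsNilpotent (ev χ (cc χ) r' (1 - X)) :=
    ⟨r', by rw [← map_pow]; exact (k3 _).2 (Ideal.subset_span (by simp))⟩
  have n2 : ev χ (cc χ) r' (X ^ Fintype.card Γ - 1) = 0 := (k3 _).2 (Ideal.subset_span (by simp))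
  have n3 : IsNilpotent (ev χ (cc χ) r' a * ev χ (cc χ) r' (1 - X) ^ r) :=
    (Commute.all _ _).isNilpotent_mul_left (n1.pow_of_pos h.ne')
  have e' := congrArg (ev χ (cc χ) r') e
  rw [map_add, map_mul, map_mul, n2, mul_zero, add_zero, map_pow, map_sub _ (u * v), map_mul,
    map_one] at e'
  have := n3.isUnit_one_add
  rw [e', add_sub_cancel] at this
  exact isUnit_of_mul_isUnit_left this

/-- iterated enlargement -/
theorem enl (hD : DENL) (hK : KLN) (hχ : Function.Injective χ) {M V : Rep Γ} (cX : Cx M.ls.xr)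
    (cV : Cx V.ls) (H : ∀ r, (∃ l : KS (Sp χ (cc χ) r) M.ls.xr, (Sb _ _).Th l) ∧
      ∃ l : KS (Sp χ (cc χ) r) (TT χ (cc χ) r V), (Sb _ _).Th l) {r : ℕ} (hr : 0 < r) {lS lT}
    (tS : (Sb _ _).Th lS) (tT : (Sb _ _).Th lT) {P : PB M.ls V} {a : ℤ[X]}
    (h : Dg χ (cc χ) r P lT ((Sb _ _).sm (ev χ (cc χ) r a) lS)) (n : ℕ) :
    ∀ lS' lT', (Sb _ _).Th lS' → (Sb _ _).Th lT' → ∃ u, IsUnit (ev χ (cc χ) (r + n + 1) u) ∧
      Dg χ (cc χ) (r + n + 1) P lT'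
        ((Sb _ _).sm (ev χ (cc χ) (r + n + 1) ((1 - X) ^ (n + 1) * a * u)) lS') := by
  induction n with
  | zero =>
    intro lS' lT' s t
    obtain ⟨u, hu, k⟩ := hD χ r M V hχ hr cX cV lS lT lS' lT' tS tT s t
    exact ⟨u, hu, by simpa only [zero_add, pow_one] using k P a h⟩
  | succ n ih =>
    intro lS' lT' s t
    obtain ⟨⟨l1, s1⟩, l2, t1⟩ := H (r + n + 1)
    obtain ⟨u, hu, k⟩ := ih l1 l2 s1 t1
    obtain ⟨u', hu', k'⟩ := hD χ (r + n + 1) M V hχ (by omega) cX cV l1 l2 lS' lT' s1 t1 s t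
    refine ⟨u * u', ?_, ?_⟩
    · rw [map_mul]
      exact (unit_up hK hχ (by omega) (by omega) hu).mul hu'
    · rw [show (1 - X) ^ (n + 1 + 1) * a * (u * u') = (1 - X) * ((1 - X) ^ (n + 1) * a * u) * u'
        by ring]
      exact k' P _ k

variable (χ) (B : Type) [NormedAddCommGroup B] [NormedSpace ℝ B] [FiniteDimensional ℝ B]
  [LocallyCompactSpace B] (q : ℕ) [NeZero q] (E : Type) [NormedAddCommGroup E] [NormedSpace ℂ E]
  [FiniteDimensional ℂ E]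

/-- Fourier coordinates -/
def vIso : (VG q E χ).ls.Iso
    (Rep.wt (fun i : ZMod q × Fin (finrank ℂ E) => χ ^ i.1.val) fun _ => cc _).ls where
  e := ((D q E).toLinearEquiv.trans ((LinearEquiv.piCongrRight fun _ => (finBasis ℂ E).equivFun).trans
    (LinearEquiv.curry ℂ ℂ (ZMod q) (Fin (finrank ℂ E))).symm)).toContinuousLinearEquiv.toHomeomorph
  eq g y := funext fun i => by
    change (finBasis ℂ E).equivFun (D q E ((cir q E).ρ (χ g) y) i.1) i.2 =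
      ((χ g ^ i.1.val : Circle) : ℂ) * (finBasis ℂ E).equivFun (D q E y i.1) i.2
    rw [D_cir, map_smul, Circle.coe_pow]
    rfl

/-- the source -/
def sIso : (XG B q E χ).ls.xr.Iso ((Rep.triv Γ (B × ℝ)).ls.prod (VG q E χ).ls) :=
  rcomm (Rep.triv Γ B).ls (VG q E χ).ls (LS.triv Γ ℝ)

variable {B}

theorem rk_B (hB : finrank ℝ B = 11) : finrank ℝ (B × ℝ) = 2 * 6 := by
  rw [finrank_prod, hB, finrank_self]

theorem thV (T : THOM1) (r : ℕ) : ∃ l : KS (Sp χ (cc χ) r) (VG q E χ).ls, UT _ _ l ∧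
    ps _ l = (Sb _ _).sm (ev χ (cc χ) r
      (∏ i : ZMod q × Fin (finrank ℂ E), rho3 (X ^ i.1.val))) l := by
  obtain ⟨lV, a, b⟩ := ut_wt T (Y := Sp χ (cc χ) r) (fun i => sec_pow ⟨sec χ r⟩ _) (vIso χ q E)
  refine ⟨lV, a, b.trans ?_⟩
  rw [map_prod, Finset.prod_congr rfl fun i _ => rho_ev r _]

omit [LocallyCompactSpace B] in
theorem thT (T : THOM1) (r : ℕ) {V : Rep Γ} {l : KS (Sp χ (cc χ) r) V.ls} {w : ℤ[X]}
    (a : UT _ _ l) (b : ps _ l = (Sb _ _).sm (ev χ (cc χ) r w) l) :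
    ∃ l' : KS (Sp χ (cc χ) r) (TT χ (cc χ) r V), (Sb _ _).Th l' ∧
      ps _ l' = (Sb _ _).sm (ev χ (cc χ) r (w * rho3 X ^ r)) l' := by
  have e := rho_ev (χ := χ) r 1
  rw [pow_one, pow_one] at e
  have := eig_xm b (ps_lam (Sp χ (cc χ) r) (fun _ : Fin r => χ) fun _ => cc χ)
  rw [Finset.prod_const, Finset.card_univ, Fintype.card_fin, e, ← map_pow, ← map_mul] at this
  have t := a.th_l (th_lam (χ := fun _ : Fin r => χ) (fun _ => cc χ) (T Γ) fun _ => ⟨sec χ r⟩)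
  generalize xm l (lam (Sp χ (cc χ) r) (fun _ : Fin r => χ) fun _ => cc χ) = z at this t
  exact ⟨z, t, this⟩

theorem thom (T : THOM1) (hB : finrank ℝ B = 11) (r : ℕ) :
    ∃ (lS : KS (Sp χ (cc χ) r) (XG B q E χ).ls.xr)
      (lT : KS (Sp χ (cc χ) r) (TT χ (cc χ) r (VG q E χ))), UT _ _ lS ∧ (Sb _ _).Th lT ∧
      ps _ lS = (Sb _ _).sm (ev χ (cc χ) r
        (3 ^ 6 * ∏ i : ZMod q × Fin (finrank ℂ E), rho3 (X ^ i.1.val))) lS ∧
      ps _ lT = (Sb _ _).sm (ev χ (cc χ) r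
        ((∏ i : ZMod q × Fin (finrank ℂ E), rho3 (X ^ i.1.val)) * rho3 X ^ r)) lT := by
  obtain ⟨lV, a, b⟩ := thV χ q E T r
  obtain ⟨lT, a', b'⟩ := thT χ T r a b
  obtain ⟨lB, c, d⟩ := ut_even T (Sp χ (cc χ) r) (B × ℝ) 6 (rk_B hB)
  refine ⟨_, lT, (c.xm a).iso (sIso χ B q E) ((sIso χ B q E).mp _), a', ?_, b'⟩
  rw [map_mul, map_pow, map_ofNat]
  exact eig_iso (sIso χ B q E) ((sIso χ B q E).mp _) (eig_xm d b)

variable {χ q E}

theorem ext0 (T : THOM1) (hK : KLN) (hD : DENL) (hB : finrank ℝ B = 11)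
    (hχ : Function.Injective χ) (hc : Even (Fintype.card Γ)) {ξ : Γ →* Circle} {m : ℕ}
    (hm : Even m) (hξ : ξ = χ ^ m) (R : PB ((XG B q E χ).prod (UU ξ (cc ξ) 5)).ls (VG q E χ))
    (hR : R.Fr) {lS lT} (tS : (Sb _ _).Th lS) (tT : (Sb _ _).Th lT) {p : ℤ[X]}
    (h : Dg χ (cc χ) 7 (R.comap (X' := (XG B q E χ).ls) fun x => (x, (0 : Fin 5 → ℂ))) lT
      ((Sb _ _).sm (ev χ (cc χ) 7 p) lS)) :
    ∃ x y b b' : ℤ[X], (1 - X) ^ 4 * p = (1 - X ^ m) ^ 5 * (2 * x + (1 - X) * y) +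
      (1 - X) ^ 11 * b + (1 - X ^ Fintype.card Γ) * b' := by
  subst hξ
  have cV : Cx (VG q E χ).ls := (cx_wt _ _).iso (vIso χ q E)
  have cX : Cx (XG B q E χ).ls.xr := ((cx_even _ 6 (rk_B hB)).prod cV).iso (sIso χ B q E)
  obtain ⟨k1, k2, k3⟩ := hK χ 11 hχ (by norm_num)
  obtain ⟨l0, lT', a1, a2, a3, a4⟩ := thom χ q E T hB 11
  obtain ⟨u, hu, g1⟩ : ∃ u, IsUnit (ev χ (cc χ) 11 u) ∧ Dg χ (cc χ) 11 _ lT'
      ((Sb _ _).sm (ev χ (cc χ) 11 ((1 - X) ^ 4 * p * u)) l0) :=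
    enl hD hK hχ cX cV (fun r => let ⟨l, l', a, b, _⟩ := thom χ q E T hB r; ⟨⟨l, a.th⟩, l', b⟩)
      (by norm_num) tS tT h 3 l0 lT' a1.th a2
  let N := UU (χ ^ m) (cc _) 5
  let lN := lam (Sp χ (cc χ) 11) (fun _ : Fin 5 => χ ^ m) fun _ => cc _
  have sN : ∀ _ : Fin 5, Nonempty (Sec (Sp χ (cc χ) 11) (χ ^ m)) := fun _ => sec_pow ⟨sec χ 11⟩ m
  let A : ((XG B q E χ).prod N).ls.xr.Iso ((XG B q E χ).ls.xr.prod N.ls) :=
    rcomm (XG B q E χ).ls N.ls (LS.triv Γ ℝ)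
  have t1 : (Sb _ _).Th (pull (A.h1 _).f (xm l0 lN)) :=
    th_iso A (A.mp _) (a1.th_l (th_lam _ (T Γ) sN))
  have p1 := eig_iso A (A.mp _) (eig_xm a3 (ps_lam (Sp χ (cc χ) 11) (fun _ : Fin 5 => χ ^ m)
    fun _ => cc _))
  rw [Finset.prod_const, Finset.card_univ, Fintype.card_fin, rho_ev, ← map_pow, ← map_mul] at p1
  have r0 := rk_XG χ (B := B) (q := q) (E := E) hB
  obtain ⟨F, c⟩ := dg_ex χ (r := 11) (X := (XG B q E χ).prod N) (V := VG q E χ) (by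
    have := rk_UU (χ ^ m) (cc _) 5 (XG B q E χ)
    change finrank ℝ ((XG B q E χ).W × N.W) < _
    have e : finrank ℝ (XG B q E χ).W = finrank ℝ B + finrank ℝ (VG q E χ).W :=
      finrank_prod (R := ℝ) (M := B) (M' := (VG q E χ).W)
    rw [this]
    omega) hR
  obtain ⟨a, ha⟩ := t1.ex (hm_rd F a2.1)
  obtain ⟨a, rfl⟩ := k1 a
  have e1 := F.eig a4
  rw [pull_id, ha] at e1
  have e2 := t1.eig p1 e1
  have ev2 : 2 ∣ a.eval 1 := parity (fun i : ZMod q × Fin (finrank ℂ E) => i.1.val) hm hc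
    ((k2 _).1 (by rw [map_sub, map_mul _ _ a, e2, k3, ← map_mul, sub_self]))
  obtain ⟨G, hG, g2⟩ := dcm χ 11 ((XG B q E χ).prod N).ls (XG B q E χ).ls (VG q E χ)
    (fun x => (x, (0 : Fin 5 → ℂ)))
    (Function.LeftInverse.isClosedEmbedding (f := Prod.fst) (fun _ => rfl) continuous_fst
      (continuous_id.prodMk continuous_const)).isProperMap
    fun g x => Prod.ext rfl (map_zero (N.ρ g)).symm
  have e3 := dg_uniq χ (r := 11) (by omega) g1 (g2 R lT' _ ⟨F, c, ha⟩)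
  have e4 : pull G (pull (A.h1 _).f (xm l0 lN)) =
      (Sb _ _).sm (ev χ (cc χ) 11 ((1 - X ^ m) ^ 5)) l0 := by
    rw [← pull_cm, euler (W := N) (fun y w => ?_) a1.1 (rd_lam _ _ _), z0_lam _ sN,
      Finset.prod_const, Finset.card_univ, Fintype.card_fin, Lc_ev, map_pow _ (1 - X ^ m),
      map_sub, map_one]
    rw [ContinuousMap.comp_apply, hG]
    induction w using OnePoint.rec <;> rfl
  rw [show pull G _ = _ from (hG.hm rfl (.id _) fun _ => rfl).pull_sm _ _, pull_id] at e3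
  change _ = (Sb _ _).sm _ (pull G _) at e3
  rw [e4, Ex.sm_sm, ← map_mul] at e3
  have e5 := a1.th.inj e3
  obtain ⟨v, hv⟩ := hu.exists_right_inv
  obtain ⟨v, rfl⟩ := k1 v
  obtain ⟨b, b', e6⟩ := Ideal.mem_span_pair.1 ((k2 ((1 - X) ^ 4 * p - a * (1 - X ^ m) ^ 5 * v)).1
    (by rw [map_sub, map_mul _ _ v, ← e5, map_mul _ _ u, mul_assoc, hv, mul_one, sub_self]))
  obtain ⟨c, hc⟩ := ev2
  obtain ⟨a', ha'⟩ := X_sub_C_dvd_sub_C_eval (p := a) (a := 1)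
  rw [hc, map_mul, C_1, show C (2 : ℤ) = 2 from rfl] at ha'
  exact ⟨C c * v, -(a' * v), b, -b', by linear_combination (1 - X ^ m) ^ 5 * v * ha' - e6⟩

end Ext

variable {B : Type} [NormedAddCommGroup B] [NormedSpace ℝ B] [FiniteDimensional ℝ B]
  [LocallyCompactSpace B] {q : ℕ} [NeZero q] {E : Type} [NormedAddCommGroup E] [NormedSpace ℂ E]
  [FiniteDimensional ℂ E]

/-- the field `ext` -/
theorem ext (T : THOM1) (hK : KLN) (hD : DENL) (hB : finrank ℝ B = 11) (o : OC B q E)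
    (k : OK o) : EXT o := by
  rintro s _ R d hR ⟨p, rfl, h⟩
  have hc : Fintype.card (Ch (s + s + (s + s))) = s + s + (s + s) := by
    rw [Fintype.card_multiplicative, ZMod.card]
  have he : Even (Fintype.card (Ch (s + s + (s + s)))) := by rw [hc]; exact ⟨s + s, rfl⟩
  obtain ⟨x, y, b, b', e⟩ := Ext.ext0 (B := B) (q := q) (E := E) (χ := inc (s + s + (s + s)))
    T hK hD hB (inc_inj _) he (ξ := (pw (s + s)).comp (inc (s + s + (s + s)))) (m := s + s)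
    ⟨s, rfl⟩ (MonoidHom.ext fun _ => rfl) ⟨R.O, R.f⟩ ⟨hR.op, hR.inv, hR.ct, hR.eq, hR.cp, hR.fr⟩
    (k.tS _) (k.tT _) h
  refine ⟨iS x, Ut.iS_mem _, iS y, Ut.iS_mem _, iS b, iS b', Ut.iS_mem _, ?_⟩
  have hX : iS X = L := aeval_X _
  have := congrArg iS e
  simpa only [hc, map_mul, map_add, map_pow, iS_t, map_sub, map_one, hX, map_ofNat,
    show 1 - L = t by rw [L]; ring] using this

end Crest.Agent.N218.D7

end
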