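import Crest.Agent.N218.D7.Fin
import Crest.Agent.N218.D7.Ext
import Crest.Agent.N218.K.Denl
import Crest.Agent.N218.Pm.Alg

/-!
# Row 218, block D7 (helper75): the block, without hypotheses
-/

set_option autoImplicit false

namespace Crest.Agent.N218.D7

theorem d7All : Sk.D7T :=
  d7T Pm.alg fun _ _ _ _ _ o k _ _ => ext K.thom K.kln (K.denl K.thom K.kln) (by simp) o k

end Crest.Agent.N218.D7
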