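import Crest.Agent.N218.D7.Nf1

/-!
# Row 218, block D7 (helper99): normal form of a stabilised family of pointed maps
-/

set_option autoImplicit false
set_option linter.unusedSectionVars false
open Topology Filter Set OnePoint unitInterval

noncomputable section

namespace Crest.Agent.N218.Nf

variable {B : Type*} [TopologicalSpace B] {V : Type*} [NormedAddCommGroup V] [NormedSpace ℝ V]
  [FiniteDimensional ℝ V]

/-- uniformly proper families -/
def UP {P E E' : Type*} [Norm E] [Norm E'] (f : P × E → E') : Prop :=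
  ∀ c : ℝ, ∃ R : ℝ, ∀ x y, R ≤ ‖y‖ → c ≤ ‖f (x, y)‖

/-- extension of a family by `∞` -/
def ext {P E E' : Type*} (f : P × E → E') (z : P × OnePoint E) : OnePoint E' :=
  z.2.map fun y => f (z.1, y)

theorem continuous_ext {P E E' : Type*} [TopologicalSpace P] [NormedAddCommGroup E] [ProperSpace E]
    [NormedAddCommGroup E'] {f : P × E → E'} (hf : Continuous f) (h : UP f) : Continuous (ext f) := by
  have a : Continuous fun z : P × OnePoint E => sa z.2 := continuous_sa.comp continuous_snd
  refine (continuous_cut (χ := fun z : P × OnePoint E => sa z.2) (f := fun z => f (z.1, fin z.2)) a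
    (fun z k => hf.continuousAt.comp (continuousAt_fst.prodMk
      ((continuousAt_fin k).comp continuousAt_snd))) fun z k c => ?_).congr fun ⟨x, s⟩ => ?_
  · obtain ⟨R, hR⟩ := h (c + 1)
    filter_upwards [blow (χ := fun z : P × OnePoint E => sa z.2) (f := fun z => fin z.2) a
      (continuous_const.sub a) k (by simp [k] : 0 < 1 - sa z.2) (fun y d => (sa_mul _ d).ge) R]
      with y hy d
    linarith [hR y.1 _ (hy d).le]
  · induction s using OnePoint.rec with
    | infty => exact cut_zero _ rfl
    | coe w => exact cut_ne _ (sa_pos w).ne'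

/-- an honest proper family can be made the identity near `0` -/
theorem near {f : B × V → V} (hf : Continuous f) (h : UP f) {a : ℝ} (ha : 0 < a) :
    ∃ K : (I × B) × V → V, Continuous K ∧ UP K ∧ (∀ x y, K ((0, x), y) = f (x, y)) ∧
      (∀ x y, ‖y‖ ≤ a → K ((1, x), y) = y) ∧ ∀ t x y, f (x, y) = y → K ((t, x), y) = y := by
  refine ⟨fun z => f (z.1.2, z.2) + (z.1.1 * max 0 (min 1 (2 - ‖z.2‖ / a))) • (z.2 - f (z.1.2, z.2)),
    by fun_prop, fun c => ?_, fun x y => by simp, fun x y k => ?_, fun t x y k => by simp [k]⟩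
  · obtain ⟨R, hR⟩ := h c
    refine ⟨max R (2 * a), fun x y k => ?_⟩
    have : 2 - ‖y‖ / a ≤ 0 := by
      rw [sub_nonpos, le_div_iff₀ ha]; exact (le_max_right _ _).trans k
    simpa [max_eq_left (min_le_of_right_le this)] using hR x.2 y ((le_max_left _ _).trans k)
  · have : 1 ≤ 2 - ‖y‖ / a := by linarith [(div_le_one ha).2 k]
    simp [min_eq_left this]

variable {W E' : Type*} [NormedAddCommGroup W] [NormedSpace ℝ W] [FiniteDimensional ℝ W]
  [NormedAddCommGroup E'] [NormedSpace ℝ E'] [FiniteDimensional ℝ E']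

/-- the suspension of a pointed family is homotopic to an honest proper family -/
theorem honest [Nontrivial E'] {v : B × OnePoint W → OnePoint W} (hv : Continuous v)
    (h0 : ∀ x, v (x, ∞) = ∞) : ∃ (H : I × B × OnePoint (W × E') → OnePoint (W × E'))
      (f : B × (W × E') → W × E'), Continuous H ∧ Continuous f ∧ UP f ∧ (∀ t x, H (t, x, ∞) = ∞) ∧
      (∀ x, (∀ s, v (x, s) = s) → ∀ t y, H (t, x, y) = y) ∧
      (∀ x (w : W) (e : E'), H (0, x, ((w, e) : W × E')) = (v (x, w)).map fun w' => (w', e)) ∧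
      ∀ x (y : W × E'), H (1, x, y) = f (x, y) := by
  obtain ⟨n, hn⟩ := Nat.exists_eq_succ_of_ne_zero (Module.finrank_pos (R := ℝ) (M := E')).ne'
  let e : E' ≃L[ℝ] (Fin n → ℝ) × ℝ := .ofFinrankEq (by simp [hn])
  let L : (W × E') ≃L[ℝ] (W × (Fin n → ℝ)) × ℝ :=
    ((ContinuousLinearEquiv.refl ℝ W).prodCongr e).trans (ContinuousLinearEquiv.prodAssoc ℝ ..).symm
  have := FiniteDimensional.proper_real W
  have := FiniteDimensional.proper_real (W × E')
  obtain ⟨U, u1, u2, u3⟩ := smash (F := Fin n → ℝ) hv h0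
  obtain ⟨H, a, b, c, d, k⟩ := bend u1 u2
  choose g k k' using k
  have cL := L.toHomeomorph.onePointCongr.continuous
  have cL' := L.symm.toHomeomorph.onePointCongr.continuous
  have cg : Continuous fun z : B × ((W × (Fin n → ℝ)) × ℝ) => g z.1 z.2 :=
    isOpenEmbedding_coe.isEmbedding.continuous_iff.2 ((a.comp (continuous_fst.prodMk
      (continuous_const.prodMk (continuous_coe.comp continuous_snd)))).congr fun z => k z.1 z.2)
  refine ⟨fun z => (H (z.2.1, z.1, z.2.2.map L)).map L.symm, fun z => L.symm (g z.1 (L z.2)),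
    cL'.comp (a.comp (continuous_snd.fst.prodMk (continuous_fst.prodMk
      (cL.comp continuous_snd.snd)))), L.symm.continuous.comp (cg.comp (continuous_fst.prodMk
      (L.continuous.comp continuous_snd))), fun r => ?_, fun t x => by simp [b], fun x h t y => ?_,
    fun x w e' => ?_, fun x y => by simp [k]⟩
  · obtain ⟨M, M0, hM⟩ := L.toContinuousLinearMap.bound
    obtain ⟨M', M0', hM'⟩ := L.symm.toContinuousLinearMap.bound
    refine ⟨M' * (2 * (M * |r|) ^ 2 + M * |r| + 2), fun x y hy => not_lt.1 fun l => ?_⟩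
    have p : ‖g x (L y)‖ ≤ M * |r| := by
      have := hM (L.symm (g x (L y)))
      simp only [ContinuousLinearEquiv.coe_coe, ContinuousLinearEquiv.apply_symm_apply] at this
      exact this.trans (mul_le_mul_of_nonneg_left (l.le.trans (le_abs_self r)) M0.le)
    have q : 2 * (M * |r|) ^ 2 + M * |r| + 2 ≤ ‖L y‖ := by
      have := hM' (L y)
      simp only [ContinuousLinearEquiv.coe_coe, ContinuousLinearEquiv.symm_apply_apply] at this
      exact le_of_mul_le_mul_left (hy.trans this) M0'
    have s1 := (le_abs_self _).trans (norm_snd_le (g x (L y)))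
    have s2 := (neg_le_abs _).trans (norm_snd_le (L y))
    have s3 := pow_le_pow_left₀ (norm_nonneg _) p 2
    have : 0 ≤ M * |r| := by positivity
    nlinarith [k' x (L y), nn_le (g x (L y)), le_nn (L y), sq_nonneg (M * |r|)]
  · have : ∀ s, U (x, s) = s := fun s => by
      induction s using OnePoint.rec with
      | infty => exact u2 x
      | coe y => exact (u3 x y.1 y.2).trans (by simp [h])
    induction y using OnePoint.rec <;> simp [c x this]
  · have : L (w, e') = ((w, (e e').1), (e e').2) := rfl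
    simp only [map_some, this, d, u3]
    induction v (x, w) using OnePoint.rec with
    | infty => rfl
    | coe w' => exact congrArg _ (L.symm_apply_apply (w', e'))

/-- **normal form** -/
theorem nf [Nontrivial E'] {v : B × OnePoint W → OnePoint W} (hv : Continuous v)
    (h0 : ∀ x, v (x, ∞) = ∞) {A : Set B} (hA : ∀ x ∈ A, ∀ s, v (x, s) = s) {a : ℝ} (ha : 0 < a) :
    ∃ (v' : B × (W × E') → W × E') (H : I × B × OnePoint (W × E') → OnePoint (W × E')),
      Continuous v' ∧ (∀ x y, ‖y‖ ≤ a ∨ x ∈ A → v' (x, y) = y) ∧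
      (∀ c : ℝ, ∃ R : ℝ, ∀ x y, R ≤ ‖y‖ → c ≤ ‖v' (x, y)‖) ∧ Continuous H ∧
      (∀ t x, H (t, x, ∞) = ∞) ∧
      (∀ x (w : W) (e : E'), H (0, x, ((w, e) : W × E')) = (v (x, w)).map fun w' => (w', e)) ∧
      (∀ x (y : W × E'), H (1, x, y) = v' (x, y)) ∧ ∀ t, ∀ x ∈ A, ∀ y, H (t, x, y) = y := by
  have := FiniteDimensional.proper_real (W × E')
  obtain ⟨H, f, a1, a2, a3, a4, a5, a6, a7⟩ := honest (E' := E') hv h0
  obtain ⟨K, b1, b2, b3, b4, b5⟩ := near a2 a3 ha
  have c := continuous_ext b1 b2
  have fA : ∀ x ∈ A, ∀ y, f (x, y) = y := fun x k y =>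
    coe_injective ((a7 x y).symm.trans (a5 x (hA x k) 1 y))
  let K' : I × B × OnePoint (W × E') → OnePoint (W × E') := fun z => ext K ((z.1, z.2.1), z.2.2)
  have c' : Continuous K' := c.comp (by fun_prop)
  let H1 : ContinuousMap.Homotopy (⟨fun z => H (0, z), by fun_prop⟩ : C(_, _))
    (⟨fun z => H (1, z), by fun_prop⟩ : C(_, _)) := ⟨⟨H, a1⟩, fun _ => rfl, fun _ => rfl⟩
  let H2 : ContinuousMap.Homotopy (⟨fun z => H (1, z), by fun_prop⟩ : C(_, _))
    (⟨fun z => K' (1, z), by fun_prop⟩ : C(_, _)) := ⟨⟨K', c'⟩, fun ⟨x, s⟩ => by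
      induction s using OnePoint.rec with
      | infty => exact (a4 1 x).symm
      | coe y => exact (congrArg _ (b3 x y)).trans (a7 x y).symm, fun _ => rfl⟩
  refine ⟨fun z => K ((1, z.1), z.2), H1.trans H2, by fun_prop, fun x y k => ?_, fun r => ?_,
    (H1.trans H2).continuous, fun t x => ?_, fun x w e => ?_, fun x y => (H1.trans H2).apply_one _,
    fun t x k y => ?_⟩
  · exact k.elim (b4 x y) fun k => b5 1 x y (fA x k y)
  · exact (b2 r).imp fun R h x y => h (1, x) y
  · rw [ContinuousMap.Homotopy.trans_apply]; split_ifs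
    exacts [a4 _ x, rfl]
  · exact ((H1.trans H2).apply_zero _).trans (a6 x w e)
  · rw [ContinuousMap.Homotopy.trans_apply]; split_ifs
    · exact a5 x (hA x k) _ y
    · induction y using OnePoint.rec with
      | infty => rfl
      | coe y => exact congrArg _ (b5 _ x y (fA x k y))

end Crest.Agent.N218.Nf
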