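import Crest.Agent.N218.D7.St
import Crest.Agent.N218.D7.Nf
import Crest.Agent.N218.Pm.Kit2
import Crest.Agent.N218.Pm.Loop0
import Crest.Agent.N218.Pm.Cj

/-!
# Row 218 (helper78): the normal form of the orbit loop
-/

set_option autoImplicit false
set_option linter.unusedSectionVars false

open Set OnePoint unitInterval Metric
open scoped InnerProductSpace

noncomputable section

namespace Crest.Agent.N218.D7

open Pm Pm.Lo

namespace Nft

variable {B E : Type} [TopologicalSpace B] [T2Space B] [NormedAddCommGroup E] [NormedSpace ℂ E]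
  [FiniteDimensional ℂ E] {k : ℕ}

theorem coe_un {s : OnePoint E} (h : s ≠ ∞) : ((un s : E) : OnePoint E) = s := by
  induction s using OnePoint.rec
  exacts [absurd rfl h, rfl]

variable (k) in
/-- the slotwise family -/
def N0 (a : PT B E) : PM B k E :=
  ⟨{w | ∀ i, a.f (w.1, (w.2 i : E)) ≠ ∞}, fun w i => un (a.f (w.1, (w.2 i : E))), fun _ => 1⟩

theorem N0_ok (a : PT B E) : (N0 k a).Ok := by
  have := FiniteDimensional.proper_rclike ℂ E
  have c : ∀ i, Continuous fun w : B × V k E => a.f (w.1, (w.2 i : E)) := fun i =>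
    a.ct.comp (continuous_fst.prodMk (continuous_coe.comp (by fun_prop)))
  have ct : ContinuousOn (N0 k a).P (N0 k a).O := continuousOn_pi.2 fun i =>
    isOpenEmbedding_coe.isInducing.continuousOn_iff.2
      ((c i).continuousOn.congr fun w h => coe_un (h i))
  refine ⟨?_, fun w h i => h _, ct, fun _ _ => rfl, fun K hK R => ?_, continuous_const,
    fun _ _ => rfl, fun _ _ e => e⟩
  · simp only [N0, ofPred_forall]
    exact isOpen_iInter_of_finite fun i => isOpen_ne_fun (c i) continuous_const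
  · have s : IsCompact (Prod.map id (↑) ⁻¹' (K ×ˢ univ ∩ a.f ⁻¹' ((↑) '' closedBall (0 : E) R)) :
        Set (B × E)) := by
      refine (Topology.IsInducing.id.prodMap isOpenEmbedding_coe.isInducing).isCompact_preimage'
        ((hK.prod isCompact_univ).inter_right
          (((isCompact_closedBall _ _).image continuous_coe).isClosed.preimage a.ct)) ?_
      rintro ⟨b, s⟩ ⟨-, y, -, e⟩
      induction s using OnePoint.rec with
      | infty => exact absurd (e.trans (a.pt b)) (coe_ne_infty _)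
      | coe s => exact ⟨(b, s), rfl⟩
    obtain ⟨R', hR⟩ := s.exists_bound_of_continuousOn continuous_snd.continuousOn
    refine pp_of ct (C := K ×ˢ closedBall 0 (max R' 0) ∩ ⋂ i, (fun w => (w.1, w.2 i)) ⁻¹' _)
      ((hK.prod (isCompact_closedBall _ _)).inter_right
        (isClosed_iInter fun i => s.isClosed.preimage (by fun_prop))) (fun w h i e => ?_) hK
      fun w h m b => ?_
    · obtain ⟨-, y, -, z⟩ := mem_iInter.1 h.2 i
      exact coe_ne_infty _ (z.trans e)
    · have z : ∀ i, (w.1, w.2 i) ∈ (Prod.map id (↑) ⁻¹' (K ×ˢ univ ∩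
          a.f ⁻¹' ((↑) '' closedBall (0 : E) R)) : Set (B × E)) := fun i => ⟨⟨m, trivial⟩, _,
        mem_closedBall_zero_iff.2 ((norm_le_pi_norm _ i).trans b), coe_un (h i)⟩
      exact ⟨⟨m, mem_closedBall_zero_iff.2 ((pi_norm_le_iff_of_nonneg (le_max_right _ _)).2
        fun i => (hR _ (z i)).trans (le_max_left _ _))⟩, mem_iInter.2 z⟩

/-- the circle action is a family of frames -/
theorem gi_g {r : B → ℝ} (h : Continuous r) :
    Gi (k := k) (E := E) fun b => (Fo.g (r b)).restrictScalars ℝ :=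
  ⟨continuous_clm_apply.2 fun y => Fo.cont_g h continuous_const, fun _ y => g_sh' _ y,
    fun b y e => by rw [← Fo.g_neg (r b) y]; exact (congrArg _ e).trans (map_zero _)⟩

theorem g_rep (r : ℝ) (y : V k E) (i : Ix k) :
    Fo.g (-rep (r : UnitAddCircle)) y i = Fo.g (-r) y (i + ((⌊r⌋ : ℤ) : Ix k)) := by
  rw [rep_coe, show -(r + ((-⌊r⌋ : ℤ) : ℝ)) = ((⌊r⌋ : ℤ) : ℝ) + -r by push_cast; ring, Fo.g_add,
    g_int]; rfl

variable (k) in
/-- the orbit loop of a pointed family -/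
def QN (a : PT B E) : PM (B × UnitAddCircle) k E :=
  ⟨{w | ∀ i, a.f (w.1.1, (Fo.g (-rep w.1.2) w.2 i : E)) ≠ ∞},
    fun w => Fo.g (rep w.1.2) fun i => un (a.f (w.1.1, (Fo.g (-rep w.1.2) w.2 i : E))), fun _ => 1⟩

theorem QN_ok (a : PT B E) : (QN k a).Ok := by
  refine desc (φ := Prod.map id (↑))
    (IsOpenQuotientMap.id.prodMap QuotientAddGroup.isOpenQuotientMap_mk)
    (fun K hK => ⟨(Prod.fst '' K) ×ˢ Icc 0 1, (hK.image continuous_fst).prod isCompact_Icc,
      fun b hb => ⟨(b.1, rep b.2), ⟨⟨_, hb, rfl⟩, rep_mem _⟩, by simp [coe_rep]⟩⟩)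
    (((N0_ok a).pull continuous_fst).cf (gi_g continuous_snd.neg) (gi_g continuous_snd)) ?_ ?_
    fun b => ContinuousLinearMap.ext fun y => (Fo.g_neg' _ y).symm
  · rintro ⟨x, r⟩ y
    change (∀ i, a.f (x, (Fo.g (-rep (r : UnitAddCircle)) y i : E)) ≠ ∞) ↔
      ∀ i, a.f (x, (Fo.g (-r) y i : E)) ≠ ∞
    simp only [g_rep]
    exact ⟨fun a i => by simpa using a (i - ((⌊r⌋ : ℤ) : Ix k)), fun a i => a _⟩
  · rintro ⟨x, r⟩ y -
    change Fo.g (rep (r : UnitAddCircle)) (fun i =>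
      un (a.f (x, (Fo.g (-rep (r : UnitAddCircle)) y i : E)))) = Fo.g r _
    simp only [g_rep]
    rw [rep_coe, Fo.g_add, g_int]
    congr 1
    funext i
    simp [Fo.sh, N0, PM.pull]

theorem g_mn (r : ℝ) (y : V k E) : Pm.mn (Fo.g r y) = Fo.g r (Pm.mn y) :=
  (gi_g (B := ℝ) continuous_id).mn r y

/-- the transported normalising function -/
theorem tau_g {δ : ℝ} (hδ : 0 < δ) : ∃ δ', Tau δ' fun w : (B × UnitAddCircle) × V k E =>
    tau δ ((), Fo.g (-rep w.1.2) w.2) := by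
  have G := gi_g (k := k) (E := E) (B := ℝ) continuous_neg
  obtain ⟨C, C0, lo⟩ := G.lo (isCompact_Icc (a := 0) (b := 1))
  obtain ⟨C', C1, hi⟩ := G.hi (isCompact_Icc (a := 0) (b := 1))
  have t := tau_ok (B := Unit) (k := k) (E := E) hδ
  obtain ⟨d, d0, z⟩ := t.z univ isCompact_univ
  refine ⟨C * δ, ?_, fun w => ?_, fun w => t.mem _, fun _ _ => ⟨d / C', by positivity,
    fun w _ l => z _ trivial ?_⟩, fun w l => t.o _ ?_⟩
  · refine (((IsOpenQuotientMap.id.prodMap QuotientAddGroup.isOpenQuotientMap_mk).prodMap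
      (IsOpenQuotientMap.id (X := V k E))).continuous_comp_iff).1 ?_
    refine (t.ct.comp (f := fun w : (B × ℝ) × V k E => ((), Fo.g (-w.1.2) w.2))
      (by fun_prop)).congr fun w => ?_
    have e : Fo.g (-rep (w.1.2 : UnitAddCircle)) (Pm.mn w.2) =
        Fo.g (-w.1.2) (Pm.mn w.2) ∘ Equiv.addRight ((⌊w.1.2⌋ : ℤ) : Ix k) :=
      funext fun i => g_rep _ _ i
    change tau δ ((), Fo.g (-w.1.2) w.2) = tau δ ((), Fo.g (-rep (w.1.2 : UnitAddCircle)) w.2)
    simp only [tau, g_mn, e, (Equiv.addRight _).surjective.pi_norm_comp]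
  · simp only [g_sh']; exact t.inv ((), _)
  · rw [g_mn]; exact (hi _ (rep_mem _) _).trans_lt ((lt_div_iff₀' C1).1 l)
  · rw [g_mn]; exact le_of_mul_le_mul_left (l.trans (lo _ (rep_mem _) _)) C0

theorem mn_eq' (y : V k E) : D7.mn (· + ((2 ^ k : ℕ) : Ix k)) y = Pm.mn y := by
  funext i; simp [D7.mn, Pm.mn]

/-- honest families -/
theorem eqv_ol [CompactSpace B] {a : PT B E} {v : B × E → E} (h : ∀ x (y : E), a.f (x, y) = v (x, y))
    {δ : ℝ} (hδ : 0 < δ) : ((QN k a).F (tau δ)).Eqv (OL k v δ) := by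
  obtain ⟨δ', t⟩ := tau_g (B := B) (k := k) (E := E) hδ
  refine (PM.eqv_tau (QN_ok a) ((tau_ok hδ).mono (le_max_left _ δ')) (t.mono (le_max_right δ _))
    (PM.cs_cpt _ _)).trans ((PM.fok (QN_ok a) t (PM.cs_cpt _ _)).eqv_sm
      ⟨Set.ext fun w => and_iff_left fun i => by rw [h]; exact coe_ne_infty _, fun w _ => ?_⟩)
  have s : ∀ (r t : ℝ) (y : V k E), Fo.g r (t • y) = t • Fo.g r y := fun r t y =>
    ((Fo.g r).restrictScalars ℝ).map_smul t y
  simp only [PM.F, QN, OL, h, map_sub, s, ← g_mn]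
  rw [one_apply_eq_self, ← Fo.g_neg' (rep w.1.2) (Pm.mn w.2), ← s, ← map_add, ← g_mn]
  congr 1
  funext i
  simp only [nz, mn_eq']; rfl

end Nft

open Nft in
theorem nft : NFT := by
  intro A _ T E₁ E₂ _ _ _ _ _ _ k δ hk hd a p nt ha
  obtain ⟨v, H, a1, a2, a3, a4, a5, a6, a7, -⟩ := Nf.nf (E' := E₂) a.ct a.pt
    (A := {x : Sx | -1 / 2 ≤ ⟪x.1, p.1⟫_ℝ}) (fun x h s => ha x s h) (a := 4 * δ) (by positivity)
  refine ⟨v, ⟨a1, fun x y h => a2 x y (.inl h), fun x y h => a2 x y (.inr h), a3⟩, ?_⟩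
  let G : PT (Sx × I) (E₁ × E₂) :=
    ⟨fun z => H (z.1.2, z.1.1, z.2), a4.comp (by fun_prop), fun z => a5 _ _⟩
  have o := (QN_ok (k := k) G).pull
    (φ := fun b : (Sx × UnitAddCircle) × I => ((b.1.1, b.2), b.1.2)) (by fun_prop)
  have g : ∀ (r : ℝ) (w : V k (E₁ × E₂)) i, Fo.g r w i = (Fo.g r (s1 w) i, Fo.g r (s2 w) i) :=
    fun r w i => Prod.ext (g_N r (.fst ℂ E₁ E₂) w i) (g_N r (.snd ℂ E₁ E₂) w i)
  have e : ∀ b, (QN k (G.pull (fun x => (x, 0)) (by fun_prop))).Ag b (PL k a PT.one) b := by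
    refine fun b => ⟨fun w => ⟨?_, fun m => ?_⟩, rfl⟩
    · simp only [QN, PL, PT.pull, G, mem_ofPred_eq, g, a6, PT.one, ne_eq, coe_ne_infty,
        not_false_eq_true, implies_true, and_true]
      refine forall_congr' fun i => not_congr ?_
      generalize a.f _ = s
      induction s using OnePoint.rec <;> simp
    · simp only [QN, PT.pull, G, mem_ofPred_eq, g, a6] at m
      funext i
      simp only [QN, PL, PT.pull, G, PT.one, g, a6]
      have u : ∀ j, un ((a.f (b.1, (Fo.g (-rep b.2) (s1 w) j : E₁))).map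
          fun w' => (w', Fo.g (-rep b.2) (s2 w) j)) =
          (un (a.f (b.1, (Fo.g (-rep b.2) (s1 w) j : E₁))), Fo.g (-rep b.2) (s2 w) j) := fun j => by
        have := m j
        generalize a.f _ = s at this ⊢
        induction s using OnePoint.rec
        exacts [absurd rfl this, rfl]
      simp only [u]
      exact Prod.ext rfl (congrFun (Fo.g_neg' (rep b.2) (s2 w)) i)
  exact ((T.an_eqv k (sp (E₁ × E₂)) _ _ hk ((PM.fok (QN_ok _) (tau_ok hd)
    (PM.cs_cpt _ _)).eqv_sm (PM.F_sm e _))).symm.trans (T.an_ht (S := sp (E₁ × E₂)) hk hd o)).trans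
    (T.an_eqv k (sp (E₁ × E₂)) _ _ hk
      (eqv_ol (a := G.pull (fun x => (x, 1)) (by fun_prop)) a7 hd))

end Crest.Agent.N218.D7

end
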