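import Crest.Agent.N218.D7.St2
import Crest.Agent.N218.D7.Nft
import Crest.Agent.N218.In.Stereo

/-!
# Row 218, block D7 (helper29): change of chart
-/

set_option autoImplicit false
set_option linter.unusedVariables false
set_option linter.unusedSectionVars false

open Set Module OnePoint
open scoped InnerProductSpace

noncomputable section

namespace Crest.Agent.N218.D7

open Pm In K

namespace Cht
variable {E : Type} [NormedAddCommGroup E] [NormedSpace ℂ E] [FiniteDimensional ℂ E] {k : ℕ}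
  {δ a : ℝ} {v : Sx × E → E} {p : Sx}

theorem ok (h : NS v p a) (hd : 0 < δ) : (OL k v δ).Ok := by
  have := FiniteDimensional.proper_rclike ℂ E
  have c : Continuous (opx fun z : Sx × E => (v z : OnePoint E)) :=
    continuous_opx (continuous_coe.comp h.ct) fun K hK => by
      obtain ⟨r, hr⟩ := hK.isBounded.exists_norm_le
      obtain ⟨R, hR⟩ := h.pr (r + 1)
      refine ⟨Metric.closedBall 0 R, isCompact_closedBall _ _, fun x w w' n e m => ?_⟩
      have := hR x w (not_le.1 (mt mem_closedBall_zero_iff.2 n)).le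
      rw [coe_injective e] at this
      linarith [hr _ m]
  have e := Nft.eqv_ol (k := k) (a := ⟨_, c, fun _ => rfl⟩) (v := v) (fun _ _ => rfl) hd
  exact e.ok.1 (PM.fok (Nft.QN_ok _) (tau_ok hd) (PM.cs_cpt _ _))

theorem far (h : NS v p a) {w : (Sx × UnitAddCircle) × V k E} (z : w ∈ (OL k v δ).Z) :
    ⟪w.1.1.1, p.1⟫_ℝ < -1 / 2 := not_le.1 fun l => z.1 (by
  have := z.2
  simp only [OL] at this
  rw [show nz _ _ v (fun _ => w.1.1) (Fo.g (-rep w.1.2) w.2) = Fo.g (-rep w.1.2) w.2 from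
    funext fun i => by simp only [nz, h.far _ _ l, sub_add_cancel], Fo.g_neg'] at this
  rw [this, mn_zero])
end Cht

/-- **CHT** -/
theorem cht : CHT := by
  intro J e c E _ _ _ k δ v p he hc hk hd hv
  have : Fact (finrank ℝ R12 = 11 + 1) := ⟨by simp⟩
  have o : ∀ z ∈ c.Ω, z.1 ≠ 0 := fun z h => (he.Ω _).1 ((hc.Ω z).1 h).1
  obtain ⟨φ, h1, h2, h3, h4⟩ := Ch.sim_st (n := 11) p Emb.cr c
    (fun z => (hc.Ω z).trans (and_congr_left fun _ => he.Ω _))
    (fun z h => by rw [hc.π]; exact ⟨he.π _ (o z h), rfl⟩)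
    fun z h => by rw [hc.n, he.n _ (o z h)]; rfl
  let ψ : R11 ≃ₜ R11 := Homeomorph.smulOfNeZero (2 : ℝ) two_ne_zero
  refine ⟨fun z => v (φ (ψ z.1), z.2), ⟨hv.ct.comp (((h1.continuous.comp ψ.continuous).comp
    continuous_fst).prodMk continuous_snd), fun x y h => hv.sm _ y h, fun x y h => hv.far _ y ?_,
    fun r => (hv.pr r).imp fun R hR x y => hR _ y⟩, ?_⟩
  · have n : ‖ψ x‖ = 2 * ‖x‖ := by simp [ψ, norm_smul]
    rw [h3, n, le_div_iff₀ (by positivity)]
    nlinarith
  have := ((Ch.sim_fl ψ rfl Emb.cr).trans h4).pe J (by simp) hk (sp E) (Cht.ok hv hd) fun w z => by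
    have : w.1.1 ∈ range φ := h2 ▸ fun e => by
      have := Cht.far hv z
      rw [e, real_inner_self_eq_norm_sq, norm_eq_of_mem_sphere] at this
      linarith
    obtain ⟨y, hy⟩ := this
    exact ⟨(ψ.symm y, w.1.2), Prod.ext ((congrArg φ (ψ.apply_symm_apply y)).trans hy) rfl⟩
  refine (congrArg (Pe _) (congrArg (J.ν _ _ _) ?_)).mp this
  unfold Emb.pb flat
  congr 1
  exact Set.ext fun z => and_congr_left fun _ => and_iff_right trivial

end Crest.Agent.N218.D7

end
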