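import Crest.Agent.N218.D7.Defs

/-!
# Row 218, block D7 (helper75): the `d`-class of the normalised norm map is good
-/

set_option autoImplicit false
set_option linter.unusedVariables false
set_option linter.unusedSectionVars false

open Set

noncomputable section

namespace Crest.Agent.N218.D7

open K Fo Al

variable {B : Type} [NormedAddCommGroup B] [NormedSpace ℝ B] [FiniteDimensional ℝ B]
  [LocallyCompactSpace B] {E : Type} [NormedAddCommGroup E] [NormedSpace ℂ E]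
  [FiniteDimensional ℂ E]

theorem Vh_apply {q h c : ℕ} [NeZero q] [NeZero h] (e : q = h * c) (g : Ch h) (y : ZMod q → E) :
    (Vh q E h).ρ g y = sh ((g.toAdd.val : ZMod q) * (c : ZMod q)) y := by
  have : inc h g = inc q (Multiplicative.ofAdd ((g.toAdd.val : ZMod q) * (c : ZMod q))) := by
    refine Circle.ext ?_
    have c0 : (c : ℂ) ≠ 0 := Nat.cast_ne_zero.2 fun k => NeZero.ne q (by rw [e, k, mul_zero])
    have h0 : (h : ℂ) ≠ 0 := Nat.cast_ne_zero.2 (NeZero.ne h)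
    rw [inc_apply, inc_apply, ch_eq, toAdd_ofAdd, ← Nat.cast_mul]
    change _ = ((ZMod.toCircle ((g.toAdd.val * c : ℕ) : ZMod q) : Circle) : ℂ)
    rw [ZMod.toCircle_natCast]
    congr 1
    rw [e]; push_cast; field_simp
  change (cir q E).ρ (inc h g) y = _
  rw [this]
  exact reg_apply _ y

theorem Nn_apply {h m : ℕ} [NeZero h] (e : h = m + m) (g : Ch h) (u : Fin 5 → ℂ) :
    (Nn h m).ρ g u = (-1 : ℝ) ^ g.toAdd.val • u := funext fun i => by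
  change (pw m (inc h g) : ℂ) * u i = (-1 : ℝ) ^ g.toAdd.val • u i
  rw [pw_apply, inc_apply, ← AddChar.map_nsmul_eq_pow, nsmul_eq_mul]
  have := ch_half e g.toAdd
  rw [ch] at this
  rw [this]
  simp

variable {k : ℕ} {τ : (ZMod (2 ^ (k + 1)) → E) → ℝ} {v : B × E → E} {δ a : ℝ}

/-- the half turn -/
abbrev ht (k : ℕ) : ZMod (2 ^ (k + 1)) → ZMod (2 ^ (k + 1)) :=
  (· + ((2 ^ k : ℕ) : ZMod (2 ^ (k + 1))))

theorem ht_ht (i : ZMod (2 ^ (k + 1))) : ht k (ht k i) = i := by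
  change i + _ + _ = i
  rw [add_assoc, ← Nat.cast_add, ← two_mul, ← pow_succ', ZMod.natCast_self, add_zero]

theorem free_h {h c : ℕ} [NeZero h] (e : 2 ^ (k + 1) = h * c) {g : Ch h}
    {y : ZMod (2 ^ (k + 1)) → E} (n : mn (ht k) y ≠ 0) (hg : (Vh (2 ^ (k + 1)) E h).ρ g y = y) :
    g = 1 := by
  rw [Vh_apply e] at hg
  by_cases z : (g.toAdd.val : ZMod (2 ^ (k + 1))) * (c : ZMod (2 ^ (k + 1))) = 0
  · rw [← Nat.cast_mul, ZMod.natCast_eq_zero_iff, e] at z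
    have c0 : 0 < c := Nat.pos_of_ne_zero fun k' => by simp [k'] at e
    have := Nat.eq_zero_of_dvd_of_lt (Nat.dvd_of_mul_dvd_mul_right c0 z) (ZMod.val_lt _)
    exact Multiplicative.toAdd.injective ((ZMod.val_eq_zero _).1 this)
  · exact absurd (funext fun i => by simp [mn, free_of (congrFun hg) z i]) n

theorem os_sh {S : Set (ZMod (2 ^ (k + 1)))} (g : ZMod (2 ^ (k + 1)))
    {y : ZMod (2 ^ (k + 1)) → E} :
    sh g y ∈ Os (ht k) δ ((fun i => i + g) ⁻¹' S) ↔ y ∈ Os (ht k) δ S :=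
  mem_Os_comp (Equiv.addRight g) fun i => add_right_comm _ _ _

theorem nz_sh (hi : ∀ g y, τ (sh g y) = τ y) (g : ZMod (2 ^ (k + 1)))
    (b : ZMod (2 ^ (k + 1)) → B) (y : ZMod (2 ^ (k + 1)) → E) :
    nz (ht k) τ v (fun i => b (i + g)) (sh g y) = sh g (nz (ht k) τ v b y) :=
  nz_comp (e := fun i => i + g) (fun i => add_right_comm _ _ _) v b (hi g y)

theorem fr0 {h c : ℕ} [NeZero h] (e : 2 ^ (k + 1) = h * c)
    {O : Set (B × (ZMod (2 ^ (k + 1)) → E))}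
    {f : B × (ZMod (2 ^ (k + 1)) → E) → ZMod (2 ^ (k + 1)) → E} (op : IsOpen O)
    (inv : ∀ b : ℕ, ∀ x ∈ O, (x.1, sh ((b : ZMod (2 ^ (k + 1))) * (c : ZMod (2 ^ (k + 1)))) x.2) ∈ O)
    (ct : ContinuousOn f O) (eq : ∀ b : ℕ, ∀ x ∈ O,
      f (x.1, sh ((b : ZMod (2 ^ (k + 1))) * (c : ZMod (2 ^ (k + 1)))) x.2) = sh ((b : ZMod (2 ^ (k + 1))) * (c : ZMod (2 ^ (k + 1)))) (f x))
    (cp : IsCompact {x | x ∈ O ∧ f x = 0}) (fr : ∀ x ∈ O, mn (ht k) x.2 ≠ 0) :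
    PB.Fr (⟨O, f⟩ : P0 B (2 ^ (k + 1)) E h) := by
  refine ⟨op, fun g (x : B × (ZMod (2 ^ (k + 1)) → E)) m => ?_, ct,
    fun g (x : B × (ZMod (2 ^ (k + 1)) → E)) m => ?_, cp,
    fun x m g hg => free_h e (fr x m.1) (congrArg Prod.snd hg)⟩
  · have := inv g.toAdd.val x m
    rw [← Vh_apply e] at this; exact this
  · have := eq g.toAdd.val x m
    rw [← Vh_apply e, ← Vh_apply e] at this; exact this

theorem fr1 {h c m : ℕ} [NeZero h] (e : 2 ^ (k + 1) = h * c) (hm : h = m + m)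
    {O : Set ((B × (ZMod (2 ^ (k + 1)) → E)) × (Fin 5 → ℂ))}
    {f : (B × (ZMod (2 ^ (k + 1)) → E)) × (Fin 5 → ℂ) → ZMod (2 ^ (k + 1)) → E} (op : IsOpen O)
    (inv : ∀ b : ℕ, ∀ x ∈ O,
      ((x.1.1, sh ((b : ZMod (2 ^ (k + 1))) * (c : ZMod (2 ^ (k + 1)))) x.1.2), (-1 : ℝ) ^ b • x.2) ∈ O)
    (ct : ContinuousOn f O) (eq : ∀ b : ℕ, ∀ x ∈ O,
      f ((x.1.1, sh ((b : ZMod (2 ^ (k + 1))) * (c : ZMod (2 ^ (k + 1)))) x.1.2), (-1 : ℝ) ^ b • x.2) =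
        sh ((b : ZMod (2 ^ (k + 1))) * (c : ZMod (2 ^ (k + 1)))) (f x))
    (cp : IsCompact {x | x ∈ O ∧ f x = 0}) (fr : ∀ x ∈ O, mn (ht k) x.1.2 ≠ 0) :
    PB.Fr (⟨O, f⟩ : PB (X1 B (2 ^ (k + 1)) E h m) (Vh (2 ^ (k + 1)) E h)) := by
  refine ⟨op, fun g (x : (B × (ZMod (2 ^ (k + 1)) → E)) × (Fin 5 → ℂ)) o => ?_, ct,
    fun g (x : (B × (ZMod (2 ^ (k + 1)) → E)) × (Fin 5 → ℂ)) o => ?_, cp,
    fun x m g hg => free_h e (fr x m.1) (congrArg (fun z => z.1.2) hg)⟩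
  · have := inv g.toAdd.val x o
    rw [← Vh_apply e, ← Nn_apply hm] at this; exact this
  · have := eq g.toAdd.val x o
    rw [← Vh_apply e, ← Vh_apply e, ← Nn_apply hm] at this; exact this

variable (τ v δ)

/-- the part of the problem with patterns in `F`, for the group `C_h` -/
def uF (h : ℕ) [NeZero h] (F : Set (Set (ZMod (2 ^ (k + 1))))) : P0 B (2 ^ (k + 1)) E h :=
  ⟨{x : B × (ZMod (2 ^ (k + 1)) → E) | ∃ S ∈ F, x.2 ∈ Os (ht k) δ S},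
    fun x : B × (ZMod (2 ^ (k + 1)) → E) => nz (ht k) τ v (fun _ => x.1) x.2⟩

/-- the extension over `5 L ^ m` -/
def rS (h c m : ℕ) [NeZero h] (j : (Fin 5 → ℂ) →L[ℝ] B) (S : Set (ZMod (2 ^ (k + 1)))) :
    PB (X1 B (2 ^ (k + 1)) E h m) (Vh (2 ^ (k + 1)) E h) :=
  ⟨{x : (B × (ZMod (2 ^ (k + 1)) → E)) × (Fin 5 → ℂ) | x.1.2 ∈ Os (ht k) δ S},
    fun x : (B × (ZMod (2 ^ (k + 1)) → E)) × (Fin 5 → ℂ) =>
      nz (ht k) τ v (fun i => x.1.1 + sg c i • j x.2) x.1.2⟩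

variable {τ v δ}

theorem uF_fr (hv : NF v a) (hc : Cu (ht k) τ δ) (hd : 0 < δ) (ha : 4 * δ ≤ a)
    (hi : ∀ g y, τ (sh g y) = τ y) {h c : ℕ} [NeZero h] (e : 2 ^ (k + 1) = h * c)
    {F : Set (Set (ZMod (2 ^ (k + 1))))} (ne : ∀ S ∈ F, S.Nonempty)
    (cl : ∀ S ∈ F, ∀ b : ℕ, (fun i => i + (b : ZMod (2 ^ (k + 1))) * c) ⁻¹' S ∈ F) :
    (uF τ v δ h F).Fr := by
  refine fr0 (B := B) (E := E) e ?_ (fun b x ⟨S, m, o⟩ => ⟨_, cl S m b, (os_sh _).2 o⟩)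
    (continuous_nz hv.ct hc.ct (continuous_pi fun _ => continuous_fst)
      continuous_snd).continuousOn (fun b x _ => nz_sh hi _ (fun _ => x.1) _) ?_
    fun x ⟨S, _, o⟩ => o.1
  · have : {x : B × (ZMod (2 ^ (k + 1)) → E) | ∃ S ∈ F, x.2 ∈ Os (ht k) δ S} =
        ⋃ S ∈ F, Prod.snd ⁻¹' Os (ht k) δ S := by
      ext x; simp only [mem_iUnion, exists_prop]; rfl
    exact Eq.subst (motive := IsOpen) this.symm
      (isOpen_biUnion fun S _ => (isOpen_Os _ _ _).preimage continuous_snd)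
  · have : {x | x ∈ {x : B × (ZMod (2 ^ (k + 1)) → E) | ∃ S ∈ F, x.2 ∈ Os (ht k) δ S} ∧
        nz (ht k) τ v (fun _ => x.1) x.2 = 0} = ⋃ S ∈ F, {z : B × (ZMod (2 ^ (k + 1)) → E) |
        z.2 ∈ Os (ht k) δ S ∧ nz (ht k) τ v (fun _ => z.1) z.2 = 0} := by
      ext x; simp only [mem_iUnion, exists_prop]
      exact ⟨fun ⟨⟨S, m, o⟩, z⟩ => ⟨S, m, o, z⟩, fun ⟨S, m, o, z⟩ => ⟨⟨S, m, o⟩, z⟩⟩
    refine Eq.subst (motive := IsCompact) this.symm ?_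
    have : ProperSpace B := FiniteDimensional.proper_real _
    exact (toFinite F).isCompact_biUnion fun S m => zero_cpt (β := fun x _ => x) ht_ht hv hc hd ha
      (continuous_pi fun _ => continuous_id) (fun _ _ => rfl) (isCompact_closedBall 0 1)
      fun p k => let ⟨i, hi⟩ := ne S m; mem_closedBall_zero_iff.2 (k i hi).le

theorem rS_fr (hv : NF v a) (hc : Cu (ht k) τ δ) (hd : 0 < δ) (ha : 4 * δ ≤ a)
    (hi : ∀ g y, τ (sh g y) = τ y) {s c : ℕ} [NeZero (s + s + (s + s))]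
    (e : 2 ^ (k + 1) = (s + s + (s + s)) * c) {j : (Fin 5 → ℂ) →L[ℝ] B}
    (hj : Function.Injective j) {S : Set (ZMod (2 ^ (k + 1)))} (ne : S.Nonempty)
    (cl : ∀ b : ℕ, (fun i => i + (b : ZMod (2 ^ (k + 1))) * c) ⁻¹' S = S) :
    (rS τ v δ (s + s + (s + s)) c (s + s) j S).Fr := by
  have ev : Even (s + s + (s + s)) := ⟨_, rfl⟩
  refine fr1 (B := B) (E := E) e rfl ((isOpen_Os _ _ _).preimage continuous_fst.snd)
    (fun b x o => cl b ▸ (os_sh _).2 o)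
    (continuous_nz hv.ct hc.ct (continuous_pi fun _ => continuous_fst.fst.add
      ((j.continuous.comp continuous_snd).const_smul _)) continuous_fst.snd).continuousOn
    (fun b x _ => ?_) ?_ fun x o => o.1
  · rw [← nz_sh hi]
    congr 1; funext i
    rw [sg_add e ev, map_smul, smul_smul, mul_comm (sg c i)]
  · obtain ⟨K, -, hK⟩ := j.exists_antilipschitzWith (LinearMap.ker_eq_bot.2 hj)
    have : ProperSpace B := FiniteDimensional.proper_real _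
    have c := zero_cpt (P := B × (Fin 5 → ℂ)) (β := fun x i => x.1 + sg c i • j x.2) (S := S)
      ht_ht hv hc hd ha (continuous_pi fun _ => continuous_fst.add
        ((j.continuous.comp continuous_snd).const_smul _)) (fun p i => ?_)
      ((isCompact_closedBall 0 1).prod (isCompact_closedBall 0 K)) fun p hp => ?_
    · refine Eq.subst (motive := IsCompact) ?_ (c.image (f := fun z => ((z.1.1, z.2), z.1.2))
        (by fun_prop))
      ext ⟨⟨x, y⟩, u⟩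
      exact ⟨fun ⟨z, o, k⟩ => by cases k; exact o, fun o => ⟨((x, u), y), o, rfl⟩⟩
    · have : ((2 ^ k : ℕ) : ZMod (2 ^ (k + 1))) = ((s + s : ℕ) : ZMod (2 ^ (k + 1))) * c := by
        rw [← Nat.cast_mul]; congr 1
        rw [pow_succ, add_mul] at e; omega
      change p.1 + sg c (i + _) • j p.2 = _
      rw [this, sg_add e ev, Even.neg_one_pow ⟨s, rfl⟩, one_mul]
    · obtain ⟨i, hi⟩ := ne
      have a1 := hp i hi
      have a2 := hp (i + ((1 : ℕ) : ZMod (2 ^ (k + 1))) * c) ((Set.ext_iff.1 (cl 1) i).2 hi)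
      rw [sg_add e ev, pow_one, neg_one_mul, neg_smul] at a2
      have b1 := norm_add_le (p.1 + sg c i • j p.2) (p.1 + -(sg c i • j p.2))
      have b2 := norm_sub_le (p.1 + sg c i • j p.2) (p.1 + -(sg c i • j p.2))
      rw [show p.1 + sg c i • j p.2 + (p.1 + -(sg c i • j p.2)) = (2 : ℝ) • p.1 by module,
        norm_smul, Real.norm_two] at b1
      rw [show p.1 + sg c i • j p.2 - (p.1 + -(sg c i • j p.2)) = (2 : ℝ) • sg c i • j p.2 by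
        module, norm_smul, norm_smul, Real.norm_two, Real.norm_eq_abs, sg_abs] at b2
      have b3 := hK.le_mul_dist p.2 0
      rw [map_zero, dist_zero_right, dist_zero_right] at b3
      refine ⟨mem_closedBall_zero_iff.2 (by linarith), mem_closedBall_zero_iff.2 ?_⟩
      change ‖p.2‖ ≤ K * ‖j p.2‖ at b3
      nlinarith [K.2, norm_nonneg (j p.2)]

/-- one orbit of patterns -/
theorem good_orb (T : DT B (2 ^ (k + 1)) E) (hB : 10 ≤ Module.finrank ℝ B) (hk : 4 ≤ k)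
    (hv : NF v a) (hc : Cu (ht k) τ δ) (hd : 0 < δ) (ha : 4 * δ ≤ a)
    (hi : ∀ g y, τ (sh g y) = τ y) {S : Set (ZMod (2 ^ (k + 1)))} (ne : S.Nonempty) :
    ∃ d ∈ OS, T.D (2 ^ (k + 1)) (uF τ v δ (2 ^ (k + 1)) {S' | ∃ g, S' = (fun i => i + g) ⁻¹' S}) d ∧
      Gd (2 ^ (k + 1)) d := by
  obtain ⟨h, c, e, st⟩ := stab S
  have : NeZero h := ⟨fun k' => by simp [k'] at e⟩
  have cl : ∀ b : ℕ, (fun i => i + (b : ZMod (2 ^ (k + 1))) * c) ⁻¹' S = S :=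
    fun b => (st _).2 ⟨b, rfl⟩
  have fq : (uF τ v δ h {S}).Fr := uF_fr hv hc hd ha hi e (fun _ m => m ▸ ne)
    fun _ m b => m ▸ cl b
  have fp : (uF τ v δ (2 ^ (k + 1)) {S' | ∃ g, S' = (fun i => i + g) ⁻¹' S}).Fr :=
    uF_fr hv hc hd ha hi (mul_one _).symm (fun _ ⟨g, m⟩ => let ⟨i, o⟩ := ne
      ⟨i - g, by rw [m]; simpa using o⟩) fun _ ⟨g, m⟩ b =>
        ⟨b * (1 : ℕ) + g, by rw [m]; ext i; simp only [mem_preimage, add_assoc]⟩
  obtain ⟨x, xm, hx⟩ := T.ex h _ fq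
  have tm := OS.mul_mem t_mem xm
  have tr := T.trf h c e _ _ _ fp fq (fun z ⟨_, m, o⟩ => ⟨⟨S, ⟨0, by ext; simp⟩, m ▸ o⟩, rfl⟩)
    (fun z g ⟨_, m, o⟩ ⟨_, m', o'⟩ => (st g).1 (Os_inj ((os_sh g).2 (m ▸ o)) (m' ▸ o')))
    (fun z ⟨⟨_, ⟨g, m⟩, o⟩, _⟩ => ⟨-g, S, rfl, by
      have := (os_sh (-g)).2 (m ▸ o)
      rwa [show (fun i => i + -g) ⁻¹' ((fun i => i + g) ⁻¹' S) = S by ext; simp] at this⟩) tm hx
  refine ⟨_, OS.mul_mem (N_mem (OS.pow_mem L_mem _) _) tm, tr, ?_⟩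
  have four : ∀ s, h = s + s + (s + s) → ∃ x' ∈ OS, ∃ y ∈ OS, ∃ b, ∃ b' ∈ OS,
      t ^ 4 * (t * x) = (1 - L ^ (s + s)) ^ 5 * (2 * x' + t * y) + t ^ 11 * b +
        (1 - L ^ (s + s + (s + s))) * b' := by
    rintro s rfl
    obtain ⟨j, hj⟩ : ∃ j : (Fin 5 → ℂ) →ₗ[ℝ] B, Function.Injective j :=
      (finrank_le_iff_exists_linearMap).1 (by
        rw [Module.finrank_pi_fintype]; simpa using hB)
    refine T.ext s (rS τ v δ _ c (s + s) j.toContinuousLinearMap S) _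
      (rS_fr hv hc hd ha hi e hj ne cl) ?_
    convert hx using 1
    simp only [rS, uF, PB.comap, map_zero, smul_zero, add_zero, mem_singleton_iff, exists_eq_left]
    rfl
  have gh : Gh h (t * x) := by
    rcases div_cases e with rfl | rfl | ⟨s, s0, hs⟩
    · exact Gh.one xm
    · exact Gh.two xm
    · obtain ⟨x', a1, y, a2, b, b', a3, a4⟩ := four s hs
      exact hs ▸ Gh.four s0 a1 a2 a3 a4
  obtain ⟨n, rfl⟩ := Nat.exists_eq_add_of_le hk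
  rcases div_cases' e with rfl | ⟨m, rfl⟩
  · rw [mul_one] at e
    have hs : h = 2 ^ (n + 3) + 2 ^ (n + 3) + (2 ^ (n + 3) + 2 ^ (n + 3)) := by rw [← e]; ring
    obtain ⟨x', a1, y, a2, b, b', a3, a4⟩ := four _ hs
    have := Gh.top (n := 4) (j := 4) (s := 2 ^ (n + 3) + 2 ^ (n + 3)) ⟨2 ^ n, by ring⟩
      (by norm_num) (OS.add_mem (OS.mul_mem (ofNat_mem OS 2) a1) (OS.mul_mem t_mem a2)) a3 a4
      (hs ▸ gh)
    rw [← hs, ← e] at this
    simpa [N] using this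
  · rw [e]
    refine Gh.ind ⟨2 ^ (n + 1), ?_⟩ tm gh
    have : 2 ^ (4 + n + 1) = 2 * (8 * 2 ^ (n + 1)) := by ring
    rw [mul_add] at e; omega

theorem good_all (T : DT B (2 ^ (k + 1)) E) (hB : 10 ≤ Module.finrank ℝ B) (hk : 4 ≤ k)
    (hv : NF v a) (hc : Cu (ht k) τ δ) (hd : 0 < δ) (ha : 4 * δ ≤ a)
    (hi : ∀ g y, τ (sh g y) = τ y) (n : ℕ) : ∀ F : Set (Set (ZMod (2 ^ (k + 1)))), F.ncard ≤ n →
    (∀ S ∈ F, S.Nonempty) → (∀ S ∈ F, ∀ g, (fun i => i + g) ⁻¹' S ∈ F) →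
    ∃ d ∈ OS, T.D (2 ^ (k + 1)) (uF τ v δ (2 ^ (k + 1)) F) d ∧ Gd (2 ^ (k + 1)) d := by
  have fr : ∀ F : Set (Set (ZMod (2 ^ (k + 1)))), (∀ S ∈ F, S.Nonempty) →
      (∀ S ∈ F, ∀ g, (fun i => i + g) ⁻¹' S ∈ F) → (uF τ v δ (2 ^ (k + 1)) F).Fr :=
    fun F ne cl => uF_fr hv hc hd ha hi (mul_one _).symm ne fun S m b => cl S m _
  have em : ∃ d ∈ OS, T.D (2 ^ (k + 1)) (uF τ v δ (2 ^ (k + 1)) ∅) d ∧ Gd (2 ^ (k + 1)) d :=
    ⟨0, OS.zero_mem, T.emp _ (fr ∅ (fun _ m => m.elim) fun _ m => m.elim)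
      (eq_empty_of_forall_notMem fun _ ⟨⟨_, m, _⟩, _⟩ => m.elim), Gd.zero _⟩
  induction n with
  | zero => intro F hF _ _; rw [(ncard_eq_zero (toFinite F)).1 (Nat.le_zero.1 hF)]; exact em
  | succ n ih =>
    intro F hF ne cl
    rcases F.eq_empty_or_nonempty with rfl | ⟨S, hS⟩
    · exact em
    let o := {S' | ∃ g, S' = (fun i => i + g) ⁻¹' S}
    have sub : o ⊆ F := fun _ ⟨g, m⟩ => m ▸ cl S hS g
    have So : S ∈ o := ⟨0, by ext; simp⟩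
    have co : ∀ S' ∈ o, ∀ g, (fun i => i + g) ⁻¹' S' ∈ o := fun _ ⟨g, m⟩ g' =>
      ⟨g' + g, by rw [m]; ext i; simp only [mem_preimage, add_assoc]⟩
    have cd : ∀ S' ∈ F \ o, ∀ g, (fun i => i + g) ⁻¹' S' ∈ F \ o := fun S' m g =>
      ⟨cl _ m.1 g, fun c => m.2 (by
        have := co _ c (-g)
        rwa [show (fun i => i + -g) ⁻¹' ((fun i => i + g) ⁻¹' S') = S' by ext; simp] at this)⟩
    obtain ⟨d, a1, a2, a3⟩ := good_orb T hB hk hv hc hd ha hi (ne S hS)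
    obtain ⟨d', b1, b2, b3⟩ := ih (F \ o) (Nat.lt_succ_iff.1 (lt_of_lt_of_le (ncard_lt_ncard
      ⟨sdiff_subset, fun c => (c hS).2 So⟩ (toFinite F)) hF)) (fun S m => ne S m.1) cd
    refine ⟨d + d', OS.add_mem a1 b1, T.sum _ _ _ _ _ (fr F ne cl)
      (fr o (fun S m => ne S (sub m)) co) (fr _ (fun S m => ne S m.1) cd)
      (fun x ⟨S, m, o⟩ => ⟨S, sub m, o⟩) (fun x ⟨S, m, o⟩ => ⟨S, m.1, o⟩) (fun _ _ => rfl)
      (fun _ _ => rfl) (disjoint_left.2 fun x ⟨S, m, o⟩ ⟨S', m', o'⟩ => m'.2 (Os_inj o o' ▸ m))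
      (fun x ⟨⟨S, m, k⟩, _⟩ => ?_) a2 b2, a3.add b3⟩
    by_cases c : S ∈ o
    exacts [.inl ⟨S, c, k⟩, .inr ⟨S, ⟨m, c⟩, k⟩]

theorem core : CORE := by
  intro B _ _ _ _ k E _ _ _ T τ v δ a hB hk hd ha hv hc hi
  have cl : ∀ S ∈ {S : Set (ZMod (2 ^ (k + 1))) | S.Nonempty}, ∀ g,
      (fun i => i + g) ⁻¹' S ∈ {S : Set (ZMod (2 ^ (k + 1))) | S.Nonempty} :=
    fun S ⟨i, o⟩ g => ⟨i - g, by simpa using o⟩
  have fu : (uF τ v δ (2 ^ (k + 1)) {S | S.Nonempty}).Fr :=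
    uF_fr hv hc hd ha hi (mul_one _).symm (fun _ m => m) fun S m b => cl S m _
  have zs : (zP ((2 ^ k : ℕ) : ZMod (2 ^ (k + 1))) τ v).Z ⊆
      (uF τ v δ (2 ^ (k + 1)) {S | S.Nonempty}).O := fun x ⟨n, z⟩ => zero_mem hv hc hd ha z n
  have fz : (zP ((2 ^ k : ℕ) : ZMod (2 ^ (k + 1))) τ v).Fr := by
    refine fr0 (B := B) (E := E) (mul_one _).symm (isOpen_ne_fun ((continuous_mn _).comp continuous_snd)
      continuous_const) (fun b x o c => o (funext fun i => ?_)) (continuous_nz hv.ct hc.ct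
        (continuous_pi fun _ => continuous_fst) continuous_snd).continuousOn
      (fun b x _ => nz_sh hi _ (fun _ => x.1) _) (Eq.subst (motive := IsCompact) ?_ fu.cp)
      fun x o => o
    · have := congrFun c (i - (b : ZMod (2 ^ (k + 1))) * (1 : ℕ))
      simpa [mn, sh, add_right_comm] using this
    · ext x
      exact ⟨fun ⟨⟨_, _, o⟩, z⟩ => ⟨o.1, z⟩, fun o => ⟨zs o, o.2⟩⟩
  obtain ⟨d, a1, a2, a3⟩ := good_all T hB hk hv hc hd ha hi _ _ le_rfl (fun _ m => m) cl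
  have := T.trf _ 1 (mul_one _).symm _ _ _ fz fu (fun x ⟨_, _, o⟩ => ⟨o.1, rfl⟩)
    (fun x g _ _ => ⟨g.val, by simp⟩) (fun x o => ⟨0, by rw [sh_zero]; exact zs o⟩) a1 a2
  exact ⟨fz, d, a1, by simpa [N] using this, a3⟩

end Crest.Agent.N218.D7

end
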