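import Crest.Agent.N218.D7.Defs
import Crest.Agent.N218.K.St
import Crest.Agent.N218.K.Cx0

/-!
# Row 218, block D7 (helper72): the `d`-invariant from one pair of Thom classes (FROZEN)
-/

set_option autoImplicit false
set_option linter.unusedVariables false
set_option linter.unusedSectionVars false

open Set Polynomial

noncomputable section

namespace Crest.Agent.N218.D7

open K Fo Al

/-- the identity character -/
abbrev i1 : Circle →* Circle := MonoidHom.id Circle
/-- the unit sphere of `7 L` -/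
abbrev Y7 : GS Circle := Sp i1 continuous_id 7

section
variable {Γ : Type} [Group Γ] [Fintype Γ] [TopologicalSpace Γ] [DiscreteTopology Γ]
  (χ : Γ →* Circle)

/-- the projection of the lens space -/
def gB : C((Sp χ (cc χ) 7).Q, Y7.Q) :=
  GS.qmap _ _ (.id (US 7)) fun g _ => ⟨χ g, rfl⟩

theorem eqv7 : Eqv (Y' := Sp χ (cc χ) 7) (Y := Y7) χ (.id (US 7)) := fun _ _ => rfl

/-- the projection of the sphere bundles -/
def gH (M : LS Circle) : Hm (Sb (Sp χ (cc χ) 7) (M.res χ (cc χ))) (Sb Y7 M) (gB χ) :=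
  ((eqv7 χ).mp (cc χ) M).hm rfl (gB χ) fun _ => rfl

theorem gH_mp (M : LS Circle) :
    Mp (Y' := Sp χ (cc χ) 7) (Y := Y7) (fun y => y) (fun w => w) (gH χ M).f := fun _ _ => rfl
end

variable (B : Type) [NormedAddCommGroup B] [NormedSpace ℝ B] [FiniteDimensional ℝ B]
  [LocallyCompactSpace B] (q : ℕ) [NeZero q] (E : Type) [NormedAddCommGroup E] [NormedSpace ℂ E]
  [FiniteDimensional ℂ E]

/-- the source, at the level of the circle -/
abbrev XC : LS Circle := (LS.triv Circle B).prod (cir q E).ls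
/-- the target, at the level of the circle -/
abbrev TC : LS Circle := TT i1 continuous_id 7 (cir q E)
/-- pairs of Thom classes at the level of the circle -/
abbrev OC : Type := Ori Y7 (XC B q E).xr (TC q E) (rU i1 continuous_id 7) (3 ^ 6)

section
variable {Γ : Type} [Group Γ] [Fintype Γ] [TopologicalSpace Γ] [DiscreteTopology Γ]
  (χ : Γ →* Circle)

/-- the target as a representation of `Γ` -/
abbrev VG : Rep Γ := (cir q E).res χ (cc χ)
/-- the source as a representation of `Γ` -/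
abbrev XG : Rep Γ := (Rep.triv Γ B).prod (VG q E χ)

variable {B q E} (o : OC B q E)

/-- the restricted class of the source -/
def lS : KS (Sp χ (cc χ) 7) (XG B q E χ).ls.xr := pull (gH χ (XC B q E).xr).f o.lS
/-- the restricted class of the target -/
def lT : KS (Sp χ (cc χ) 7) (TT χ (cc χ) 7 (VG q E χ)) := pull (gH χ (TC q E)).f o.lT

/-- `a` represents the `d`-invariant of `P` -/
def DG (P : PB (XG B q E χ).ls (VG q E χ)) (a : S) : Prop :=
  ∃ p : ℤ[X], a = iS p ∧
    Dg χ (cc χ) 7 P (lT χ o) ((Sb _ _).sm (ev χ (cc χ) 7 p) (lS χ o))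
end

variable {B q E}

/-- the field `D` of `dt` -/
def DD (o : OC B q E) (h : ℕ) [NeZero h] (P : P0 B q E h) (a : S) : Prop := DG (inc h) o P a

/-- the restricted classes are Thom classes; the eigenvalue divides a power of `3` -/
structure OK (o : OC B q E) : Prop where
  tS : ∀ (h : ℕ) [NeZero h], (Sb _ _).Th (lS (inc h) o)
  tT : ∀ (h : ℕ) [NeZero h], (Sb _ _).Th (lT (inc h) o)
  dv : ∃ N c, o.rS * c = 3 ^ N

/-- the field `trf` -/
def TRF (o : OC B q E) : Prop :=
  ∀ (h c : ℕ) [NeZero h], q = h * c → ∀ (P : P0 B q E q) (Q : P0 B q E h) (a : S),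
    P.Fr → Q.Fr → (∀ x : B × (ZMod q → E), x ∈ Q.O → x ∈ P.O ∧ Q.f x = P.f x) →
    (∀ (x : B × (ZMod q → E)) (g : ZMod q), x ∈ Q.O → (x.1, sh g x.2) ∈ Q.O →
      ∃ b : ℕ, g = b * c) →
    (∀ x : B × (ZMod q → E), x ∈ P.Z → ∃ g : ZMod q, (x.1, sh g x.2) ∈ Q.O) →
    a ∈ OS → DD o h Q a → DD o q P (N (L ^ h) c * a)

/-- the field `ext` -/
def EXT (o : OC B q E) : Prop :=
  ∀ (s : ℕ) [NeZero (s + s + (s + s))]
    (R : PB (X1 B q E (s + s + (s + s)) (s + s)) (Vh q E (s + s + (s + s)))) (d : S), R.Fr →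
    DD o (s + s + (s + s)) (R.comap fun x => (x, (0 : Fin 5 → ℂ))) d →
    ∃ x ∈ OS, ∃ y ∈ OS, ∃ b, ∃ b' ∈ OS, t ^ 4 * d = (1 - L ^ (s + s)) ^ 5 * (2 * x + t * y) +
      t ^ 11 * b + (1 - L ^ (s + s + (s + s))) * b'

end Crest.Agent.N218.D7

end
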