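import Mathlib

/-!
# Row 218, block D7 (helper75): stabilisers of patterns, the sign function
-/

set_option autoImplicit false

namespace Crest.Agent.N218.D7

/-- subgroups of `ZMod q` are generated by divisors of `q` -/
theorem sub_gen {q : ℕ} [NeZero q] (H : AddSubgroup (ZMod q)) : ∃ h c : ℕ, q = h * c ∧
    ∀ a : ZMod q, a ∈ H ↔ ∃ b : ℕ, a = b * c := by
  classical
  have ex : ∃ c : ℕ, 0 < c ∧ (c : ZMod q) ∈ H := ⟨q, NeZero.pos q, by simp [H.zero_mem]⟩
  obtain ⟨c0, cH⟩ := Nat.find_spec ex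
  set c := Nat.find ex
  have key : ∀ n : ℕ, (n : ZMod q) ∈ H → c ∣ n := fun n hn => by
    by_contra k
    have p : 0 < n % c := Nat.pos_of_ne_zero fun e => k (Nat.dvd_of_mod_eq_zero e)
    refine Nat.find_min ex (Nat.mod_lt n c0) ⟨p, ?_⟩
    have : ((n % c : ℕ) : ZMod q) = n - (n / c) • (c : ZMod q) := by
      rw [eq_sub_iff_add_eq, nsmul_eq_mul, ← Nat.cast_mul, ← Nat.cast_add, mul_comm,
        Nat.mod_add_div]
    rw [this]
    exact H.sub_mem hn (H.nsmul_mem cH _)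
  obtain ⟨h, hh⟩ := key q (by simp [H.zero_mem])
  refine ⟨h, c, hh.trans (mul_comm _ _), fun a => ⟨fun ha => ?_, fun ⟨b, hb⟩ => ?_⟩⟩
  · obtain ⟨b, hb⟩ := key a.val (by rwa [ZMod.natCast_zmod_val])
    exact ⟨b, by rw [← ZMod.natCast_zmod_val a, hb]; push_cast; ring⟩
  · rw [hb, ← nsmul_eq_mul]
    exact H.nsmul_mem cH _

/-- the stabiliser of a function on the sites -/
def stb {q : ℕ} {α : Type} (y : ZMod q → α) : AddSubgroup (ZMod q) where
  carrier := {a | ∀ i, y (i + a) = y i}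
  zero_mem' := fun i => by rw [add_zero]
  add_mem' := fun {a b} ha hb i => by rw [← add_assoc, hb, ha]
  neg_mem' := fun {a} ha i => by rw [← ha, neg_add_cancel_right]

/-- the stabiliser of a pattern is generated by a divisor of `q` -/
theorem stab {q : ℕ} [NeZero q] (S : Set (ZMod q)) : ∃ h c : ℕ, q = h * c ∧
    ∀ a : ZMod q, (fun i => i + a) ⁻¹' S = S ↔ ∃ b : ℕ, a = b * c := by
  obtain ⟨h, c, e, k⟩ := sub_gen (stb fun i => i ∈ S)
  exact ⟨h, c, e, fun a => Iff.trans (Set.ext_iff.trans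
    (forall_congr' fun i => ⟨propext, Eq.to_iff⟩)) (k a)⟩

/-- divisors of a power of two -/
theorem div_cases {k h c : ℕ} (e : 2 ^ k = h * c) :
    h = 1 ∨ h = 2 ∨ ∃ s, s ≠ 0 ∧ h = s + s + (s + s) := by
  obtain ⟨j, -, rfl⟩ := (Nat.dvd_prime_pow Nat.prime_two).1 ⟨c, e⟩
  match j with
  | 0 => exact .inl rfl
  | 1 => exact .inr (.inl rfl)
  | j + 2 => exact .inr (.inr ⟨2 ^ j, by positivity, by ring⟩)

theorem div_cases' {k h c : ℕ} (e : 2 ^ k = h * c) : c = 1 ∨ ∃ m, c = m + m := by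
  obtain ⟨j, -, rfl⟩ := (Nat.dvd_prime_pow Nat.prime_two).1 ⟨h, e.trans (mul_comm _ _)⟩
  match j with
  | 0 => exact .inl rfl
  | j + 1 => exact .inr ⟨2 ^ j, by ring⟩

/-- points moved by the involution are free -/
theorem free_of {k : ℕ} {α : Type} {y : ZMod (2 ^ (k + 1)) → α} {a : ZMod (2 ^ (k + 1))}
    (ha : ∀ i, y (i + a) = y i) (a0 : a ≠ 0) (i : ZMod (2 ^ (k + 1))) :
    y (i + ((2 ^ k : ℕ) : ZMod (2 ^ (k + 1)))) = y i := by
  obtain ⟨h, c, e, H⟩ := sub_gen (stb y)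
  rcases div_cases' (e.trans (mul_comm _ _)) with rfl | ⟨m, rfl⟩
  · obtain ⟨b, rfl⟩ := (H a).1 ha
    rw [one_mul] at e
    exact absurd (by rw [← e, ZMod.natCast_self, mul_zero]) a0
  · refine (H _).2 ⟨m, ?_⟩ i
    rw [← Nat.cast_mul]; congr 1
    rw [pow_succ, add_mul] at e; omega

/-- the sign of a site -/
def sg {q : ℕ} (c : ℕ) (i : ZMod q) : ℝ := (-1) ^ (i.val / c)

theorem sg_abs {q : ℕ} (c : ℕ) (i : ZMod q) : |sg c i| = 1 := by simp [sg, abs_pow]

theorem sg_add {q h c : ℕ} [NeZero q] (e : q = h * c) (ev : Even h) (i : ZMod q) (b : ℕ) :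
    sg c (i + (b : ZMod q) * (c : ZMod q)) = (-1) ^ b * sg c i := by
  have c0 : 0 < c := Nat.pos_of_ne_zero fun k => NeZero.ne q (by rw [e, k, mul_zero])
  have a : i + (b : ZMod q) * (c : ZMod q) = ((i.val + b * c : ℕ) : ZMod q) := by push_cast; rw [ZMod.natCast_zmod_val]
  rw [sg, sg, a, ZMod.val_natCast, ← pow_add]
  obtain ⟨m, rfl⟩ := ev
  have d := Nat.mod_add_div (i.val + b * c) q
  generalize (i.val + b * c) % q = r at *
  generalize (i.val + b * c) / q = n at *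
  have : b + i.val / c = r / c + 2 * (m * n) := by
    rw [add_comm, ← Nat.add_mul_div_right _ _ c0, ← d, ← Nat.add_mul_div_right _ _ c0, e]
    congr 1; ring
  rw [this, pow_add, pow_mul]; simp

end Crest.Agent.N218.D7
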