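import Crest.Agent.N218.D7.Geo
import Crest.Agent.N218.D7.Grp
import Crest.Agent.N218.K.Pb
import Crest.Agent.N218.Fo.Rp
import Crest.Agent.N218.Al.Orb

/-!
# Row 218, block D7 (helper75): the abstract `d`-invariant over an 11-dimensional base (FROZEN)
-/

set_option autoImplicit false
set_option linter.unusedVariables false

open Set

noncomputable section

namespace Crest.Agent.N218.D7

open K Fo Al

/-- the cyclic group of order `h` -/
abbrev Ch (h : ℕ) : Type := Multiplicative (ZMod h)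

variable (B : Type) [NormedAddCommGroup B] [NormedSpace ℝ B] [FiniteDimensional ℝ B]
  [LocallyCompactSpace B] (q : ℕ) [NeZero q] (E : Type) [NormedAddCommGroup E] [NormedSpace ℂ E]
  [FiniteDimensional ℂ E]

/-- `E ⊗ ℂ[C_q]` as a representation of `C_h` -/
abbrev Vh (h : ℕ) [NeZero h] : Rep (Ch h) := (cir q E).res (inc h) (inc_cont h)
/-- the source of a problem over `B` -/
abbrev X0 (h : ℕ) [NeZero h] : LS (Ch h) := (LS.triv (Ch h) B).prod (Vh q E h).ls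
/-- `5 L ^ m` -/
abbrev Nn (h : ℕ) [NeZero h] (m : ℕ) : Rep (Ch h) :=
  (UU (pw m) (pw_cont m) 5).res (inc h) (inc_cont h)
/-- the source of a problem over `B × 5 L ^ m` -/
abbrev X1 (h : ℕ) [NeZero h] (m : ℕ) : LS (Ch h) := (X0 B q E h).prod (Nn h m).ls
/-- problems over `B` -/
abbrev P0 (h : ℕ) [NeZero h] : Type := PB (X0 B q E h) (Vh q E h)

/-- `D h P a`: the series `a` (in `L = 1 - t`) represents `d P ∈ K (S (7 L) / C_h)` -/
structure DT where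
  D : (h : ℕ) → [NeZero h] → P0 B q E h → S → Prop
  /-- existence; the rank vanishes -/
  ex : ∀ (h : ℕ) [NeZero h] (P : P0 B q E h), P.Fr → ∃ a ∈ OS, D h P (t * a)
  /-- no zeros -/
  emp : ∀ P : P0 B q E q, P.Fr → P.Z = ∅ → D q P 0
  /-- disjoint sums (with excision) -/
  sum : ∀ (P Q Q' : P0 B q E q) (a a' : S), P.Fr → Q.Fr → Q'.Fr → Q.O ⊆ P.O → Q'.O ⊆ P.O →
    (∀ x ∈ Q.O, Q.f x = P.f x) → (∀ x ∈ Q'.O, Q'.f x = P.f x) → Disjoint Q.O Q'.O →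
    P.Z ⊆ Q.O ∪ Q'.O → D q Q a → D q Q' a' → D q P (a + a')
  /-- induced problems (`c = 1`: excision) -/
  trf : ∀ (h c : ℕ) [NeZero h], q = h * c → ∀ (P : P0 B q E q) (Q : P0 B q E h) (a : S),
    P.Fr → Q.Fr → (∀ x : B × (ZMod q → E), x ∈ Q.O → x ∈ P.O ∧ Q.f x = P.f x) →
    (∀ (x : B × (ZMod q → E)) (g : ZMod q), x ∈ Q.O → (x.1, sh g x.2) ∈ Q.O →
      ∃ b : ℕ, g = b * c) →
    (∀ x : B × (ZMod q → E), x ∈ P.Z → ∃ g : ZMod q, (x.1, sh g x.2) ∈ Q.O) →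
    a ∈ OS → D h Q a → D q P (N (L ^ h) c * a)
  /-- problems that extend over `5 L ^ (h / 2)`, `h = 4 s` -/
  ext : ∀ (s : ℕ) [NeZero (s + s + (s + s))]
    (R : PB (X1 B q E (s + s + (s + s)) (s + s)) (Vh q E (s + s + (s + s)))) (d : S), R.Fr →
    D (s + s + (s + s)) (R.comap fun x => (x, (0 : Fin 5 → ℂ))) d →
    ∃ x ∈ OS, ∃ y ∈ OS, ∃ b, ∃ b' ∈ OS, t ^ 4 * d = (1 - L ^ (s + s)) ^ 5 * (2 * x + t * y) +
      t ^ 11 * b + (1 - L ^ (s + s + (s + s))) * b'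

variable {B q E}

/-- the free part of the normalised norm map of `v` -/
def zP (m : ZMod q) (τ : (ZMod q → E) → ℝ) (v : B × E → E) : P0 B q E q :=
  ⟨{x : B × (ZMod q → E) | mn (· + m) x.2 ≠ 0},
    fun x : B × (ZMod q → E) => nz (· + m) τ v (fun _ => x.1) x.2⟩

end Crest.Agent.N218.D7

/-- **CORE** -/
def Crest.Agent.N218.D7.CORE : Prop :=
  open Crest.Agent.N218 D7 Al Fo in
  ∀ (B : Type) [NormedAddCommGroup B] [NormedSpace ℝ B] [FiniteDimensional ℝ B]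
    [LocallyCompactSpace B] (k : ℕ) (E : Type) [NormedAddCommGroup E] [NormedSpace ℂ E]
    [FiniteDimensional ℂ E] (T : DT B (2 ^ (k + 1)) E) (τ : (ZMod (2 ^ (k + 1)) → E) → ℝ)
    (v : B × E → E) (δ a : ℝ), 10 ≤ Module.finrank ℝ B → 4 ≤ k → 0 < δ → 4 * δ ≤ a → NF v a →
    Cu (· + ((2 ^ k : ℕ) : ZMod (2 ^ (k + 1)))) τ δ → (∀ g y, τ (sh g y) = τ y) →
    (zP ((2 ^ k : ℕ) : ZMod (2 ^ (k + 1))) τ v).Fr ∧
      ∃ d ∈ OS, T.D _ (zP ((2 ^ k : ℕ) : ZMod (2 ^ (k + 1))) τ v) d ∧ Gd (2 ^ (k + 1)) d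

end
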