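import Crest.Agent.N218.D7.Dg1

/-!
# Row 218, block D7 (helper99): leaf DEG
-/

set_option autoImplicit false
set_option linter.unusedSectionVars false
set_option linter.unusedVariables false
open Topology Filter Set OnePoint unitInterval

noncomputable section

namespace Crest.Agent.N218.D7

open Crest.Agent.R204 Freud661 Nf Pm

namespace Dg

/-- the reflection in a unit vector -/
theorem ex_rf {E : Type} [NormedAddCommGroup E] [InnerProductSpace ℝ E] (w : E) (hw : ‖w‖ = 1) :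
    ∃ ρ : E ≃ₗᵢ[ℝ] E, (∀ z, ρ (ρ z) = z) ∧ ∀ z, ρ z = z - (2 * inner ℝ w z) • w :=
  ⟨(ℝ ∙ w)ᗮ.reflection, Submodule.reflection_reflection _, fun z => by
    rw [Submodule.reflection_orthogonal_apply, Submodule.reflection_singleton_apply, hw]
    simp [two_smul, two_mul, add_smul]⟩

/-- Hopf's theorem with an orthogonal reflection -/
theorem hd_rf {W : Type} [NormedAddCommGroup W] [InnerProductSpace ℝ W] [FiniteDimensional ℝ W]
    (hn : Even (Module.finrank ℝ W)) (w : W) (hw : ‖w‖ = 1)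
    {v u : C(OnePoint W, OnePoint W)} (hv : v ∞ = ∞) (hu : u ∞ = ∞)
    (h : (v.comp u).Homotopic (.id _)) : ∃ (t : ℝ) (R : W ≃L[ℝ] W), (t = 0 ∨ t = 2) ∧
      (∀ z, R z = z - (t * inner ℝ w z) • w) ∧ v.HomotopicRel (om R) {∞} := by
  have : Nontrivial W := ⟨⟨w, 0, fun e => by simp [e] at hw⟩⟩
  obtain ⟨n, k⟩ := Nat.exists_eq_succ_of_ne_zero (Module.finrank_pos (R := ℝ) (M := W)).ne'
  obtain ⟨b, hb⟩ := Orthonormal.exists_orthonormalBasis_extension_of_card_eq (𝕜 := ℝ) (E := W)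
    (ι := Fin (n + 1)) (by simp [k]) (v := fun _ => w) (s := {0})
    ⟨fun _ => hw, fun i j d => (d (Subsingleton.elim i j)).elim⟩
  have b0 : b 0 = w := hb 0 rfl
  let e : W ≃L[ℝ] (Fin (n + 1) → ℝ) := b.toBasis.equivFunL
  have he : ∀ z i, e z i = inner ℝ (b i) z := fun z i => b.repr_apply_apply z i
  rcases hd (n := n) (by rwa [k] at hn) e 0 hv hu h with a | a
  · exact ⟨0, .refl ℝ W, .inl rfl, fun z => by simp,
      by convert a using 1; ext s; induction s using OnePoint.rec <;> rfl⟩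
  · refine ⟨2, _, .inr rfl, fun z => e.injective (funext fun i => ?_), a⟩
    rw [ContinuousLinearEquiv.trans_apply, ContinuousLinearEquiv.apply_symm_apply,
      ContinuousLinearEquiv.trans_apply, rf_apply]
    simp only [he, inner_sub_right, inner_smul_right, ← b0, orthonormal_iff_ite.1 b.orthonormal]
    split_ifs with c
    · subst c; ring
    · ring

/-- `-1` is homotopic to `1` on a complex sphere -/
theorem neg_rel {W : Type} [NormedAddCommGroup W] [NormedSpace ℂ W] [FiniteDimensional ℂ W] :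
    (om (ContinuousLinearEquiv.neg ℝ : W ≃L[ℝ] W)).HomotopicRel (.id _) {∞} := by
  have := FiniteDimensional.proper_real W
  obtain ⟨F, a, b⟩ := ppu (B := I) (W := W)
    (f := fun z => -(Complex.exp (((Real.pi * z.1 : ℝ) : ℂ) * Complex.I) • z.2)) (by fun_prop)
    fun R => ⟨R, fun z h => by
      rwa [norm_neg, norm_smul, Complex.norm_exp_ofReal_mul_I, one_mul] at h⟩
  refine rel_of F a rfl rfl (fun w => (b 0 w).trans ?_) fun w => (b 1 w).trans ?_
  · simp; rfl
  · simp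

end Dg
open Dg

theorem deg : DEG := by
  intro E₁ E₂ _ _ _ _ _ _ D c κ R₀ M j j' x hD he hj
  let _ : InnerProductSpace ℝ E₂ := InnerProductSpace.complexToReal
  let W := (D.π₂ x).range
  let _ : InnerProductSpace ℝ W := InnerProductSpace.complexToReal
  have s₂ := pR_sub (hD.p₂.id x)
  let i₂ : W →L[ℝ] E₂ := W.subtypeL.restrictScalars ℝ
  let p₂ : E₂ →L[ℝ] W := (pR (D.π₂ x)).restrictScalars ℝ
  let i₁ : W →L[ℝ] E₁ := (j' ∘L W.subtypeL).restrictScalars ℝ
  let p₁ : E₁ →L[ℝ] W := (pR (D.π₂ x) ∘L j).restrictScalars ℝ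
  have πj : ∀ y, D.π₂ x (j y) = j y := fun y => by rw [he.p₂, he.jj]
  have πw : ∀ w : W, D.π₂ x w = w := fun w => congrArg Subtype.val (s₂ w)
  have h₁ : ∀ y, i₁ (p₁ y) = D.π₁ x y := fun y => by
    rw [he.p₁]; exact congrArg j' (πj y)
  have h₁' : ∀ w, p₁ (i₁ w) = w := fun w => Subtype.ext
    ((πj _).trans ((he.p₂ x w).symm.trans (πw w)))
  obtain ⟨v, u, v0, u0, v1, v2, u1, h⟩ := core hD x i₁ p₁ i₂ p₂ h₁ h₁' (fun _ => rfl) s₂
  obtain ⟨w, hw⟩ : ∃ w : W, ‖w‖ = 1 := by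
    obtain ⟨z, hz⟩ : ∃ z, j' z ≠ 0 := by
      by_contra k
      exact hj (ContinuousLinearMap.ext fun z => not_not.1 fun d => k ⟨z, d⟩)
    have : Nontrivial W := ⟨⟨p₂ z, 0, fun e => hz (by
      rw [← he.jj', ← he.p₂ x, show D.π₂ x z = 0 from congrArg Subtype.val e, map_zero])⟩⟩
    exact exists_norm_eq W zero_le_one
  obtain ⟨t, R, ht, hR, hv⟩ := hd_rf (ev_fin W) w hw v0 u0 h.homotopic
  obtain ⟨ρ, r1, r2⟩ : ∃ ρ : E₂ ≃ₗᵢ[ℝ] E₂, (∀ z, ρ (ρ z) = z) ∧
      ∀ z, ρ z = z - (t * inner ℝ (w : E₂) z) • (w : E₂) := by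
    rcases ht with rfl | rfl
    · exact ⟨.refl ℝ E₂, fun _ => rfl, fun z => by simp⟩
    · exact ex_rf (w : E₂) hw
  have ip : ∀ z, inner ℝ (w : E₂) (D.π₂ x z) = inner ℝ (w : E₂) z := fun z =>
    congrArg RCLike.re ((hD.p₂.sa x w z).symm.trans (by rw [πw]))
  have r3 : ∀ z, ρ (D.π₂ x z) = D.π₂ x (ρ z) := fun z => by
    rw [r2, r2, ip, map_sub, ContinuousLinearMap.map_smul_of_tower, πw]
  have r4 : ∀ z : W, ρ z = R z := fun z => by rw [r2, hR]; rfl
  have RR : (om R).comp (om R) = .id _ := by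
    ext s
    induction s using OnePoint.rec with
    | infty => rfl
    | coe z => exact congrArg _ (Subtype.ext (by rw [← r4, ← r4, r1]))
  have A : ((om R).comp v).HomotopicRel (.id _) {∞} := RR ▸ rel_post hv (om R)
  have B : (u.comp (om R)).HomotopicRel (.id _) {∞} := by
    have k1 : ((om R).comp u).HomotopicRel (.id _) {∞} := (rel_pre hv.symm u u0).trans h
    have k2 := rel_pre (a := ∞) (rel_post k1 (om R)) (om R) rfl
    rwa [← ContinuousMap.comp_assoc, RR, ContinuousMap.id_comp, ContinuousMap.comp_id, RR] at k2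
  refine ⟨ρ, r1, fun z => by rw [← he.p₂ x, ← he.p₂ x, r3], fun z hz => ?_, fun a b ha hb =>
    ⟨transfer p₁ i₁ h₁' ((rel_post A (om (.neg ℝ))).trans neg_rel) (by
      simp only [ContinuousMap.comp_apply, v0]; rfl) a x fun y => ?_,
    transfer p₂ i₂ s₂ B u0 b x fun z => ?_⟩⟩
  · rw [r2, ← ip, he.p₂, hz]; simp
  · simp only [ContinuousMap.comp_apply]
    by_cases k : (x, D.π₁ x y) ∈ D.Ov
    · rw [(ha x y).1 k, v1 _ (by rwa [h₁]), h₁]
      refine congrArg _ ?_
      change y - D.π₁ x y - j' (ρ (D.v (x, D.π₁ x y))) = y - D.π₁ x y +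
        j' (-(R (p₂ (D.v (x, D.π₁ x y))) : E₂))
      rw [map_neg, ← r4, show ((p₂ (D.v (x, D.π₁ x y)) : W) : E₂) = _ from hD.vp _ k,
        sub_eq_add_neg _ (j' _)]
    · rw [(ha x y).2 k, v2 _ (by rwa [h₁])]; rfl
  · rw [hb x z]
    change _ = (u (R (p₂ z) : W)).map _
    rw [u1]
    refine congrArg _ ?_
    change z - D.π₂ x z + j (D.u (x, ρ z)) = z - D.π₂ x z + D.π₂ x (j (D.u (x, (R (p₂ z) : E₂))))
    rw [πj, ← r4, show ((p₂ z : W) : E₂) = D.π₂ x z from rfl, r3, hD.up]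

end Crest.Agent.N218.D7
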