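import Crest.Agent.N218.D7.Nf0
import Crest.Agent.R204.KIn_837
import Crest.Agent.R204.HDegQ_160

/-!
# Row 218, block D7 (helper99): self-equivalences of an even sphere (Hopf degree theorem)
-/

set_option autoImplicit false
set_option linter.unusedSectionVars false
open Topology Filter Set OnePoint unitInterval
open scoped Topology.Homotopy

noncomputable section

namespace Crest.Agent.N218.Nf

open Crest.Agent.R204 Freud661 CubeSph661 HDeg160 K357

variable {n : ℕ}

theorem ctr_lt {x : Fin n → I} (h : 1 / 2 - ‖ctr x‖ ≠ 0) : 0 < 1 / 2 - ‖ctr x‖ :=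
  (sub_nonneg.2 (norm_ctr_le x)).lt_of_ne' h

/-- the collapse of the cube -/
def cb : (Fin n → I) → OnePoint (Fin n → ℝ) :=
  cut (fun x => 1 / 2 - ‖ctr x‖) fun x => (1 / 2 - ‖ctr x‖)⁻¹ • ctr x

theorem cb_bd {x : Fin n → I} (h : x ∈ Cube.boundary (Fin n)) : cb x = ∞ :=
  cut_zero (x := x) _ (sub_eq_zero.2 (norm_ctr_bdry h).symm)

theorem norm_cb {x : Fin n → I} (h : 1 / 2 - ‖ctr x‖ ≠ 0) :
    ‖(1 / 2 - ‖ctr x‖)⁻¹ • ctr x‖ = (1 / 2 - ‖ctr x‖)⁻¹ * ‖ctr x‖ := by
  rw [norm_smul, Real.norm_of_nonneg (inv_nonneg.2 (ctr_lt h).le)]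

theorem continuous_cb : Continuous (cb (n := n)) := by
  have a : Continuous fun x : Fin n → I => 1 / 2 - ‖ctr x‖ := continuous_const.sub continuous_ctr.norm
  refine continuous_cut a (fun x h => (a.continuousAt.inv₀ h).smul continuous_ctr.continuousAt)
    fun x h => blow (a.pow 2) (continuous_ctr.norm.pow 2) (by simp only [Pi.pow_apply, h]; simp)
      (by simp only [Pi.pow_apply, ← sub_eq_zero.1 h]; norm_num) fun y d => le_of_eq ?_
  simp only [Pi.pow_apply, norm_cb d]
  rw [← mul_pow, mul_inv_cancel_left₀ d]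

/-- the one-point compactification as a cube sphere -/
def cs (n : ℕ) : CubeSphere (n + 1) (OnePoint (Fin (n + 1) → ℝ)) where
  p := ⟨cb, continuous_cb⟩
  pt := ∞
  surj y := by
    induction y using OnePoint.rec with
    | infty => exact ⟨0, cb_bd ⟨0, .inl rfl⟩⟩
    | coe w =>
      have p : 0 < 1 + ‖w‖ := by positivity
      have b : ∀ i, |(2 * (1 + ‖w‖))⁻¹ * w i| ≤ 1 / 2 := fun i => by
        rw [abs_mul, abs_of_pos (by positivity), inv_mul_le_iff₀ (by positivity)]
        linarith [norm_le_pi_norm w i, Real.norm_eq_abs (w i)]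
      let x : Fin (n + 1) → I := fun i => ⟨1 / 2 + (2 * (1 + ‖w‖))⁻¹ * w i,
        by linarith [abs_le.1 (b i)], by linarith [abs_le.1 (b i)]⟩
      have e : ctr x = (2 * (1 + ‖w‖))⁻¹ • w := funext fun i => by simp [ctr, x]
      have e2 : 1 / 2 - ‖ctr x‖ = (2 * (1 + ‖w‖))⁻¹ := by
        rw [e, norm_smul, Real.norm_of_nonneg (by positivity)]; field_simp; ring
      refine ⟨x, show cb x = _ from ?_⟩
      rw [cb, cut_ne _ (by rw [e2]; positivity), e2, e, smul_smul, inv_mul_cancel₀ (by positivity),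
        one_smul]
  bdry x h := cb_bd h
  inj x y h := by
    change cb x = cb y at h
    by_cases a : 1 / 2 - ‖ctr x‖ = 0 <;> by_cases b : 1 / 2 - ‖ctr y‖ = 0
    · exact .inr ⟨mem_bdry_of_norm (sub_eq_zero.1 a).le, mem_bdry_of_norm (sub_eq_zero.1 b).le⟩
    · simp only [cb, cut, a, b] at h; simp at h
    · simp only [cb, cut, a, b] at h; simp at h
    simp only [cb, cut, a, b, if_false, coe_eq_coe] at h
    have e := congrArg norm h
    rw [norm_cb a, norm_cb b, inv_mul_eq_div, inv_mul_eq_div, div_eq_div_iff a b] at e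
    rw [show ‖ctr x‖ = ‖ctr y‖ by linarith] at h
    have := smul_right_injective _ (inv_ne_zero b) h
    exact .inl (funext fun i => Subtype.ext (sub_left_injective (congrFun this i)))

variable {S : Type} [TopologicalSpace S] [T2Space S]

/-- the loop of a pointed map -/
def lp (P : CubeSphere n S) (v : C(S, S)) (h : v P.pt = P.pt) : Ω^ (Fin n) S P.pt :=
  ⟨v.comp P.p, fun x k => (congrArg v (P.bdry x k)).trans h⟩

theorem rel_of_lp (P : CubeSphere (n + 1) S) {v w : C(S, S)} (h : v P.pt = P.pt) (h' : w P.pt = P.pt)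
    (k : cls (lp P v h) = cls (lp P w h')) : v.HomotopicRel w {P.pt} := by
  obtain ⟨H⟩ := cls_eq_iff.1 k
  obtain ⟨Ψ, e⟩ := P.lift_exists (Z := I) (fun z => H (z.2, z.1)) (by fun_prop) fun x x' t a b =>
    ((H.eq_fst t a).trans ((lp P v h).2 x a)).trans ((H.eq_fst t b).trans ((lp P v h).2 x' b)).symm
  refine ⟨⟨⟨Ψ.comp ⟨Prod.swap, continuous_swap⟩, fun s => ?_, fun s => ?_⟩, fun t s m => ?_⟩⟩
  · obtain ⟨x, rfl⟩ := P.surj s; exact (e x 0).trans (H.apply_zero x)
  · obtain ⟨x, rfl⟩ := P.surj s; exact (e x 1).trans (H.apply_one x)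
  · have b : (0 : Fin (n + 1) → I) ∈ Cube.boundary _ := ⟨0, .inl rfl⟩
    obtain rfl : s = P.p 0 := (show s = P.pt from m).trans (P.bdry 0 b).symm
    exact (e 0 t).trans (H.eq_fst t b)

/-- a self-equivalence of an even cube sphere has degree `± 1` -/
theorem deg_unit (P : CubeSphere (n + 1) S) (hn : Even (n + 1)) {v u : C(S, S)} (hv : v P.pt = P.pt)
    (hu : u P.pt = P.pt) (h : (v.comp u).Homotopic (.id S)) :
    cls (lp P v hv) = cls (pLoop P) ∨ cls (lp P v hv) = (cls (pLoop P))⁻¹ := by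
  have := P.compactSpace
  let c : H472.Collapse (Fin (n + 1)) S P.pt :=
    ⟨P.p, P.surj, P.inj, fun x => ⟨P.mem_bdry_of_p_eq n.succ_pos, P.bdry x⟩⟩
  obtain ⟨b0, -, b2⟩ := Bt837.bY_kz n.succ_pos hn c
  set b := Bt837.bY n.succ_pos c
  let pl : C(S, S) → K0 C(S, ℂ) →+ K0 C(S, ℂ) := fun f =>
    K0.map (ContinuousMap.compRightAlgHom ℂ ℂ f).toRingHom
  have inj : Function.Injective (pullK (pLoop P)) := by
    refine Function.LeftInverse.injective (g := K0.map c.equiv.symm.toRingEquiv.toRingHom) fun x => ?_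
    rw [pullK, ← K0.map_comp]
    exact (congrArg (K0.map · x) (RingHom.ext fun a => c.equiv.symm_apply_apply a)).trans (K0.map_id x)
  have dg : ∀ f (k : f P.pt = P.pt), ∃ D : ℤ, cls (lp P f k) = cls (pLoop P) ^ D ∧ pl f b = D • b :=
    fun f k => by
      obtain ⟨D, d1, d2⟩ := exists_degree_K P (lp P f k)
      refine ⟨D, d1, inj ?_⟩
      rw [map_zsmul, ← d2 b b0, pullK, ← K0.map_comp]; rfl
  obtain ⟨D, d1, d2⟩ := dg v hv
  obtain ⟨D', -, d2'⟩ := dg u hu
  obtain ⟨H⟩ := h
  have k := HInv313.map_eq_of_homotopy (A := C(S, ℂ)) (B := C(S, ℂ))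
    (fun t => (ContinuousMap.compRightAlgHom ℂ ℂ (H.toContinuousMap.curry t)).toRingHom) fun a =>
      (ContinuousMap.continuous_postcomp a).comp H.toContinuousMap.curry.continuous
  have e0 : H.toContinuousMap.curry 0 = v.comp u := ContinuousMap.ext H.apply_zero
  have e1 : H.toContinuousMap.curry 1 = .id S := ContinuousMap.ext H.apply_one
  simp only [e0, e1] at k
  have k2 : pl u (pl v b) = b := by
    rw [← K0.map_comp]
    exact (DFunLike.congr_fun k b).trans (K0.map_id b)
  rw [d2, map_zsmul, d2', smul_smul] at k2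
  have := b2 (D * D' - 1) (by rw [sub_smul, k2, one_smul, sub_self])
  rcases Int.eq_one_or_neg_one_of_mul_eq_one (sub_eq_zero.1 this) with rfl | rfl
  exacts [.inl (d1.trans (zpow_one _)), .inr (d1.trans (zpow_neg_one _))]

/-- the reflection in the coordinate `i` -/
def rf (i : Fin n) : (Fin n → ℝ) ≃L[ℝ] (Fin n → ℝ) :=
  .piCongrRight fun j => if j = i then .neg ℝ else .refl ℝ ℝ

theorem rf_apply (i : Fin n) (w : Fin n → ℝ) (j : Fin n) :
    rf i w j = if j = i then -w j else w j := by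
  change (if j = i then ContinuousLinearEquiv.neg ℝ else .refl ℝ ℝ) (w j) = _
  split_ifs <;> rfl

theorem norm_rf (i : Fin n) (w : Fin n → ℝ) : ‖rf i w‖ = ‖w‖ := by
  simp only [Pi.norm_def, rf_apply]
  congr 2 with j
  split_ifs <;> simp

variable {E E' : Type*} [NormedAddCommGroup E] [NormedSpace ℝ E] [NormedAddCommGroup E']
  [NormedSpace ℝ E']

/-- the map of spheres of a linear isomorphism -/
def om (e : E ≃L[ℝ] E') : C(OnePoint E, OnePoint E') :=
  ⟨OnePoint.map e, e.toHomeomorph.onePointCongr.continuous⟩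

theorem om_symm (e : E ≃L[ℝ] E') (s : OnePoint E) : om e.symm (om e s) = s := by
  induction s using OnePoint.rec with
  | infty => rfl
  | coe w => exact congrArg _ (e.symm_apply_apply w)

theorem hd_pi (hn : Even (n + 1)) (i : Fin (n + 1)) {v u : C(OnePoint (Fin (n + 1) → ℝ), _)}
    (hv : v ∞ = ∞) (hu : u ∞ = ∞) (h : (v.comp u).Homotopic (.id _)) :
    v.HomotopicRel (.id _) {∞} ∨ v.HomotopicRel (om (rf i)) {∞} := by
  refine (deg_unit (cs n) hn hv hu h).imp (fun k => rel_of_lp (cs n) hv rfl k)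
    fun k => rel_of_lp (cs n) hv rfl (k.trans ((cls_inv i _).trans (congrArg cls ?_)))
  ext x
  have e : ctr (fun j => if j = i then σ (x i) else x j) = rf i (ctr x) := funext fun j => by
    rw [rf_apply, ctr, ctr]
    split_ifs with c
    · subst c; simp; ring
    · rfl
  change cb (fun j => if j = i then σ (x i) else x j) = OnePoint.map (rf i) (cb x)
  simp only [cb, cut, e, norm_rf]
  split_ifs <;> simp

/-- **Hopf degree theorem** for self-equivalences of an even sphere -/
theorem hd (hn : Even (n + 1)) (e : E ≃L[ℝ] (Fin (n + 1) → ℝ)) (i : Fin (n + 1))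
    {v u : C(OnePoint E, OnePoint E)} (hv : v ∞ = ∞) (hu : u ∞ = ∞)
    (h : (v.comp u).Homotopic (.id _)) :
    v.HomotopicRel (.id _) {∞} ∨ v.HomotopicRel (om ((e.trans (rf i)).trans e.symm)) {∞} := by
  have k : ∀ {f g : C(OnePoint E, OnePoint E)} {g' : C(OnePoint (Fin (n + 1) → ℝ), _)},
      (om e.symm).comp (g'.comp (om e)) = g →
      ((om e).comp (f.comp (om e.symm))).HomotopicRel g' {∞} → f.HomotopicRel g {∞} := by
    rintro f g g' rfl ⟨H⟩
    refine ⟨⟨⟨(om e.symm).comp (H.toContinuousMap.comp ((ContinuousMap.id I).prodMap (om e))),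
      fun s => ?_, fun s => congrArg (om e.symm) (H.apply_one _)⟩, fun t s m => ?_⟩⟩
    · exact (congrArg (om e.symm) (H.apply_zero _)).trans ((om_symm e _).trans
        (congrArg f (om_symm e s)))
    · obtain rfl : s = ∞ := m
      exact (congrArg (om e.symm) (H.eq_fst t rfl)).trans (om_symm e _)
  refine (hd_pi hn i (v := (om e).comp (v.comp (om e.symm))) (u := (om e).comp (u.comp (om e.symm)))
    (congrArg (om e) hv) (congrArg (om e) hu) ?_).imp (k (g' := .id _) (ContinuousMap.ext (om_symm e)))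
      (k (ContinuousMap.ext fun s => by induction s using OnePoint.rec <;> rfl))
  have := (ContinuousMap.Homotopic.refl (om e)).comp (h.comp (.refl (om e.symm)))
  convert this using 1
  · exact ContinuousMap.ext fun s => congrArg (fun z => om e (v z)) (om_symm e _)
  · exact ContinuousMap.ext fun s => (om_symm e.symm s).symm

/-- coordinate-free form -/
theorem hd' [FiniteDimensional ℝ E] (h0 : 0 < Module.finrank ℝ E) (hn : Even (Module.finrank ℝ E))
    {v u : C(OnePoint E, OnePoint E)} (hv : v ∞ = ∞) (hu : u ∞ = ∞)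
    (h : (v.comp u).Homotopic (.id _)) : ∃ R : E ≃L[ℝ] E, v.HomotopicRel (om R) {∞} := by
  obtain ⟨n, k⟩ := Nat.exists_eq_succ_of_ne_zero h0.ne'
  rcases hd (n := n) (by rwa [k] at hn) (.ofFinrankEq (by simp [k])) 0 hv hu h with a | a
  · exact ⟨.refl ℝ E, by convert a using 1; ext s; induction s using OnePoint.rec <;> rfl⟩
  · exact ⟨_, a⟩

end Crest.Agent.N218.Nf
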