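import Crest.Agent.N218.D7.St
import Crest.Agent.N218.D7.Hd

/-!
# Row 218, block D7 (helper99): partial proper maps of spheres, the unstable degree
-/

set_option autoImplicit false
set_option linter.unusedSectionVars false
set_option linter.unusedVariables false
open Topology Filter Set OnePoint unitInterval

noncomputable section

namespace Crest.Agent.N218.D7.Dg

open Crest.Agent.R204 Freud661 CubeSph661 HDeg160 K357 Nf Pm

section pp
variable {B W W' T : Type} [TopologicalSpace B] [T2Space B] [NormedAddCommGroup W]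
  [NormedAddCommGroup W'] [TopologicalSpace T] [T2Space T]

/-- a partial proper map extends to the one-point compactifications -/
theorem pp0 [ProperSpace W] {O : Set (B × W)} {f : B × W → W'} (hO : IsOpen O)
    (hf : ContinuousOn f O)
    (hK : ∀ R : ℝ, ∃ K, IsCompact K ∧ K ⊆ O ∧ ∀ z ∈ O, ‖f z‖ ≤ R → z ∈ K) :
    ∃ F : C(B × OnePoint W, OnePoint W'), (∀ b, F (b, ∞) = ∞) ∧
      (∀ b w, (b, w) ∈ O → F (b, (w : W)) = f (b, w)) ∧ ∀ b w, (b, w) ∉ O → F (b, (w : W)) = ∞ := by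
  classical
  let F : B × OnePoint W → OnePoint W' := fun z =>
    z.2.elim ∞ fun w => if (z.1, w) ∈ O then (f (z.1, w) : OnePoint W') else ∞
  let ι : B × W → B × OnePoint W := Prod.map id (↑)
  have hι : IsOpenEmbedding ι := IsOpenEmbedding.id.prodMap isOpenEmbedding_coe
  have inf : ∀ z : B × OnePoint W, z ∉ ι '' O → ContinuousAt F z := by
    intro z hz
    have e : F z = ∞ := by
      obtain ⟨b, s⟩ := z
      induction s using OnePoint.rec with
      | infty => rfl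
      | coe w => exact if_neg fun h => hz ⟨(b, w), h, rfl⟩
    rw [ContinuousAt, e, hasBasis_nhds_infty.tendsto_right_iff]
    rintro s ⟨-, hs⟩
    obtain ⟨R, hR⟩ := hs.isBounded.exists_norm_le
    obtain ⟨K, k1, k2, k3⟩ := hK R
    filter_upwards [(k1.image hι.continuous).isClosed.isOpen_compl.mem_nhds
      (fun h => hz (image_mono k2 h))] with y hy
    obtain ⟨b, t⟩ := y
    induction t using OnePoint.rec with
    | infty => exact .inr rfl
    | coe w =>
      by_cases h : (b, w) ∈ O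
      · exact .inl ⟨f (b, w), fun m => hy ⟨(b, w), k3 _ h (hR _ m), rfl⟩, (if_pos h).symm⟩
      · exact .inr (if_neg h)
  refine ⟨⟨F, continuous_iff_continuousAt.2 fun z => ?_⟩, fun _ => rfl, fun b w h => if_pos h,
    fun b w h => if_neg h⟩
  by_cases hz : z ∈ ι '' O
  · obtain ⟨y, hy, rfl⟩ := hz
    rw [← hι.continuousAt_iff]
    refine (continuous_coe.continuousAt.comp (hf.continuousAt (hO.mem_nhds hy))).congr ?_
    filter_upwards [hO.mem_nhds hy] with y' h
    exact (if_pos h).symm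
  · exact inf z hz

theorem pp [CompactSpace B] [ProperSpace W] {φ : B × W → T} (hφ : Continuous φ) {O : Set T}
    {g : T → W'} (hO : IsOpen O) (hg : ContinuousOn g O)
    (hK : ∀ R : ℝ, ∃ K r, IsCompact K ∧ K ⊆ O ∧
      ∀ z, φ z ∈ O → ‖g (φ z)‖ ≤ R → φ z ∈ K ∧ ‖z.2‖ ≤ r) :
    ∃ F : C(B × OnePoint W, OnePoint W'), (∀ b, F (b, ∞) = ∞) ∧
      (∀ b w, φ (b, w) ∈ O → F (b, (w : W)) = g (φ (b, w))) ∧
      ∀ b w, φ (b, w) ∉ O → F (b, (w : W)) = ∞ := by
  refine pp0 (O := φ ⁻¹' O) (f := fun z => g (φ z)) (hO.preimage hφ)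
    (hg.comp hφ.continuousOn fun _ h => h) fun R => ?_
  obtain ⟨K, r, k1, k2, k3⟩ := hK R
  exact ⟨univ ×ˢ Metric.closedBall 0 r ∩ φ ⁻¹' K,
    (isCompact_univ.prod (isCompact_closedBall 0 r)).inter_right (k1.isClosed.preimage hφ),
    fun z h => k2 h.2, fun z h h' => ⟨⟨trivial, mem_closedBall_zero_iff.2 (k3 z h h').2⟩,
      (k3 z h h').1⟩⟩

theorem ppu [CompactSpace B] [ProperSpace W] {f : B × W → W'} (hf : Continuous f)
    (hK : ∀ R : ℝ, ∃ r, ∀ z, ‖f z‖ ≤ R → ‖z.2‖ ≤ r) :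
    ∃ F : C(B × OnePoint W, OnePoint W'), (∀ b, F (b, ∞) = ∞) ∧
      ∀ b w, F (b, (w : W)) = f (b, w) := by
  obtain ⟨F, a, b, -⟩ := pp0 (O := univ) isOpen_univ hf.continuousOn fun R => by
    obtain ⟨r, h⟩ := hK R
    exact ⟨univ ×ˢ Metric.closedBall 0 r, isCompact_univ.prod (isCompact_closedBall 0 r),
      subset_univ _, fun z _ h' => ⟨trivial, mem_closedBall_zero_iff.2 (h z h')⟩⟩
  exact ⟨F, a, fun x w => b x w trivial⟩

/-- a pointed family over `I` is a homotopy -/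
theorem rel_of {f g : C(OnePoint W, OnePoint W')} (F : C(I × OnePoint W, OnePoint W'))
    (h : ∀ b, F (b, ∞) = ∞) (hf : f ∞ = ∞) (hg : g ∞ = ∞) (h0 : ∀ w : W, F (0, w) = f w)
    (h1 : ∀ w : W, F (1, w) = g w) : f.HomotopicRel g {∞} := by
  refine mkRel _ _ _ F F.continuous (fun s => ?_) (fun s => ?_) ?_
  · induction s using OnePoint.rec with
    | infty => rw [h, hf]
    | coe w => exact h0 w
  · induction s using OnePoint.rec with
    | infty => rw [h, hg]
    | coe w => exact h1 w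
  · rintro s _ rfl; rw [h, hf]

/-- one member of a family -/
def sl (F : C(B × OnePoint W, OnePoint W')) (b : B) : C(OnePoint W, OnePoint W') :=
  F.comp ⟨fun s => (b, s), by fun_prop⟩
@[simp] theorem sl_apply (F : C(B × OnePoint W, OnePoint W')) (b : B) (s : OnePoint W) :
    sl F b s = F (b, s) := rfl

theorem rel_sl (F : C(I × OnePoint W, OnePoint W')) (h : ∀ b, F (b, ∞) = ∞) :
    (sl F 0).HomotopicRel (sl F 1) {∞} := rel_of F h (h 0) (h 1) (fun _ => rfl) fun _ => rfl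
end pp

section rel
variable {S S' S'' : Type} [TopologicalSpace S] [TopologicalSpace S'] [TopologicalSpace S'']

theorem rel_post {f g : C(S, S')} {A : Set S} (h : f.HomotopicRel g A) (k : C(S', S'')) :
    (k.comp f).HomotopicRel (k.comp g) A := by
  obtain ⟨H⟩ := h
  exact mkRel _ _ _ (fun z => k (H z)) (k.continuous.comp H.continuous)
    (fun x => congrArg k (H.apply_zero x)) (fun x => congrArg k (H.apply_one x))
    fun s x m => congrArg k (H.eq_fst s m)

theorem rel_pre {f g : C(S', S'')} {a : S} {a' : S'} (h : f.HomotopicRel g {a'}) (k : C(S, S'))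
    (hk : k a = a') : (f.comp k).HomotopicRel (g.comp k) {a} := by
  obtain ⟨H⟩ := h
  refine mkRel _ _ _ (fun z => H (z.1, k z.2)) (H.continuous.comp (by fun_prop))
    (fun x => H.apply_zero _) (fun x => H.apply_one _) ?_
  rintro s _ rfl
  exact H.eq_fst s hk
end rel

section core
variable {X E₁ E₂ W₁ W₂ : Type} [TopologicalSpace X] [T2Space X] [NormedAddCommGroup E₁]
  [InnerProductSpace ℂ E₁] [NormedAddCommGroup E₂] [InnerProductSpace ℂ E₂]
  [NormedAddCommGroup W₁] [NormedSpace ℝ W₁] [FiniteDimensional ℝ W₁]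
  [NormedAddCommGroup W₂] [NormedSpace ℝ W₂] [FiniteDimensional ℝ W₂]

/-- `v` and `u` on the unstable spheres at one point -/
theorem core {D : Data X E₁ E₂} {c κ R₀ M : ℝ} (hD : D.Ok c κ R₀ M) (x : X)
    (i₁ : W₁ →L[ℝ] E₁) (p₁ : E₁ →L[ℝ] W₁) (i₂ : W₂ →L[ℝ] E₂) (p₂ : E₂ →L[ℝ] W₂)
    (h₁ : ∀ y, i₁ (p₁ y) = D.π₁ x y) (h₁' : ∀ w, p₁ (i₁ w) = w)
    (h₂ : ∀ y, i₂ (p₂ y) = D.π₂ x y) (h₂' : ∀ w, p₂ (i₂ w) = w) :
    ∃ (v : C(OnePoint W₁, OnePoint W₂)) (u : C(OnePoint W₂, OnePoint W₁)), v ∞ = ∞ ∧ u ∞ = ∞ ∧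
      (∀ w : W₁, (x, i₁ w) ∈ D.Ov → v w = (p₂ (D.v (x, i₁ w)) : W₂)) ∧
      (∀ w : W₁, (x, i₁ w) ∉ D.Ov → v w = ∞) ∧ (∀ w : W₂, u w = (p₁ (D.u (x, i₂ w)) : W₁)) ∧
      (v.comp u).HomotopicRel (.id _) {∞} := by
  have := FiniteDimensional.proper_real W₁
  have := FiniteDimensional.proper_real W₂
  have e₁ : ∀ w, D.π₁ x (i₁ w) = i₁ w := fun w => by rw [← h₁, h₁']
  have e₂ : ∀ w, D.π₂ x (i₂ w) = i₂ w := fun w => by rw [← h₂, h₂']
  have n₁ : ∀ w {r : ℝ}, ‖i₁ w‖ ≤ r → ‖w‖ ≤ ‖p₁‖ * r := fun w r h =>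
    (h₁' w ▸ p₁.le_opNorm_of_le h :)
  have n₂ : ∀ w {r : ℝ}, ‖i₂ w‖ ≤ r → ‖w‖ ≤ ‖p₂‖ * r := fun w r h =>
    (h₂' w ▸ p₂.le_opNorm_of_le h :)
  have vn : ∀ z ∈ D.Ov, z.1 = x → ∀ {R : ℝ}, ‖p₂ (D.v z)‖ ≤ R → ‖D.v z‖ ≤ ‖i₂‖ * R := by
    intro z hz e R h
    rw [← hD.vp z hz, e, ← h₂]; exact i₂.le_opNorm_of_le h
  have ex : ∀ {a b : ℝ}, 0 ≤ a → (R₀ ≤ a → (1 + κ) * a ≤ b) → a ≤ max R₀ b := by
    intro a b a0 h
    rcases le_total R₀ a with k | k
    · exact le_max_of_le_right (by nlinarith [h k, hD.hκ])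
    · exact le_max_of_le_left k
  have cg : ContinuousOn (fun z => p₂ (D.v z)) D.Ov := p₂.continuous.comp_continuousOn hD.vc
  have cu : Continuous fun w : W₂ => D.u (x, i₂ w) := hD.uc.comp (by fun_prop)
  obtain ⟨v, v0, v1, v2⟩ := pp (B := Unit) (W := W₁) (φ := fun z => (x, i₁ z.2)) (by fun_prop)
    hD.vo cg fun R => ⟨_, ‖p₁‖ * R₀, hD.vk (max (‖i₂‖ * R) R₀), fun _ h => h.1, fun z h h' => by
      have := hD.vb _ h
      rw [e₁] at this
      exact ⟨⟨h, le_max_of_le_left (vn _ h rfl h'), le_max_of_le_right this⟩, n₁ _ this⟩⟩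
  obtain ⟨u, u0, u1⟩ := ppu (B := Unit) (W := W₂) (f := fun z => p₁ (D.u (x, i₂ z.2)))
    (p₁.continuous.comp (cu.comp continuous_snd)) fun R => ⟨‖p₂‖ * max R₀ (‖i₁‖ * R), fun z h =>
      n₂ _ (ex (norm_nonneg _) fun k => by
        have := hD.ux x (i₂ z.2) (by rwa [e₂])
        rw [e₂, ← h₁] at this
        exact this.trans (i₁.le_opNorm_of_le h))⟩
  obtain ⟨H, H0, H1, H2⟩ := pp (B := I) (W := W₂) (φ := fun z => (x, D.π₁ x (D.u (x, i₂ z.2)) +
      (z.1 : ℝ) • (D.u (x, i₂ z.2) - D.π₁ x (D.u (x, i₂ z.2)))))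
    (by have := cu.comp (continuous_snd (X := I)); fun_prop)
    hD.vo cg fun R => ⟨_, ‖p₂‖ * max R₀ R₀, hD.vk (max (‖i₂‖ * R) (R₀ + M)), fun _ h => h.1,
      fun z h h' => by
      have b := hD.vb _ h
      simp only [map_add, ContinuousLinearMap.map_smul_of_tower, map_sub, hD.p₁.id, sub_self,
        smul_zero, add_zero] at b
      refine ⟨⟨h, le_max_of_le_left (vn _ h rfl h'), le_max_of_le_right ?_⟩,
        n₂ _ (ex (norm_nonneg _) fun k => ?_)⟩
      · refine (norm_add_le _ _).trans (add_le_add b ?_)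
        rw [norm_smul, Real.norm_of_nonneg z.1.2.1]
        exact (mul_le_of_le_one_left (norm_nonneg _) z.1.2.2).trans (hD.ub _ _)
      · have := hD.ux x (i₂ z.2) (by rwa [e₂])
        rw [e₂] at this
        exact this.trans b⟩
  obtain ⟨G, G0, G1, G2⟩ := pp (B := I) (W := W₂) (φ := fun z => ((x, (z.1 : ℝ)), i₂ z.2))
    (by fun_prop) hD.o₂ (p₂.continuous.comp_continuousOn hD.c₂) fun R =>
      ⟨_, ‖p₂‖ * max R₀ (‖i₂‖ * R), hD.k₂ (max 1 (max R₀ (‖i₂‖ * R))), fun _ h => h.1,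
      fun z h h' => by
      have b : ‖D.h₂ ((x, (z.1 : ℝ)), i₂ z.2)‖ ≤ ‖i₂‖ * R := by
        rw [← (hD.q₂ _ _ _).2.2, ← h₂]; exact i₂.le_opNorm_of_le h'
      have b2 : ‖i₂ z.2‖ ≤ max R₀ (‖i₂‖ * R) := ex (norm_nonneg _) fun k => by
        have := hD.x₂ _ h (by rwa [e₂])
        rw [e₂] at this
        exact this.trans b
      exact ⟨⟨h, le_max_of_le_left (abs_le.2 ⟨by linarith [z.1.2.1], z.1.2.2⟩),
        le_max_of_le_right (le_max_of_le_right b), le_max_of_le_right b2⟩, n₂ _ b2⟩⟩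
  obtain ⟨L, L0, L1⟩ := ppu (B := I) (W := W₂)
    (f := fun z => (D.μ - (z.1 : ℝ) * (D.μ - 1)) • z.2) (by fun_prop) fun R => ⟨R, fun z h => by
      have a : 1 ≤ D.μ - (z.1 : ℝ) * (D.μ - 1) := by nlinarith [z.1.2.2, hD.hμ]
      rw [norm_smul, Real.norm_of_nonneg (by linarith)] at h
      exact (le_mul_of_one_le_left (norm_nonneg _) a).trans h⟩
  refine ⟨sl v (), sl u (), v0 _, u0 _, v1 _, v2 _, u1 _, ?_⟩
  have a1 : (sl v ()).comp (sl u ()) = sl H 0 := by
    ext s
    induction s using OnePoint.rec with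
    | infty => simp [u0, v0, H0]
    | coe w =>
      simp only [ContinuousMap.comp_apply, sl_apply, u1]
      by_cases h : (x, i₁ (p₁ (D.u (x, i₂ w)))) ∈ D.Ov
      · rw [v1 _ _ h, H1 _ _ (by simpa [h₁] using h)]; simp [h₁]
      · rw [v2 _ _ h, H2 _ _ (by simpa [h₁] using h)]
  have a2 : sl H 1 = sl G 0 := by
    ext s
    induction s using OnePoint.rec with
    | infty => simp [G0, H0]
    | coe w =>
      have l := hD.l₂ x 0 (i₂ w) le_rfl
      simp only [sl_apply]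
      by_cases h : (x, D.u (x, i₂ w)) ∈ D.Ov
      · rw [H1 _ _ (by simpa using h), G1 _ _ (l.1.2 h)]; simp [l.2 h]
      · rw [H2 _ _ (by simpa using h), G2 _ _ fun k => h (l.1.1 k)]
  have a3 : sl G 1 = sl L 0 := by
    ext s
    induction s using OnePoint.rec with
    | infty => simp [G0, L0]
    | coe w =>
      have l := hD.r₂ x 1 (i₂ w) le_rfl
      simp only [sl_apply]
      rw [G1 _ _ l.1, L1]; simp [l.2, e₂, h₂']
  have a4 : sl L 1 = .id _ := by
    ext s
    induction s using OnePoint.rec with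
    | infty => simp [L0]
    | coe w => simp [L1]
  rw [a1, ← a4]
  exact (rel_sl H H0).trans (a2 ▸ (rel_sl G G0).trans (a3 ▸ rel_sl L L0))
end core

section tr
variable {E W : Type} [NormedAddCommGroup E] [NormedSpace ℝ E] [FiniteDimensional ℝ E]
  [NormedAddCommGroup W] [NormedSpace ℝ W] [FiniteDimensional ℝ W]

/-- transfer from a direct summand -/
theorem transfer {X : Type} [TopologicalSpace X] (p : E →L[ℝ] W) (i : W →L[ℝ] E)
    (h : ∀ w, p (i w) = w) {N : C(OnePoint W, OnePoint W)} (hN : N.HomotopicRel (.id _) {∞})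
    (h0 : N ∞ = ∞) (a : PT X E) (x : X)
    (ha : ∀ y : E, a.f (x, y) = (N (p y)).map fun w => y - i (p y) + i w) :
    (a.at' x).Ht PT.one := by
  have := FiniteDimensional.proper_real W
  have := FiniteDimensional.proper_real p.ker
  obtain ⟨H⟩ := hN
  let e := ContinuousLinearEquiv.equivOfRightInverse p i h
  obtain ⟨V, V0, V1, V2⟩ := smash (B := Unit × I) (F := p.ker) (v := fun z => H (z.1.2, z.2))
    (H.continuous.comp (by fun_prop)) fun z => (H.eq_fst z.2 rfl).trans h0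
  have key : ∀ b (y : E), om e.symm (V (b, om e y)) =
      (H (b.2, p y)).map fun w => y - i (p y) + i w := by
    intro b y
    have : om e (y : OnePoint E) = ((p y, p.projKerOfRightInverse i h y) : W × p.ker) := rfl
    rw [this, V2]
    induction H (b.2, (p y : W)) using OnePoint.rec with
    | infty => rfl
    | coe w => exact congrArg _ (add_comm _ _)
  refine ⟨⟨fun z => om e.symm (V (z.1, om e z.2)), (om e.symm).continuous.comp
    (V0.comp (continuous_fst.prodMk ((om e).continuous.comp continuous_snd))),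
    fun b => congrArg (om e.symm) (V1 b)⟩, fun u s => ?_, fun u s => ?_⟩
  · induction s using OnePoint.rec with
    | infty => exact (congrArg (om e.symm) (V1 _)).trans (a.pt x).symm
    | coe y => exact (key _ y).trans (by rw [H.apply_zero]; exact (ha y).symm)
  · induction s using OnePoint.rec with
    | infty => exact congrArg (om e.symm) (V1 _)
    | coe y => exact (key _ y).trans (by rw [H.apply_one]; exact congrArg _ (sub_add_cancel _ _))
end tr

end Crest.Agent.N218.D7.Dg
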