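import Crest.Agent.N218.D7.Dg0

/-!
# Row 218, block D7 (helper99): invariance of dimension, kit
-/

set_option autoImplicit false
set_option linter.unusedSectionVars false
set_option linter.unusedVariables false
open Topology Filter Set OnePoint unitInterval

noncomputable section

namespace Crest.Agent.N218.D7

open Crest.Agent.R204 Freud661 CubeSph661 HDeg160 K357 Nf Pm

namespace Dg

theorem dim_cs {S S' : Type} [TopologicalSpace S] [T2Space S] [CompactSpace S] [TopologicalSpace S']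
    [T2Space S'] [CompactSpace S'] {n m : ℕ} {s : S} {s' : S'} (n0 : 0 < n) (m0 : 0 < m)
    (c : H472.Collapse (Fin n) S s) (c' : H472.Collapse (Fin m) S' s') (hn : Even n) (hm : Even m)
    {v : C(S, S')} {u : C(S', S)} (hv : v s = s') (hu : u s' = s)
    (h : (v.comp u).Homotopic (.id S')) : n = m := by
  obtain ⟨b0, b1, b2⟩ := Bt837.bY_kz n0 hn c
  obtain ⟨b0', b1', b2'⟩ := Bt837.bY_kz m0 hm c'
  have : Fact (Nat.Prime 3) := ⟨Nat.prime_three⟩
  have q := Bt837.psi_bY n0 hn c 3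
  have q' := Bt837.psi_bY m0 hm c' 3
  set b := Bt837.bY n0 c
  set b' := Bt837.bY m0 c'
  let V : C(S', ℂ) →ₐ[ℂ] C(S, ℂ) := ContinuousMap.compRightAlgHom ℂ ℂ v
  let U : C(S, ℂ) →ₐ[ℂ] C(S', ℂ) := ContinuousMap.compRightAlgHom ℂ ℂ u
  obtain ⟨D, d⟩ := b1 (K0.map (V : C(S', ℂ) →+* C(S, ℂ)) b') (by
    rw [← K0.map_comp, ← b0']
    exact congrArg (K0.map · b') (RingHom.ext fun a => congrArg a hv))
  obtain ⟨D', d'⟩ := b1' (K0.map (U : C(S, ℂ) →+* C(S', ℂ)) b) (by
    rw [← K0.map_comp, ← b0]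
    exact congrArg (K0.map · b) (RingHom.ext fun a => congrArg a hu))
  obtain ⟨H⟩ := h
  have k := HInv313.map_eq_of_homotopy (A := C(S', ℂ)) (B := C(S', ℂ))
    (fun t => (ContinuousMap.compRightAlgHom ℂ ℂ (H.toContinuousMap.curry t)).toRingHom) fun a =>
      (ContinuousMap.continuous_postcomp a).comp H.toContinuousMap.curry.continuous
  have e0 : H.toContinuousMap.curry 0 = v.comp u := ContinuousMap.ext H.apply_zero
  have e1 : H.toContinuousMap.curry 1 = .id S' := ContinuousMap.ext H.apply_one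
  simp only [e0, e1] at k
  have k2 : K0.map (U : C(S, ℂ) →+* C(S', ℂ)) (K0.map (V : C(S', ℂ) →+* C(S, ℂ)) b') = b' := by
    rw [← K0.map_comp]
    exact (DFunLike.congr_fun k b').trans (K0.map_id b')
  rw [d, map_zsmul, d', smul_smul] at k2
  have e := b2' (D * D' - 1) (by rw [sub_smul, k2, one_smul, sub_self])
  have D0 : D ≠ 0 := by rintro rfl; simp at e
  have p := psi_map (p := 3) V b'
  rw [q', map_zsmul, d, map_zsmul, q, smul_smul, smul_smul] at p
  have e2 := b2 _ ((sub_smul _ _ b).trans (sub_eq_zero.2 p))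
  rw [mul_comm D, ← sub_mul, mul_eq_zero, sub_eq_zero] at e2
  have e3 : n / 2 = m / 2 :=
    pow_right_injective₀ (by norm_num) (by norm_num) (e2.resolve_right D0)
  obtain ⟨a, rfl⟩ := hn
  obtain ⟨a', rfl⟩ := hm
  omega

/-- the sphere of a vector space as a collapsed cube -/
def col {E : Type} [NormedAddCommGroup E] [NormedSpace ℝ E] {n : ℕ}
    (e : E ≃L[ℝ] (Fin (n + 1) → ℝ)) : H472.Collapse (Fin (n + 1)) (OnePoint E) ∞ where
  p := (om e.symm).comp (cs n).p
  surj s := by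
    obtain ⟨x, h⟩ := (cs n).surj (om e s)
    exact ⟨x, (congrArg (om e.symm) h).trans (om_symm e s)⟩
  fib x z h := (cs n).inj x z ((om_symm e.symm _).symm.trans ((congrArg (om e) h).trans
    (om_symm e.symm _)))
  bd x := ⟨fun h => (cs n).mem_bdry_of_p_eq n.succ_pos ((om_symm e.symm _).symm.trans
    (congrArg (om e) h)), fun h => congrArg (om e.symm) ((cs n).bdry x h)⟩

/-- **invariance of dimension** for even spheres -/
theorem dim_eq {W₁ W₂ : Type} [NormedAddCommGroup W₁] [NormedSpace ℝ W₁] [FiniteDimensional ℝ W₁]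
    [NormedAddCommGroup W₂] [NormedSpace ℝ W₂] [FiniteDimensional ℝ W₂]
    (h₁ : Even (Module.finrank ℝ W₁)) (h₂ : Even (Module.finrank ℝ W₂))
    {v : C(OnePoint W₁, OnePoint W₂)} {u : C(OnePoint W₂, OnePoint W₁)} (hv : v ∞ = ∞)
    (hu : u ∞ = ∞) (h : (v.comp u).HomotopicRel (.id _) {∞}) :
    Module.finrank ℝ W₁ = Module.finrank ℝ W₂ := by
  have := FiniteDimensional.proper_real W₁
  have := FiniteDimensional.proper_real W₂
  obtain ⟨H⟩ := h
  obtain ⟨V, V0, V1, V2⟩ := smash (B := Unit) (F := ℂ) (v := fun z => v z.2) (by fun_prop)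
    fun _ => hv
  obtain ⟨U, U0, U1, U2⟩ := smash (B := Unit) (F := ℂ) (v := fun z => u z.2) (by fun_prop)
    fun _ => hu
  obtain ⟨G, G0, G1, G2⟩ := smash (B := I) (F := ℂ) (v := H) H.continuous
    fun t => (H.eq_fst t rfl).trans ((congrArg v hu).trans hv)
  have k := dim_cs (n := Module.finrank ℝ W₁ + 1 + 1) (m := Module.finrank ℝ W₂ + 1 + 1)
    (Nat.succ_pos _) (Nat.succ_pos _) (col (E := W₁ × ℂ) (.ofFinrankEq (by simp)))
    (col (E := W₂ × ℂ) (.ofFinrankEq (by simp))) (h₁.add even_two) (h₂.add even_two)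
    (v := sl ⟨V, V0⟩ ()) (u := sl ⟨U, U0⟩ ()) (V1 _) (U1 _) (ContinuousMap.HomotopicRel.homotopic
      (rel_of ⟨G, G0⟩ G1 ((congrArg (sl ⟨V, V0⟩ ()) (U1 _)).trans (V1 _)) rfl ?_ ?_))
  · omega
  · rintro ⟨w, e⟩
    change G (0, _) = V ((), U ((), _))
    rw [G2, U2, H.apply_zero, ContinuousMap.comp_apply]
    induction u w using OnePoint.rec with
    | infty => rw [hv]; exact (V1 _).symm
    | coe w' => exact (V2 _ _ _).symm
  · rintro ⟨w, e⟩
    change G (1, _) = _
    rw [G2, H.apply_one]; rfl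

/-- the projection onto the range -/
def pR {E : Type} [NormedAddCommGroup E] [InnerProductSpace ℂ E] (π : E →L[ℂ] E) :
    E →L[ℂ] π.range := π.codRestrict _ fun y => ⟨y, rfl⟩

theorem pR_sub {E : Type} [NormedAddCommGroup E] [InnerProductSpace ℂ E] {π : E →L[ℂ] E}
    (h : ∀ y, π (π y) = π y) (w : π.range) : pR π w = w := by
  obtain ⟨_, y, rfl⟩ := w
  exact Subtype.ext (h y)

theorem ev_fin (W : Type) [NormedAddCommGroup W] [NormedSpace ℂ W] :
    Even (Module.finrank ℝ W) := by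
  rw [finrank_real_of_complex]; exact even_two_mul _

end Dg

end Crest.Agent.N218.D7
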