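import Crest.Agent.N218.D7.St
import Crest.Agent.N218.D7.Hd
import Crest.Agent.N218.K.Col
import Crest.Agent.N218.K.Ln

/-!
# Row 218, block D7 (helper37): the two unstable spaces have the same dimension
-/

set_option autoImplicit false
set_option linter.unusedVariables false
set_option linter.unusedSectionVars false

open Set OnePoint unitInterval Module Metric

noncomputable section

namespace Crest.Agent.N218.D7.Dm

open K Crest.Agent.R204 K357

/-- the rank at a point -/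
def rk {Y : Type} [TopologicalSpace Y] (y : Y) : KX Y →+* KC ℂ := KA (ContinuousMap.evalAlgHom ℂ ℂ y)

theorem rk_pull {X Y : Type} [TopologicalSpace X] [TopologicalSpace Y] (f : C(X, Y)) (x : X)
    (b : KX Y) : rk x (pull f b) = rk (f x) b :=
  (K0.map_comp ((ContinuousMap.evalAlgHom ℂ ℂ x : C(X, ℂ) →ₐ[ℂ] ℂ) : C(X, ℂ) →+* ℂ)
    ((ContinuousMap.compRightAlgHom ℂ ℂ f : C(Y, ℂ) →ₐ[ℂ] C(X, ℂ)) : C(Y, ℂ) →+* C(X, ℂ)) b).symm

theorem pull_const {X Y : Type} [TopologicalSpace X] [TopologicalSpace Y] (y : Y) {b : KX Y}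
    (h : rk y b = 0) : pull (.const X y) b = 0 :=
  (K0.map_comp ((Algebra.ofId ℂ C(X, ℂ) : ℂ →ₐ[ℂ] C(X, ℂ)) : ℂ →+* C(X, ℂ))
    ((ContinuousMap.evalAlgHom ℂ ℂ y : C(Y, ℂ) →ₐ[ℂ] ℂ) : C(Y, ℂ) →+* ℂ) b).trans
    ((congrArg (KA (Algebra.ofId ℂ C(X, ℂ))) h).trans (map_zero _))

variable {A B : Type} [NormedAddCommGroup A] [NormedSpace ℂ A] [FiniteDimensional ℂ A]
  [NormedAddCommGroup B] [NormedSpace ℂ B] [FiniteDimensional ℂ B]

variable (A) in
/-- K-theory of even spheres -/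
theorem sph (h : finrank ℂ A ≠ 0) : ∃ b : KX (OnePoint A), rk ∞ b = 0 ∧
    (∀ x, rk ∞ x = 0 → ∃ n : ℤ, x = n • b) ∧ (∀ n : ℤ, n • b = 0 → n = 0) ∧
    ps _ b = (3 : ℤ) ^ finrank ℂ A • b := by
  obtain ⟨n, hn⟩ : ∃ n, 2 * finrank ℂ A = n + 1 := ⟨2 * finrank ℂ A - 1, by omega⟩
  have : ProperSpace A := FiniteDimensional.proper ℂ A
  let e : A ≃L[ℝ] (Fin (n + 1) → ℝ) := .ofFinrankEq (by
    rw [finrank_real_of_complex, hn, finrank_fin_fun])
  have i : Function.Injective (Nf.om e.symm) := Function.LeftInverse.injective (Nf.om_symm e.symm)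
  let c : H472.Collapse (Fin (n + 1)) (OnePoint A) ∞ :=
    ⟨(Nf.om e.symm).comp (Nf.cs n).p, fun y => ((Nf.cs n).surj (Nf.om e y)).imp fun x k =>
      (congrArg (Nf.om e.symm) k).trans (Nf.om_symm e y), fun x z k => (Nf.cs n).inj x z (i k),
      fun x => ⟨fun k => (Nf.cs n).mem_bdry_of_p_eq n.succ_pos (i k),
        fun k => congrArg (Nf.om e.symm) ((Nf.cs n).bdry x k)⟩⟩
  have ev : Even (n + 1) := hn ▸ even_two_mul _
  obtain ⟨b0, b1, b2⟩ := Bt837.bY_kz n.succ_pos ev c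
  refine ⟨_, b0, b1, b2, (Bt837.psi_bY n.succ_pos ev c 3).trans ?_⟩
  rw [show n.succ / 2 = finrank ℂ A by omega]; rfl

theorem dimK (h : finrank ℂ A ≠ 0) (f : C(OnePoint A, OnePoint B)) (g : C(OnePoint B, OnePoint A))
    (hf : f ∞ = ∞) (hg : g ∞ = ∞) (H : (ContinuousMap.id _).Homotopy (g.comp f)) :
    finrank ℂ A = finrank ℂ B := by
  obtain ⟨a, a0, -, a2, a3⟩ := sph A h
  have e : pull (g.comp f) a = a := by rw [← pull_htpy H, pull_id]
  have ne : a ≠ 0 := fun k => one_ne_zero (a2 1 (by rw [k, smul_zero]))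
  by_cases z : finrank ℂ B = 0
  · have : Subsingleton B := finrank_zero_iff.1 z
    have : Nontrivial A := Module.nontrivial_of_finrank_pos (Nat.pos_of_ne_zero h)
    have : NoncompactSpace A := NormedSpace.noncompactSpace ℂ A
    have : Finite (OnePoint B) := inferInstanceAs (Finite (Option B))
    have k : g.comp f = .const _ ∞ := ContinuousMap.ext fun y =>
      (congrArg g ((PreconnectedSpace.constant inferInstance f.continuous).trans hf)).trans hg
    exact (ne (by rw [← e, k, pull_const _ a0])).elim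
  obtain ⟨b, -, b1, b2, b3⟩ := sph B z
  obtain ⟨m, hm⟩ := b1 (pull g a) (by rw [rk_pull, hg, a0])
  have k := ps_pull g a
  rw [a3, map_zsmul, hm, map_zsmul, b3, smul_smul, smul_smul, ← sub_eq_zero, ← sub_smul] at k
  have m0 : m ≠ 0 := fun k => ne (by rw [← e, pull_comp, hm, k, zero_smul, map_zero])
  have := mul_left_cancel₀ m0 ((sub_eq_zero.1 (b2 _ k)).trans (mul_comm _ _))
  exact (Nat.pow_right_injective (le_of_lt (by norm_num : 2 < 3)) (by exact_mod_cast this)).symm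

open Classical in
/-- extension by `∞` -/
def pe {T : Type} (O : Set T) (f : T → B) (t : T) : OnePoint B := if t ∈ O then f t else ∞

theorem pe_in {T : Type} {O : Set T} (f : T → B) {t : T} (h : t ∈ O) : pe O f t = f t := if_pos h
theorem pe_out {T : Type} {O : Set T} (f : T → B) {t : T} (h : t ∉ O) : pe O f t = ∞ := if_neg h

theorem ox_in {T : Type} {O : Set (T × A)} (f : T × A → B) {t : T} {y : A} (h : (t, y) ∈ O) :
    opx (pe O f) (t, (y : OnePoint A)) = f (t, y) := pe_in f h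
theorem ox_out {T : Type} {O : Set (T × A)} (f : T × A → B) {t : T} {y : A} (h : (t, y) ∉ O) :
    opx (pe O f) (t, (y : OnePoint A)) = ∞ := pe_out f h

theorem key {T : Type} [TopologicalSpace T] {O : Set (T × A)} {f : T × A → B} (hO : IsOpen O)
    (hf : ContinuousOn f O) (h : ∀ R, ∃ S, IsClosed S ∧ S ⊆ O ∧ ∃ C, ∀ w ∈ O, ‖f w‖ ≤ R →
      w ∈ S ∧ ‖w.2‖ ≤ C) : Continuous (opx (pe O f)) := by
  have : ProperSpace A := FiniteDimensional.proper ℂ A
  refine continuous_opx (continuous_def.2 fun U hU => ?_) fun K hK => ?_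
  · by_cases i : ∞ ∈ U
    · obtain ⟨c1, c2⟩ := (isOpen_iff_of_mem i).1 hU
      obtain ⟨R, hR⟩ := c2.isBounded.exists_norm_le
      obtain ⟨S, s1, s2, C, s3⟩ := h R
      rw [← isClosed_compl_iff]
      convert (hf.mono s2).preimage_isClosed_of_isClosed s1 c1 using 1
      ext w
      by_cases o : w ∈ O
      · simp only [mem_compl_iff, mem_preimage, pe_in f o, mem_inter_iff]
        exact ⟨fun k => ⟨(s3 w o (hR _ k)).1, k⟩, fun k => k.2⟩
      · simp only [mem_compl_iff, mem_preimage, pe_out f o, mem_inter_iff]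
        exact ⟨fun k => (k i).elim, fun k => (o (s2 k.1)).elim⟩
    · convert hf.isOpen_inter_preimage hO ((isOpen_iff_of_notMem i).1 hU) using 1
      ext w
      by_cases o : w ∈ O
      · simp only [mem_preimage, pe_in f o, mem_inter_iff, o, true_and]
      · simp only [mem_preimage, pe_out f o, mem_inter_iff, o, false_and, i]
  · obtain ⟨R, hR⟩ := hK.isBounded.exists_norm_le
    obtain ⟨S, -, -, C, s3⟩ := h R
    refine ⟨closedBall 0 C, isCompact_closedBall _ _, fun p w w' n k m => n ?_⟩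
    by_cases o : (p, w) ∈ O
    · rw [pe_in f o, coe_eq_coe] at k
      exact mem_closedBall_zero_iff.2 (s3 _ o (k ▸ hR _ m)).2
    · rw [pe_out f o] at k; exact (infty_ne_coe _ k).elim

end Crest.Agent.N218.D7.Dm

namespace Crest.Agent.N218.D7

open Pm Dm K

theorem dim : DIM := by
  intro E₁ E₂ _ _ _ _ _ _ D c κ R₀ M h c1 c2
  obtain ⟨x⟩ : Nonempty Sx := (NormedSpace.sphere_nonempty.2 zero_le_one).to_subtype
  set W₁ : Submodule ℂ E₁ := (D.π₁ x).range
  set W₂ : Submodule ℂ E₂ := (D.π₂ x).range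
  let r₁ : E₁ →L[ℂ] W₁ := (D.π₁ x).rangeRestrict
  let r₂ : E₂ →L[ℂ] W₂ := (D.π₂ x).rangeRestrict
  have i₁ : ∀ y : W₁, D.π₁ x y = y := by rintro ⟨_, y, rfl⟩; exact h.p₁.id x y
  have i₂ : ∀ y : W₂, D.π₂ x y = y := by rintro ⟨_, y, rfl⟩; exact h.p₂.id x y
  have m0 : 0 < D.μ := one_pos.trans h.hμ
  have big : ∀ (a b : ℝ), 0 ≤ a → (R₀ ≤ a → (1 + κ) * a ≤ b) → a ≤ max R₀ b := fun a b a0 k =>
    (le_total a R₀).elim (·.trans (le_max_left _ _)) fun j =>
      le_max_of_le_right (by nlinarith [k j, h.hκ])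
  have key1 : finrank ℂ W₁ = finrank ℂ W₂ := by
    by_cases z : finrank ℂ W₁ = 0
    · rw [z, eq_comm, finrank_zero_iff]
      have : Subsingleton W₁ := finrank_zero_iff.1 z
      by_contra k
      rw [not_subsingleton_iff_nontrivial] at k
      obtain ⟨w, hw⟩ := NormedSpace.exists_lt_norm ℂ W₂ (max R₀ 0)
      refine hw.not_ge (big _ _ (norm_nonneg w) fun j => ?_)
      have := h.ux x w (by rwa [i₂])
      rwa [i₂, show D.π₁ x _ = (r₁ (D.u (x, w)) : E₁) from rfl, Subsingleton.elim (r₁ _) 0,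
        Submodule.coe_zero, norm_zero] at this
    let s : E₁ → W₁ := fun y => r₁ (D.μ⁻¹ • y)
    have sc : Continuous s := r₁.continuous.comp (continuous_const_smul _)
    have sn : ∀ y, ‖D.π₁ x y‖ = D.μ * ‖s y‖ := fun y => by
      change _ = D.μ * ‖D.π₁ x (D.μ⁻¹ • y)‖
      rw [(D.π₁ x).map_smul_of_tower, norm_smul, Real.norm_of_nonneg (inv_pos.2 m0).le,
        mul_inv_cancel_left₀ m0.ne']
    have q1 : Continuous fun w : Unit × W₁ => (x, (w.2 : E₁)) := by fun_prop
    have q2 : Continuous fun w : Unit × W₂ => (x, (w.2 : E₂)) := by fun_prop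
    have q3 : Continuous fun w : I × W₁ => ((x, (w.1 : ℝ)), (w.2 : E₁)) := by fun_prop
    have hf := key (O := {w : Unit × W₁ | (x, (w.2 : E₁)) ∈ D.Ov})
      (f := fun w => r₂ (D.v (x, w.2))) (h.vo.preimage q1)
      (r₂.continuous.comp_continuousOn (h.vc.comp q1.continuousOn fun _ a => a)) fun R =>
      ⟨_, (h.vk (max R R₀)).isClosed.preimage q1, fun _ a => a.1, R₀, fun w a b => by
        have := h.vb _ a
        rw [i₁] at this
        refine ⟨⟨a, le_max_of_le_left ?_, le_max_of_le_right this⟩, this⟩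
        rwa [← h.vp _ a]⟩
    have hg := key (O := (univ : Set (Unit × W₂))) (f := fun w => s (D.u (x, w.2))) isOpen_univ
      (sc.comp (h.uc.comp q2)).continuousOn fun R =>
      ⟨_, isClosed_univ, subset_rfl, max R₀ (D.μ * R), fun w _ b => ⟨trivial,
        big _ _ (norm_nonneg _) fun j => by
          have := h.ux x w.2 (by rwa [i₂])
          rw [i₂, sn] at this
          exact this.trans (mul_le_mul_of_nonneg_left b m0.le)⟩⟩
    have hH := key (O := {w : I × W₁ | ((x, (w.1 : ℝ)), (w.2 : E₁)) ∈ D.O₁})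
      (f := fun w => s (D.h₁ ((x, w.1), w.2))) (h.o₁.preimage q3)
      (sc.comp_continuousOn (h.c₁.comp q3.continuousOn fun _ a => a)) fun R =>
      ⟨_, (h.k₁ (max 1 (max (D.μ * R + M) (max R₀ (D.μ * R))))).isClosed.preimage q3,
        fun _ a => a.1, max R₀ (D.μ * R), fun w a b => by
        have n := (sn _).trans_le (mul_le_mul_of_nonneg_left b m0.le)
        have y : ‖w.2‖ ≤ max R₀ (D.μ * R) := big _ _ (norm_nonneg _) fun j => by
          have := h.x₁ _ a (by rwa [i₁])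
          rw [i₁] at this
          exact this.trans n
        have k := h.b₁ _ a
        rw [i₁, sub_self, norm_zero, mul_zero, add_zero] at k
        refine ⟨⟨a, le_max_of_le_left (abs_le.2 ⟨by linarith [w.1.2.1], w.1.2.2⟩),
          le_max_of_le_right (le_max_of_le_left ?_), le_max_of_le_right (le_max_of_le_right y)⟩, y⟩
        linarith [norm_le_norm_add_norm_sub' (D.h₁ ((x, w.1), w.2)) (D.π₁ x (D.h₁ ((x, w.1), w.2)))]⟩
    refine dimK z ⟨fun y => _, hf.comp (.prodMk_right ())⟩ ⟨fun y => _, hg.comp (.prodMk_right ())⟩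
      rfl rfl ⟨⟨_, hH⟩, fun y => ?_, fun y => ?_⟩ <;> induction y using OnePoint.rec
    · rfl
    · rename_i y
      obtain ⟨a, b⟩ := h.l₁ x 0 y le_rfl
      simp only [ContinuousMap.id_apply]
      rw [ox_in _ (by exact a)]
      refine congrArg _ (Subtype.ext ?_)
      change D.π₁ x (D.μ⁻¹ • D.h₁ ((x, 0), y)) = y
      rw [b, (D.π₁ x).map_smul_of_tower, map_add, (h.Cp x y).1, zero_add,
        (D.π₁ x).map_smul_of_tower, i₁, i₁, inv_smul_smul₀ m0.ne']
    · rfl
    · rename_i y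
      obtain ⟨a, b⟩ := h.r₁ x 1 y le_rfl
      simp only [ContinuousMap.comp_apply, ContinuousMap.coe_mk, Function.comp_apply]
      by_cases o : (x, (y : E₁)) ∈ D.Ov
      · rw [ox_in _ (by exact a.2 o), ox_in _ (by exact o), ox_in _ (mem_univ _)]
        refine congrArg (fun w => ((s w : W₁) : OnePoint W₁)) ((b o).trans ?_)
        exact (h.up x _).symm
      · rw [ox_out _ (by exact mt a.1 o), ox_out _ (by exact o), opx_infty]
  let e : W₁ ≃L[ℂ] W₂ := .ofFinrankEq key1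
  have k₁ : ∀ y : W₁, r₁ y = y := fun y => Subtype.ext (i₁ y)
  have k₂ : ∀ y : W₂, r₂ y = y := fun y => Subtype.ext (i₂ y)
  refine ⟨W₂.subtypeL ∘L (e : W₁ →L[ℂ] W₂) ∘L r₁, W₁.subtypeL ∘L (e.symm : W₂ →L[ℂ] W₁) ∘L r₂,
    fun x' y => ?_, fun x' y => ?_, fun y => ?_, fun y => ?_⟩
  · change _ = (e.symm (r₂ (e (r₁ y))) : E₁)
    rw [k₂, e.symm_apply_apply, c1 x' x]; rfl
  · change _ = (e (r₁ (e.symm (r₂ y))) : E₂)
    rw [k₁, e.apply_symm_apply, c2 x' x]; rfl
  · change (e (r₁ (e.symm (r₂ (e (r₁ y))))) : E₂) = e (r₁ y)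
    rw [k₂, e.symm_apply_apply, k₁]
  · change (e.symm (r₂ (e (r₁ (e.symm (r₂ y))))) : E₁) = e.symm (r₂ y)
    rw [k₁, e.apply_symm_apply, k₂]

end Crest.Agent.N218.D7

end
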