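import Crest.Agent.N218.D7.Orbj
import Crest.Agent.N218.D7.Ext
import Crest.Agent.N218.K.Denl
import Crest.Agent.N218.K.Kln
import Crest.Agent.N218.Th.Fin

/-!
# Row 218, block D7 (helper25): `exa : EXA`
-/

set_option autoImplicit false

namespace Crest.Agent.N218.D7

open K

theorem exa : EXA := fun _ _ _ _ _ o k _ _ =>
  ext K.thom kln (denl K.thom kln) (by simp) o k

end Crest.Agent.N218.D7
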