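import Crest.Agent.N218.D7.Pt

/-!
# Row 218, block D7 (helper17): `LOC`
-/

set_option autoImplicit false

open Set OnePoint unitInterval
open scoped InnerProductSpace

noncomputable section

namespace Crest.Agent.N218.D7

namespace LocK

/-- the height -/
def ht (p x : Sx) : ℝ := ⟪x.1, p.1⟫_ℝ

lemma ht_ct (p : Sx) : Continuous (ht p) := by unfold ht; fun_prop

/-- cut-off -/
def be (p x : Sx) : ℝ := min 1 (4 * (ht p x + 1))

lemma be_ct (p : Sx) : Continuous (be p) := by
  have := ht_ct p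
  unfold be; fun_prop

/-- the unnormalised contraction -/
def ku (p : Sx) (z : Sx × I) : EuclideanSpace ℝ (Fin 12) :=
  (1 - (z.2 : ℝ) * be p z.1) • z.1.1 + ((z.2 : ℝ) * be p z.1) • p.1

lemma ku_ct (p : Sx) : Continuous (ku p) := by
  have := be_ct p
  unfold ku; fun_prop

lemma nrm (x : Sx) : ‖x.1‖ = 1 := by simpa using x.2

lemma ku_ne (p : Sx) (z : Sx × I) : ku p z ≠ 0 := by
  intro h
  obtain ⟨x, s⟩ := z
  set t : ℝ := (s : ℝ) * be p x with ht'
  have hx : ⟪x.1, x.1⟫_ℝ = 1 := by rw [real_inner_self_eq_norm_sq, nrm]; norm_num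
  have hp : ⟪p.1, p.1⟫_ℝ = 1 := by rw [real_inner_self_eq_norm_sq, nrm]; norm_num
  have h' : (1 - t) • x.1 + t • p.1 = 0 := h
  have e1 : (1 - t) + t * ht p x = 0 := by
    have := congrArg (fun v => ⟪x.1, v⟫_ℝ) h'
    simpa [inner_add_right, inner_smul_right, hx, ht, -inner_self_eq_norm_sq_to_K] using this
  have e2 : (1 - t) * ht p x + t = 0 := by
    have := congrArg (fun v => ⟪v, p.1⟫_ℝ) h'
    simpa [inner_add_left, inner_smul_left, hp, ht, -inner_self_eq_norm_sq_to_K] using this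
  have e3 : ht p x = -1 := by linear_combination e1 + e2
  have e4 : t = 0 := by rw [ht', be, e3]; norm_num
  rw [e4] at e1
  norm_num at e1

/-- the contraction of the cap -/
def ka (p : Sx) (z : Sx × I) : Sx :=
  ⟨‖ku p z‖⁻¹ • ku p z, by
    simp [norm_smul, inv_mul_cancel₀ (norm_ne_zero_iff.2 (ku_ne p z))]⟩

lemma ka_ct (p : Sx) : Continuous (ka p) := by
  have := ku_ct p
  exact Continuous.subtype_mk
    ((this.norm.inv₀ fun z => norm_ne_zero_iff.2 (ku_ne p z)).smul this) _

lemma ka_zero (p x : Sx) : ka p (x, 0) = x := by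
  apply Subtype.ext
  simp [ka, ku, nrm]

lemma ka_one (p x : Sx) (h : -3 / 4 ≤ ht p x) : ka p (x, 1) = p := by
  have : be p x = 1 := min_eq_left (by linarith)
  apply Subtype.ext
  simp [ka, ku, nrm, this]

end LocK

open LocK in
theorem loc : LOC := by
  intro E _ a p x₀ h0
  obtain ⟨H, e0, e1⟩ := (a.ht_at (sx_joined p x₀)).trans h0
  have hk := ka_ct p
  have hh := ht_ct p
  have hc : Continuous (projIcc (0 : ℝ) 1 zero_le_one) := continuous_projIcc
  have s1 : a.Ht (a.pull (fun x => ka p (x, 1)) (by fun_prop)) :=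
    (PT.Ht.of_eq fun x y => by simp [ka_zero]).trans (a.ht_pull (ka p) hk)
  let K : PT (Sx × I) E := ⟨fun z => if ht p z.1.1 ≤ -3 / 4 then a.f (ka p (z.1.1, 1), z.2) else
      H.f (((), projIcc 0 1 zero_le_one ((z.1.2 : ℝ) * (4 * ht p z.1.1 + 3))), z.2), by
    refine Continuous.if_le (a.ct.comp (by fun_prop)) (H.ct.comp (by fun_prop)) (by fun_prop)
      continuous_const fun z hz => ?_
    have : projIcc (0 : ℝ) 1 zero_le_one ((z.1.2 : ℝ) * (4 * ht p z.1.1 + 3)) = 0 :=
      projIcc_of_le_left _ (by rw [hz]; norm_num)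
    rw [this, e0, ka_one p _ hz.ge]; rfl, fun x => by simp only [a.pt, H.pt, ite_self]⟩
  refine ⟨K.pull (fun x => (x, 1)) (by fun_prop), s1.trans ⟨K, fun x y => ?_, fun x y => rfl⟩,
    fun x y hx => ?_⟩
  · show (if ht p x ≤ -3 / 4 then _ else _) = a.f (ka p (x, 1), y)
    split_ifs with h
    · rfl
    · have : projIcc (0 : ℝ) 1 zero_le_one (((0 : I) : ℝ) * (4 * ht p x + 3)) = 0 :=
        projIcc_of_le_left _ (by simp)
      simp only []
      rw [this, e0, ka_one p _ (not_le.1 h).le]; rfl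
  · have hx' : -1 / 2 ≤ ht p x := hx
    show (if ht p x ≤ -3 / 4 then _ else _) = y
    rw [if_neg (by linarith)]
    have : projIcc (0 : ℝ) 1 zero_le_one (((1 : I) : ℝ) * (4 * ht p x + 3)) = 1 :=
      projIcc_of_right_le _ (by simp; linarith)
    simp only []
    rw [this, e1]; rfl

end Crest.Agent.N218.D7

end
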