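import Crest.Agent.N218.D7.St
import Crest.Agent.N218.Pm.Kit1
import Crest.Agent.N218.Pm.Loop0

/-!
# Row 218 (helper88): the loops of pointed families are proper, homotopy invariance
-/

set_option autoImplicit false
set_option linter.unusedVariables false
set_option linter.unusedSectionVars false

open Set OnePoint unitInterval Topology

noncomputable section

namespace Crest.Agent.N218.D7

open Pm Pm.Lo

namespace Ph

section slot
variable {B E : Type} [TopologicalSpace B] [NormedAddCommGroup E] (a : PT B E)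

theorem cf : Continuous fun z : B × E => a.f (z.1, (z.2 : OnePoint E)) :=
  a.ct.comp (continuous_fst.prodMk (continuous_coe.comp continuous_snd))

theorem sl_op : IsOpen {z : B × E | a.f (z.1, (z.2 : OnePoint E)) ≠ ∞} :=
  isClosed_infty.isOpen_compl.preimage (cf a)

theorem un_coe {w : OnePoint E} (h : w ≠ ∞) : ((un w : E) : OnePoint E) = w := by
  induction w using OnePoint.rec with
  | infty => exact absurd rfl h
  | coe y => rfl

theorem un_at {w : OnePoint E} (h : w ≠ ∞) : ContinuousAt un w := by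
  rw [← un_coe h]
  exact isOpenEmbedding_coe.continuousAt_iff.1 continuousAt_id

theorem sl_ct : ContinuousOn (fun z : B × E => un (a.f (z.1, (z.2 : OnePoint E))))
    {z | a.f (z.1, (z.2 : OnePoint E)) ≠ ∞} := fun z h =>
  ((un_at h).comp (f := fun z : B × E => a.f (z.1, (z.2 : OnePoint E)))
    (cf a).continuousAt).continuousWithinAt

theorem sl_cp [ProperSpace E] {K : Set B} (hK : IsCompact K) (R : ℝ) :
    IsCompact {z : B × E | z.1 ∈ K ∧ a.f (z.1, (z.2 : OnePoint E)) ≠ ∞ ∧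
      ‖un (a.f (z.1, (z.2 : OnePoint E)))‖ ≤ R} := by
  have e : IsOpenEmbedding (Prod.map id (↑) : B × E → B × OnePoint E) :=
    IsOpenEmbedding.id.prodMap isOpenEmbedding_coe
  have c := (hK.prod (isCompact_univ (X := OnePoint E))).inter_right
    (((isCompact_closedBall (0 : E) R).image continuous_coe).isClosed.preimage a.ct)
  convert e.isInducing.isCompact_preimage' c ?_ using 1
  · ext z
    refine ⟨fun h => ⟨⟨h.1, trivial⟩, _, mem_closedBall_zero_iff.2 h.2.2, un_coe h.2.1⟩, ?_⟩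
    rintro ⟨h, y, i, j⟩
    have j' : (y : OnePoint E) = a.f (z.1, (z.2 : OnePoint E)) := j
    exact ⟨h.1, j' ▸ coe_ne_infty y, j' ▸ mem_closedBall_zero_iff.1 i⟩
  · rintro ⟨x, w⟩ ⟨-, y, -, j⟩
    induction w using OnePoint.rec with
    | infty => exact absurd (j.trans (a.pt x)) (coe_ne_infty y)
    | coe w => exact ⟨(x, w), rfl⟩
end slot

section real
variable {B E E' : Type} [TopologicalSpace B] [NormedAddCommGroup E] [NormedSpace ℝ E]
  [NormedAddCommGroup E'] [NormedSpace ℝ E'] {k : ℕ}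

variable (k) in
/-- the slotwise family -/
def QN (a : PT B E) : PM B k E :=
  ⟨{w | ∀ i, a.f (w.1, (w.2 i : E)) ≠ ∞}, fun w i => un (a.f (w.1, (w.2 i : E))), fun _ => 1⟩

theorem qn_ok [T2Space B] [ProperSpace E] (a : PT B E) : (QN k a).Ok := by
  have c : ∀ i, Continuous fun w : B × V k E => (w.1, w.2 i) := fun i => by fun_prop
  have ct : ContinuousOn (QN k a).P (QN k a).O :=
    continuousOn_pi.2 fun i => (sl_ct a).comp (c i).continuousOn fun w h => h i
  refine ⟨?_, fun x h i => h _, ct, fun _ _ => rfl, fun K hK R => ?_, continuous_const,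
    fun _ _ => rfl, fun _ _ h => h⟩
  · convert isOpen_iInter_of_finite fun i => (sl_op a).preimage (c i) using 1
    ext w
    rw [mem_iInter]; rfl
  have s := sl_cp a hK R
  refine pp_of ct (C := (K ×ˢ univ.pi fun _ => Prod.snd '' _) ∩ ⋂ i, (fun w => (w.1, w.2 i)) ⁻¹' _)
    ((hK.prod (isCompact_univ_pi fun _ => s.image continuous_snd)).inter_right
      (isClosed_iInter fun i => s.isClosed.preimage (c i))) (fun w h i => (mem_iInter.1 h.2 i).2.1)
    hK fun w h i n => ?_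
  have m : ∀ j, (w.1, w.2 j) ∈ {z : B × E | z.1 ∈ K ∧
      a.f (z.1, (z.2 : OnePoint E)) ≠ ∞ ∧ ‖un (a.f (z.1, (z.2 : OnePoint E)))‖ ≤ R} := fun j =>
    ⟨i, h j, (norm_le_pi_norm ((QN k a).P w) j).trans n⟩
  exact ⟨⟨i, fun j _ => ⟨_, m j, rfl⟩⟩, mem_iInter.2 m⟩

/-- the product of two families, normal map `1` -/
def pp (A : PM B k E) (A' : PM B k E') : PM B k (E × E') :=
  ⟨{w | (w.1, s1 w.2) ∈ A.O ∧ (w.1, s2 w.2) ∈ A'.O},
    fun w => pr (A.P (w.1, s1 w.2)) (A'.P (w.1, s2 w.2)), fun _ => 1⟩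

theorem pp_ok [T2Space B] {A : PM B k E} {A' : PM B k E'} (h : A.Ok) (h' : A'.Ok) :
    (pp A A').Ok := by
  have c : Continuous fun w : B × V k (E × E') => (w.1, s1 w.2) := by fun_prop
  have c' : Continuous fun w : B × V k (E × E') => (w.1, s2 w.2) := by fun_prop
  have ct : ContinuousOn (pp A A').P (pp A A').O := continuousOn_pi.2 fun i =>
    (continuousOn_pi.1 (h.ct.comp c.continuousOn fun _ a => a.1) i).prodMk
      (continuousOn_pi.1 (h'.ct.comp c'.continuousOn fun _ a => a.2) i)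
  refine ⟨(h.op.preimage c).inter (h'.op.preimage c'), fun x a => ⟨h.inv _ a.1, h'.inv _ a.2⟩, ct,
    fun x a => congrArg₂ pr (h.eq _ a.1) (h'.eq _ a.2), fun K hK R => ?_, continuous_const,
    fun _ _ => rfl, fun _ _ h => h⟩
  refine pp_of ct ((((h.pp K hK R).prod (h'.pp K hK R)).inter_right
    (isClosed_eq (continuous_fst.fst) continuous_snd.fst)).image
      (f := fun u => (u.1.1, pr u.1.2 u.2.2)) (by fun_prop)) ?_ hK fun w a i n =>
    ⟨((w.1, s1 w.2), (w.1, s2 w.2)), ⟨⟨⟨a.1, i, le_trans ?_ n⟩, a.2, i, le_trans ?_ n⟩, rfl⟩, rfl⟩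
  · rintro _ ⟨⟨⟨b, y⟩, b', z⟩, ⟨a, e⟩, rfl⟩
    obtain rfl : b = b' := e
    exact ⟨a.1.1, a.2.1⟩
  · exact (pi_norm_le_iff_of_nonneg (norm_nonneg _)).2 fun j =>
      (norm_fst_le _).trans (norm_le_pi_norm ((pp A A').P w) j)
  · exact (pi_norm_le_iff_of_nonneg (norm_nonneg _)).2 fun j =>
      (norm_snd_le _).trans (norm_le_pi_norm ((pp A A').P w) j)
end real

section cx
variable {B E : Type} [TopologicalSpace B] [NormedAddCommGroup E] [NormedSpace ℂ E] {k : ℕ}

/-- conjugation by the flow, normal map `1` -/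
def cg (r : B → ℝ) (A : PM B k E) : PM B k E :=
  ⟨{w | (w.1, Fo.g (-r w.1) w.2) ∈ A.O},
    fun w => Fo.g (r w.1) (A.P (w.1, Fo.g (-r w.1) w.2)), fun _ => 1⟩

theorem cg_ok [T2Space B] [ProperSpace E] {r : B → ℝ} (hr : Continuous r) {A : PM B k E}
    (h : A.Ok) : (cg r A).Ok := by
  have c : Continuous fun w : B × V k E => (w.1, Fo.g (-r w.1) w.2) := by fun_prop
  have g : Continuous fun w : B × V k E => Fo.g (r w.1) w.2 := by fun_prop
  have ct : ContinuousOn (cg r A).P (cg r A).O := g.comp_continuousOn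
    (f := fun w : B × V k E => (w.1, A.P (w.1, Fo.g (-r w.1) w.2)))
    (continuousOn_fst.prodMk (h.ct.comp c.continuousOn fun _ a => a))
  refine ⟨h.op.preimage c, fun x a => ?_, ct, fun x a => ?_, fun K hK R => ?_, continuous_const,
    fun _ _ => rfl, fun _ _ h => h⟩
  · change (x.1, Fo.g _ (sh k E x.2)) ∈ A.O
    rw [g_sh']; exact h.inv _ a
  · change Fo.g _ (A.P (x.1, Fo.g _ (sh k E x.2))) = sh k E (Fo.g _ _)
    exact (congrArg (Fo.g (r x.1)) ((congrArg (fun y => A.P (x.1, y)) (g_sh' _ _)).trans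
      (h.eq _ a))).trans (g_sh' _ _)
  obtain ⟨R', b⟩ := ((hK.prod (isCompact_closedBall (0 : V k E) R)).image
    c.snd).isBounded.exists_norm_le
  refine pp_of ct ((h.pp K hK R').image (continuous_fst.prodMk g)) ?_ hK fun w a i n =>
    ⟨(w.1, Fo.g (-r w.1) w.2), ⟨a, i, ?_⟩, Prod.ext rfl (Fo.g_neg' _ _)⟩
  · rintro _ ⟨w, a, rfl⟩
    change (w.1, Fo.g _ (Fo.g _ w.2)) ∈ A.O
    rw [Fo.g_neg]; exact a.1
  · exact b _ ⟨(w.1, (cg r A).P w), ⟨i, mem_closedBall_zero_iff.2 n⟩, Fo.g_neg _ _⟩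

end cx

end Ph

open Ph

section ql
variable {X E : Type} [TopologicalSpace X] [NormedAddCommGroup E] [NormedSpace ℂ E]

/-- the one-slot loop `g_r N a g_(-r)` with normal map `1` -/
def QL (k : ℕ) (a : PT X E) : PM (X × UnitAddCircle) k E :=
  ⟨{w | ∀ i, a.f (w.1.1, (Fo.g (-rep w.1.2) w.2 i : E)) ≠ ∞},
    fun w => Fo.g (rep w.1.2) fun i => un (a.f (w.1.1, (Fo.g (-rep w.1.2) w.2 i : E))), fun _ => 1⟩

theorem ql_ok [T2Space X] [ProperSpace E] (k : ℕ) (a : PT X E) : (QL k a).Ok := by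
  have p : ∀ (r : ℝ) (y : V k E), Fo.g (-rep (r : UnitAddCircle)) y =
      Fo.sh ((⌊r⌋ : ℤ) : Ix k) (Fo.g (-r) y) := fun r y => by
    rw [rep_coe, ← g_int, ← Fo.g_add]; congr 2; push_cast; ring
  refine desc (φ := Prod.map id ((↑) : ℝ → UnitAddCircle))
    (IsOpenQuotientMap.id.prodMap QuotientAddGroup.isOpenQuotientMap_mk)
    (fun K hK => ⟨(Prod.fst '' K) ×ˢ Icc 0 1, (hK.image continuous_fst).prod isCompact_Icc,
      fun b hb => ⟨(b.1, rep b.2), ⟨⟨_, hb, rfl⟩, rep_mem _⟩, Prod.ext rfl (coe_rep _)⟩⟩)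
    (cg_ok continuous_snd ((qn_ok (k := k) a).pull continuous_fst)) ?_ ?_ fun b => rfl
  · rintro ⟨x, r⟩ y
    change (∀ i, a.f (x, (Fo.g (-rep (r : UnitAddCircle)) y i : E)) ≠ ∞) ↔
      ∀ i, a.f (x, (Fo.g (-r) y i : E)) ≠ ∞
    rw [p]
    exact ⟨fun h i => by simpa [Fo.sh] using h (i - ((⌊r⌋ : ℤ) : Ix k)), fun h i => h _⟩
  · rintro ⟨x, r⟩ y -
    change Fo.g (rep (r : UnitAddCircle)) (fun i =>
      un (a.f (x, (Fo.g (-rep (r : UnitAddCircle)) y i : E)))) =
      Fo.g r fun i => un (a.f (x, (Fo.g (-r) y i : E)))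
    rw [p, rep_coe, Fo.g_add, g_int]
    congr 1
    funext i
    simp [Fo.sh]

theorem PT.Ht.ex {B F : Type} [TopologicalSpace B] [TopologicalSpace F] {a a' : PT B F}
    (h : a.Ht a') : ∃ H : PT (B × I) F, a = H.pull (fun x => (x, 0)) (by fun_prop) ∧
      a' = H.pull (fun x => (x, 1)) (by fun_prop) := by
  obtain ⟨H, u, v⟩ := h
  cases a; cases a'
  refine ⟨H, ?_, ?_⟩ <;> simp only [PT.pull, PT.mk.injEq] <;> funext z
  exacts [(u z.1 z.2).symm, (v z.1 z.2).symm]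

theorem cs_cp {B F : Type} [TopologicalSpace B] [CompactSpace B] [NormedAddCommGroup F]
    [NormedSpace ℝ F] {k : ℕ} (A : PM B k F) (δ : ℝ) : A.Cs δ :=
  ⟨univ, isCompact_univ, fun _ h => absurd trivial h⟩

theorem ql_ht [T2Space X] [CompactSpace X] [FiniteDimensional ℂ E] (k : ℕ) {a a' : PT X E} (h : a.Ht a')
    {δ : ℝ} (hd : 0 < δ) : ((QL k a).F (tau δ)).Eqv ((QL k a').F (tau δ)) := by
  obtain ⟨H, rfl, rfl⟩ := h.ex
  have := FiniteDimensional.proper_rclike ℂ E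
  exact PM.eqv_F ((ql_ok k H).pull (φ := fun b : (X × UnitAddCircle) × I => ((b.1.1, b.2), b.1.2))
    (by fun_prop)) hd (cs_cp _ δ)
end ql

section pl
variable {X E₁ E₂ : Type} [TopologicalSpace X] [NormedAddCommGroup E₁] [InnerProductSpace ℂ E₁]
  [NormedAddCommGroup E₂] [InnerProductSpace ℂ E₂] [FiniteDimensional ℂ E₁]
  [FiniteDimensional ℂ E₂] [T2Space X]

theorem pl_ok (k : ℕ) (a : PT X E₁) (b : PT X E₂) : (PL k a b).Ok :=
  haveI := FiniteDimensional.proper_rclike ℂ E₁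
  haveI := FiniteDimensional.proper_rclike ℂ E₂
  pp_ok (ql_ok k a) ((qn_ok (k := k) b).pull continuous_fst)

theorem pl_ht [CompactSpace X] (k : ℕ) {a a' : PT X E₁} {b b' : PT X E₂} (h : a.Ht a')
    (h' : b.Ht b') {δ : ℝ} (hd : 0 < δ) : ((PL k a b).F (tau δ)).Eqv ((PL k a' b').F (tau δ)) := by
  obtain ⟨H, rfl, rfl⟩ := h.ex
  obtain ⟨H', rfl, rfl⟩ := h'.ex
  exact PM.eqv_F ((pl_ok k H H').pull
    (φ := fun b : (X × UnitAddCircle) × I => ((b.1.1, b.2), b.1.2)) (by fun_prop)) hd (cs_cp _ δ)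
end pl

theorem plh : PLH := fun A _ T E₁ E₂ _ _ _ _ _ _ k δ hk hd a a' b b' h h' =>
  ⟨pl_ok k a b, PM.fok (pl_ok k a b) (tau_ok hd) (cs_cp _ δ),
    T.an_eqv k (sp (E₁ × E₂)) _ _ hk (pl_ht k h h' hd)⟩

end Crest.Agent.N218.D7

end
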