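import Crest.Agent.N218.D7.St
import Crest.Agent.N218.Pm.Pc

/-!
# Row 218, block D7 (helper11): the leaves RFL and ZER
-/

set_option autoImplicit false
set_option linter.unusedVariables false
set_option linter.unusedSectionVars false

open Set

noncomputable section

namespace Crest.Agent.N218.D7

open Pm

namespace Rf

section cj
variable {B : Type} {k : ℕ} {E : Type} [NormedAddCommGroup E] [NormedSpace ℝ E]

/-- `A'` is the transport of `A` along `e` -/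
structure Cj (e : V k E ≃L[ℝ] V k E) (A' A : PM B k E) : Prop where
  o : ∀ x, x ∈ A'.O ↔ (x.1, e x.2) ∈ A.O
  p : ∀ x, e (A'.P x) = A.P (x.1, e x.2)
  n : ∀ b y, e (A'.n b y) = A.n b (e y)

theorem Cj.glue {e : V k E ≃L[ℝ] V k E} {A' A C' C : PM (B × ℝ) k E} (h : Cj e A' A)
    (h' : Cj e C' C) (c : ℝ) : Cj e (PM.glue c A' C') (PM.glue c A C) where
  o x := by
    by_cases hx : x.1.2 ≤ c
    · simpa [PM.glue, hx] using h.o x
    · simpa [PM.glue, hx] using h'.o x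
  p x := by
    by_cases hx : x.1.2 ≤ c
    · simpa [PM.glue, hx] using h.p x
    · simpa [PM.glue, hx] using h'.p x
  n b y := by
    by_cases hx : b.2 ≤ c
    · simpa [PM.glue, hx] using h.n b y
    · simpa [PM.glue, hx] using h'.n b y

theorem Cj.F {e : V k E ≃L[ℝ] V k E} {A' A : PM B k E} (h : Cj e A' A)
    (hm : ∀ y, e (Pm.mn y) = Pm.mn (e y)) (hn : ∀ y, ‖e y‖ = ‖y‖) (δ : ℝ) :
    A'.F (tau δ) = (A.F (tau δ)).cj e := by
  have ht : ∀ x : B × V k E, tau δ (x.1, e x.2) = tau δ x := fun x => by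
    simp only [tau, ← hm, hn]
  unfold PM.F Pb.cj
  congr 1
  · ext x
    simp only [mem_ofPred_eq, ht, h.o, map_sub, map_smul, hm]
    rw [← hm, ne_eq, ne_eq, map_eq_zero_iff e e.injective]
  · funext x
    apply e.injective
    simp only [ht, map_add, map_smul, h.p, h.n, map_sub, hm, ContinuousLinearEquiv.apply_symm_apply]
end cj

variable {X E₁ E₂ : Type} [TopologicalSpace X] [NormedAddCommGroup E₁] [InnerProductSpace ℂ E₁]
  [NormedAddCommGroup E₂] [InnerProductSpace ℂ E₂]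

variable (E₁) in
/-- the isometry of the second slot -/
def ee (k : ℕ) (ρ : E₂ ≃ₗᵢ[ℝ] E₂) : V k (E₁ × E₂) ≃L[ℝ] V k (E₁ × E₂) :=
  ContinuousLinearEquiv.piCongrRight fun _ =>
    (ContinuousLinearEquiv.refl ℝ E₁).prodCongr ρ.toContinuousLinearEquiv

theorem ee_apply (k : ℕ) (ρ : E₂ ≃ₗᵢ[ℝ] E₂) (y : V k (E₁ × E₂)) (i : Ix k) :
    ee E₁ k ρ y i = ((y i).1, ρ (y i).2) := rfl

theorem ee_norm (k : ℕ) (ρ : E₂ ≃ₗᵢ[ℝ] E₂) (y : V k (E₁ × E₂)) : ‖ee E₁ k ρ y‖ = ‖y‖ := by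
  have : ∀ i, ‖ee E₁ k ρ y i‖₊ = ‖y i‖₊ := fun i => by
    ext; simp [ee_apply, Prod.norm_def]
  simp only [Pi.norm_def, this]

theorem cj_Y (D : Data X E₁ E₂) (k : ℕ) (ρ : E₂ ≃ₗᵢ[ℝ] E₂) (r : ∀ z, ρ (ρ z) = z) :
    Cj (ee E₁ k ρ) ((rf D ρ).Y k) (D.Y k) := by
  refine Cj.glue ⟨fun x => Iff.rfl, fun x => rfl, fun _ _ => rfl⟩ (Cj.glue
    ⟨fun x => Iff.rfl, fun x => ?_, fun _ _ => rfl⟩ (Cj.glue
      ⟨fun x => Iff.rfl, fun x => ?_, fun _ _ => rfl⟩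
      ⟨fun x => Iff.rfl, fun x => ?_, fun _ _ => rfl⟩ 5) 3) 1
  · funext i
    simp [ee_apply, Data.a₂, rf, pr, s1, s2, r]
  · funext i
    simp [ee_apply, Data.a₃, rf, pr, s1, s2, r]
  · funext i
    simp [ee_apply, Data.a₄, rf, pr, s1, s2, r]

theorem rf_ok {D : Data X E₁ E₂} {c κ R₀ M : ℝ} (h : D.Ok c κ R₀ M) (ρ : E₂ ≃ₗᵢ[ℝ] E₂)
    (r : ∀ z, ρ (ρ z) = z) (p : ∀ x z, ρ (D.π₂ x z) = D.π₂ x (ρ z)) : (rf D ρ).Ok c κ R₀ M := by
  have hc : Continuous fun w : (X × ℝ) × E₂ => (w.1, ρ w.2) := by fun_prop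
  have pn : ∀ x z, ‖D.π₂ x (ρ z)‖ = ‖D.π₂ x z‖ := fun x z => by rw [← p, ρ.norm_map]
  refine ⟨h.p₁, h.p₂, h.hμ, h.hc, h.hκ, h.Cc, h.Cn, h.Cp, h.uc.comp (by fun_prop), fun x z => ?_,
    fun x z => h.ub x (ρ z), fun x z hz => ?_, h.vo, ρ.continuous.comp_continuousOn h.vc,
    fun w hw => ?_, fun R => ?_, h.vb, h.o₁, h.c₁, h.k₁, h.b₁, h.x₁, h.l₁, fun x s y hs => ?_,
    h.o₂.preimage hc, ρ.continuous.comp_continuousOn (h.c₂.comp hc.continuousOn fun w hw => hw),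
    fun x s z => ?_, fun R => ?_, fun w hw hz => ?_, fun x s z hs => ?_, fun x s z hs => ?_⟩
  · change D.u (x, ρ (D.π₂ x z)) = D.u (x, ρ z)
    rw [p, h.up]
  · have := h.ux x (ρ z) (by rw [pn]; exact hz)
    rw [pn] at this; exact this
  · change D.π₂ w.1 (ρ (D.v w)) = ρ (D.v w)
    rw [← p, h.vp w hw]
  · have := h.vk R
    simpa only [rf, ρ.norm_map] using this
  · refine ⟨(h.r₁ x s y hs).1, fun hy => ?_⟩
    change D.h₁ ((x, s), y) = D.u (x, ρ (ρ (D.v (x, y))))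
    rw [r, (h.r₁ x s y hs).2 hy]
  · obtain ⟨a, b, c⟩ := h.q₂ x s (ρ z)
    refine ⟨?_, ?_, ?_⟩
    · change ((x, s), ρ z) ∈ D.O₂ ↔ ((x, s), ρ (D.π₂ x z)) ∈ D.O₂
      rw [p]; exact a
    · change ρ (D.h₂ ((x, s), ρ (D.π₂ x z))) = ρ (D.h₂ ((x, s), ρ z))
      rw [p, b]
    · change D.π₂ x (ρ (D.h₂ ((x, s), ρ z))) = ρ (D.h₂ ((x, s), ρ z))
      rw [← p, c]
  · convert (h.k₂ R).image hc using 1
    ext w
    constructor
    · rintro ⟨a, b, c, d⟩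
      refine ⟨(w.1, ρ w.2), ⟨a, b, ?_, ?_⟩, by simp only [r]⟩
      · rw [← ρ.norm_map]; exact c
      · rw [ρ.norm_map]; exact d
    · rintro ⟨w, ⟨a, b, c, d⟩, rfl⟩
      refine ⟨?_, b, ?_, ?_⟩
      · change (w.1, ρ (ρ w.2)) ∈ D.O₂
        rw [r]; exact a
      · change ‖ρ (D.h₂ (w.1, ρ (ρ w.2)))‖ ≤ R
        rw [r, ρ.norm_map]; exact c
      · change ‖ρ w.2‖ ≤ R
        rw [ρ.norm_map]; exact d
  · have := h.x₂ (w.1, ρ w.2) hw (by rw [pn]; exact hz)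
    change _ ≤ ‖ρ _‖
    rw [ρ.norm_map]
    rw [pn] at this; exact this
  · refine ⟨(h.l₂ x s (ρ z) hs).1, fun hy => ?_⟩
    change ρ (D.h₂ ((x, s), ρ z)) = ρ (D.v (x, D.u (x, ρ z)))
    rw [(h.l₂ x s (ρ z) hs).2 hy]
  · refine ⟨(h.r₂ x s (ρ z) hs).1, ?_⟩
    change ρ (D.h₂ ((x, s), ρ z)) = D.μ • D.π₂ x z
    rw [(h.r₂ x s (ρ z) hs).2, map_smul, p, r]

end Rf
open Rf

theorem rfl_ : RFL := by
  intro A _ T E₁ E₂ _ _ _ _ _ _ k δ hk hd D c κ R₀ M j j' ρ hD he r r1 r2 ok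
  refine ⟨rf_ok hD ρ r fun x z => by rw [he.p₂, he.p₂, r1], ?_⟩
  rw [(cj_Y D k ρ r).F (fun y => ?_) (ee_norm k ρ) δ]
  · exact T.pa_cj k (sp (E₁ × E₂)) (sp (E₁ × E₂)) (ee E₁ k ρ) _ hk ok fun y => rfl
  · funext i
    simp [ee_apply, Pm.mn]

theorem zer : ZER := by
  intro A _ T E₁ E₂ _ _ _ _ _ _ k δ hk hd D c κ R₀ M j hD he ok
  refine (T.iv_an hk).emp (S := sp (E₁ × E₂)) ok (eq_empty_of_forall_notMem fun x hx => ?_)
  obtain ⟨⟨h1, h2⟩, h3⟩ := hx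
  have p1 : ∀ x y, D.π₁ x y = 0 := fun x y => by rw [he.p₁]; rfl
  have p2 : ∀ x y, D.π₂ x y = 0 := fun x y => by rw [he.p₂]; simp
  have hu : ∀ x z, D.u (x, z) = D.u (x, 0) := fun x z => by rw [← hD.up x z, p2]
  have hv : (fun i => D.v (x.1.1, Fo.g (-rep x.1.2)
      (s1 (x.2 - (1 - tau δ x) • Pm.mn x.2)) i)) = 0 := funext fun i => by
    exact (hD.vp _ (h2 i)).symm.trans (p2 _ _)
  have h4 : ∀ i, x.2 i = (D.u (x.1.1, 0), 0) := fun i => by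
    have := congrFun h3 i
    simp only [PM.F, Data.Orb, hv, p1, p2, map_zero, sub_zero] at this
    simp only [pr, s1, s2, Pi.add_apply, Pi.smul_apply, Pi.sub_apply, Prod.ext_iff,
      one_apply_eq_self, Prod.fst_add, Prod.snd_add, Prod.fst_sub, Prod.snd_sub,
      Prod.smul_fst, Prod.smul_snd, Pi.zero_apply, Prod.fst_zero, Prod.snd_zero] at this
    rw [hu] at this
    ext1
    · rw [← sub_eq_zero, ← this.1]; abel
    · rw [← this.2]; abel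
  exact h1 (funext fun i => by simp [Pm.mn, h4])

end Crest.Agent.N218.D7

end
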