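import Crest.Agent.N218.D7.St
import Crest.Agent.N218.Pm.Loop

/-!
# Row 218, block D7 (helper47): `rot : ROT`
-/

set_option autoImplicit false
set_option linter.unusedVariables false
set_option linter.unusedSectionVars false

open Set OnePoint unitInterval Topology

noncomputable section

namespace Crest.Agent.N218.D7

open Pm Pm.Lo

namespace Rt

/-- extension of a proper partial map by `∞` -/
theorem ext_pt {X E : Type} [TopologicalSpace X] [T2Space X] [NormedAddCommGroup E] [ProperSpace E]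
    {O : Set (X × E)} (hO : IsOpen O) {f : X × E → E} (hf : ContinuousOn f O)
    (hp : ∀ R : ℝ, ∃ C, IsCompact C ∧ C ⊆ O ∧ ∀ w ∈ O, ‖f w‖ ≤ R → w ∈ C) :
    ∃ a : PT X E, ∀ x (y : E), ((x, y) ∈ O → a.f (x, y) = (f (x, y) : OnePoint E)) ∧
      ((x, y) ∉ O → a.f (x, y) = ∞) := by
  classical
  let F : X × OnePoint E → OnePoint E := fun w =>
    w.2.elim ∞ fun y => if (w.1, y) ∈ O then (f (w.1, y) : OnePoint E) else ∞
  have ι : IsOpenEmbedding (Prod.map id (↑) : X × E → X × OnePoint E) :=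
    IsOpenEmbedding.id.prodMap isOpenEmbedding_coe
  have key : ∀ s : Set (OnePoint E), ∞ ∉ s →
      F ⁻¹' s = Prod.map id (↑) '' (O ∩ f ⁻¹' ((↑) ⁻¹' s)) := by
    intro s hs
    ext ⟨x, w⟩
    induction w using OnePoint.rec with
    | infty => simp [F, hs]
    | coe y => by_cases c : (x, y) ∈ O <;> simp [F, c, hs]
  refine ⟨⟨F, continuous_def.2 fun s hs => ?_, fun _ => rfl⟩,
    fun x y => ⟨fun c => if_pos c, fun c => if_neg c⟩⟩
  by_cases i : ∞ ∈ s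
  · rw [← isClosed_compl_iff, ← preimage_compl, key _ (not_not.2 i)]
    have K := (isOpen_def.1 hs).1 i
    obtain ⟨R, hR⟩ := K.isBounded.exists_norm_le
    obtain ⟨C, c1, c2, c3⟩ := hp R
    have e : O ∩ f ⁻¹' ((↑) ⁻¹' sᶜ) = C ∩ f ⁻¹' ((↑) ⁻¹' s)ᶜ :=
      Set.ext fun w => ⟨fun a => ⟨c3 w a.1 (hR _ a.2), a.2⟩, fun a => ⟨c2 a.1, a.2⟩⟩
    rw [e]
    exact ((c1.of_isClosed_subset ((hf.mono c2).preimage_isClosed_of_isClosed c1.isClosed
      K.isClosed) inter_subset_left).image ι.continuous).isClosed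
  · rw [key _ i]
    exact ι.isOpenMap _ (hf.isOpen_inter_preimage hO (hs.preimage continuous_coe))

/-- bounded functions -/
def Bd {S F : Type} [Norm F] (f : S → F) : Prop := ∃ C, ∀ s, ‖f s‖ ≤ C

namespace Bd
variable {S F G : Type} [NormedAddCommGroup F] [NormedAddCommGroup G] {f f' : S → F}
theorem eq (h : Bd f) (e : ∀ s, f' s = f s) : Bd f' := h.imp fun _ a s => (e s).symm ▸ a s
theorem add (h : Bd f) (h' : Bd f') : Bd fun s => f s + f' s :=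
  let ⟨a, p⟩ := h; let ⟨b, q⟩ := h'; ⟨a + b, fun s => norm_add_le_of_le (p s) (q s)⟩
theorem sub (h : Bd f) (h' : Bd f') : Bd fun s => f s - f' s :=
  let ⟨a, p⟩ := h; let ⟨b, q⟩ := h'; ⟨a + b, fun s => norm_sub_le_of_le (p s) (q s)⟩
theorem clm [NormedSpace ℂ F] [NormedSpace ℂ G] (h : Bd f) (A : F →L[ℂ] G) : Bd fun s => A (f s) :=
  let ⟨a, p⟩ := h; ⟨‖A‖ * a, fun s => A.le_opNorm_of_le (p s)⟩
theorem sm [NormedSpace ℝ F] {t : S → ℝ} (ht : Bd t) (h : Bd f) : Bd fun s => t s • f s :=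
  let ⟨a, p⟩ := ht; let ⟨b, q⟩ := h
  ⟨a * b, fun s => (norm_smul _ _).trans_le
    (mul_le_mul (p s) (q s) (norm_nonneg _) ((norm_nonneg _).trans (p s)))⟩
theorem mem {t : S → ℝ} {c : ℝ} (h : ∀ s, t s ∈ Icc 0 c) : Bd t :=
  ⟨c, fun s => (Real.norm_of_nonneg (h s).1).trans_le (h s).2⟩
theorem two (h : Bd f) {g : S → G} (h' : Bd g) : ∃ C, ∀ s, ‖f s‖ ≤ C ∧ ‖g s‖ ≤ C :=
  let ⟨a, p⟩ := h; let ⟨b, q⟩ := h'
  ⟨max a b, fun s => ⟨(p s).trans (le_max_left _ _), (q s).trans (le_max_right _ _)⟩⟩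
theorem g {q : ℕ} [NeZero q] {E : Type} [NormedAddCommGroup E] [InnerProductSpace ℂ E]
    {y : S → ZMod q → E} (h : Bd fun p : S × ZMod q => y p.1 p.2) (r : S → ℝ) :
    Bd fun p : S × ZMod q => Fo.g (r p.1) (y p.1) p.2 :=
  let ⟨a, p⟩ := h
  ⟨q * a, fun s => (Fo.le_n2 _ _).trans ((Fo.n2_g _ _).trans_le (Fo.n2_le _ fun i => p (s.1, i)))⟩
end Bd

variable {X E₁ E₂ : Type} [TopologicalSpace X] [NormedAddCommGroup E₁] [InnerProductSpace ℂ E₁]
  [FiniteDimensional ℂ E₁] [NormedAddCommGroup E₂] [InnerProductSpace ℂ E₂]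
  [FiniteDimensional ℂ E₂] {D : Data X E₁ E₂} {k : ℕ} {c κ R₀ M : ℝ} {j : E₁ →L[ℂ] E₂}
  {j' : E₂ →L[ℂ] E₁}

theorem e1 (he : En D j j') (x : X) (z : E₂) : D.π₁ x (j' z) = j' z := by rw [he.p₁, he.jj']
theorem e2 (he : En D j j') (x : X) (y : E₁) : D.π₂ x (j y) = j y := by rw [he.p₂, he.jj]
theorem Bd.p1 {S : Type} {f : S → E₁} (h : Bd f) (he : En D j j') (x : S → X) :
    Bd fun s => D.π₁ (x s) (f s) := ((h.clm j).clm j').eq fun s => he.p₁ _ _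
theorem Bd.p2 {S : Type} {f : S → E₂} (h : Bd f) (he : En D j j') (x : S → X) :
    Bd fun s => D.π₂ (x s) (f s) := ((h.clm j').clm j).eq fun s => he.p₂ _ _
theorem Bd.ux {S : Type} {x : S → X} {z : S → E₂} (h : D.Ok c κ R₀ M)
    (b : Bd fun s => D.π₁ (x s) (D.u (x s, z s))) : Bd fun s => D.π₂ (x s) (z s) := by
  obtain ⟨a, p⟩ := b
  refine ⟨max a R₀, fun s => ?_⟩
  by_cases t : R₀ ≤ ‖D.π₂ (x s) (z s)‖
  · have := (h.ux _ _ t).trans (p s)
    exact le_max_of_le_left (by nlinarith [mul_nonneg h.hκ.le (norm_nonneg (D.π₂ (x s) (z s)))])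
  · exact le_max_of_le_right (not_le.1 t).le

theorem ex_a [CompactSpace X] [T2Space X] (h : D.Ok c κ R₀ M) (he : En D j j') :
    ∃ a, IsA D j' a := by
  haveI : ProperSpace E₁ := FiniteDimensional.proper ℂ E₁
  have c1 := h.p₁.ct
  have cp : Continuous fun w : X × E₁ => (w.1, D.π₁ w.1 w.2) := by fun_prop
  refine ext_pt (O := {w | (w.1, D.π₁ w.1 w.2) ∈ D.Ov})
    (f := fun w => w.2 - D.π₁ w.1 w.2 - j' (D.v (w.1, D.π₁ w.1 w.2))) (h.vo.preimage cp)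
    (ContinuousOn.sub (Continuous.continuousOn (by fun_prop))
      (j'.continuous.comp_continuousOn (h.vc.comp cp.continuousOn fun w hw => hw))) fun R => ?_
  let S := {w : X × E₁ // (w.1, D.π₁ w.1 w.2) ∈ D.Ov ∧
    ‖w.2 - D.π₁ w.1 w.2 - j' (D.v (w.1, D.π₁ w.1 w.2))‖ ≤ R}
  have b0 : Bd fun s : S => s.1.2 - D.π₁ s.1.1 s.1.2 - j' (D.v (s.1.1, D.π₁ s.1.1 s.1.2)) :=
    ⟨R, fun s => s.2.2⟩
  have b1 : Bd fun s : S => D.π₁ s.1.1 s.1.2 :=
    ⟨R₀, fun s => by simpa only [h.p₁.id] using h.vb _ s.2.1⟩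
  have b2 : Bd fun s : S => j' (D.v (s.1.1, D.π₁ s.1.1 s.1.2)) :=
    ((b0.p1 he fun s => s.1.1).clm (-1)).eq fun s => by simp [h.p₁.id, e1 he]
  have b3 : Bd fun s : S => D.v (s.1.1, D.π₁ s.1.1 s.1.2) :=
    (b2.clm j).eq fun s => by rw [← he.p₂ s.1.1]; exact (h.vp _ s.2.1).symm
  have b4 : Bd fun s : S => s.1.2 := ((b0.add b1).add b2).eq fun s => by abel
  obtain ⟨R₁, p⟩ := b3.two b1
  obtain ⟨R₂, q⟩ := b4
  exact ⟨(univ ×ˢ Metric.closedBall 0 R₂) ∩ (fun w => (w.1, D.π₁ w.1 w.2)) ⁻¹'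
    {w ∈ D.Ov | ‖D.v w‖ ≤ R₁ ∧ ‖w.2‖ ≤ R₁},
    (isCompact_univ.prod (isCompact_closedBall _ _)).inter_right ((h.vk R₁).isClosed.preimage cp),
    fun w hw => hw.2.1, fun w hw t => ⟨⟨trivial, mem_closedBall_zero_iff.2 (q ⟨w, hw, t⟩)⟩,
      hw, p ⟨w, hw, t⟩⟩⟩

theorem ex_b [CompactSpace X] [T2Space X] (h : D.Ok c κ R₀ M) (he : En D j j') :
    ∃ b, IsB D j b := by
  haveI : ProperSpace E₂ := FiniteDimensional.proper ℂ E₂
  have c2 := h.p₂.ct
  have cu := h.uc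
  refine (ext_pt (O := univ) (f := fun w => w.2 - D.π₂ w.1 w.2 + j (D.u w)) isOpen_univ
    (Continuous.continuousOn (by fun_prop)) fun R => ?_).imp fun b e x z => (e x z).1 trivial
  let S := {w : X × E₂ // ‖w.2 - D.π₂ w.1 w.2 + j (D.u w)‖ ≤ R}
  have b0 : Bd fun s : S => s.1.2 - D.π₂ s.1.1 s.1.2 + j (D.u s.1) := ⟨R, fun s => s.2⟩
  have b1 : Bd fun s : S => j (D.u s.1) :=
    (b0.p2 he fun s => s.1.1).eq fun s => by simp [h.p₂.id, e2 he]
  have b2 : Bd fun s : S => D.π₂ s.1.1 s.1.2 := Bd.ux h ((b1.clm j').eq fun s => he.p₁ _ _)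
  obtain ⟨R₂, q⟩ : Bd fun s : S => s.1.2 := ((b0.add b2).sub b1).eq fun s => by abel
  exact ⟨univ ×ˢ Metric.closedBall 0 R₂, isCompact_univ.prod (isCompact_closedBall _ _),
    subset_univ _, fun w _ t => ⟨trivial, mem_closedBall_zero_iff.2 (q ⟨w, t⟩)⟩⟩

variable (D) in
/-- the argument of `v` -/
def pp (b : (X × ℝ) × I) (y : V k E₁) : V k E₁ := fun i =>
  Fo.g (-b.1.2) y i - (b.2 : ℝ) • (Fo.g (-b.1.2) y i - D.π₁ b.1.1 (Fo.g (-b.1.2) y i))
variable (D) in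
/-- the rotated value of `v` -/
def WW (b : (X × ℝ) × I) (y : V k E₁) : V k E₂ := Fo.g b.1.2 fun i => D.v (b.1.1, pp D b y i)

theorem pp_sh (b : (X × ℝ) × I) (y : V k E₁) : pp D b (sh k E₁ y) = sh k E₁ (pp D b y) := by
  unfold pp; rw [g_sh']; rfl
theorem WW_sh (b : (X × ℝ) × I) (y : V k E₁) : WW D b (sh k E₁ y) = sh k E₂ (WW D b y) := by
  unfold WW; rw [pp_sh, ← g_sh']; rfl
theorem pp_per (x : X) (r : ℝ) (m : ℤ) (l : I) (y : V k E₁) (i : Ix k) :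
    pp D ((x, r + m), l) y i = pp D ((x, r), l) y (i + ((-m : ℤ) : Ix k)) := by
  simp only [pp, Data.g_per]
theorem WW_per (x : X) (r : ℝ) (m : ℤ) (l : I) (y : V k E₁) :
    WW D ((x, r + m), l) y = WW D ((x, r), l) y := by
  simp only [WW, pp_per]
  rw [Fo.g_add, g_int]
  congr 1
  funext i
  simp [Fo.sh]

variable (D k j j') in
/-- the unrolled family -/
def RR : PM ((X × ℝ) × I) k (E₁ × E₂) :=
  ⟨{w | ∀ i, (w.1.1.1, pp D w.1 (s1 w.2) i) ∈ D.Ov},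
    fun w => pr (fun i => s1 w.2 i - D.π₁ w.1.1.1 (s1 w.2 i) -
        (1 - w.1.2 : ℝ) • D.u (w.1.1.1, s2 w.2 i) - (w.1.2 : ℝ) • j' (WW D w.1 (s1 w.2) i))
      fun i => s2 w.2 i - D.π₂ w.1.1.1 (s2 w.2 i) + (w.1.2 : ℝ) • j (D.u (w.1.1.1, s2 w.2 i)) -
        (1 - w.1.2 : ℝ) • WW D w.1 (s1 w.2) i, fun _ => 1⟩

theorem bd (h : D.Ok c κ R₀ M) (he : En D j j') {S : Type} {b : S → (X × ℝ) × I}
    {y : S → V k E₁} {z : S → V k E₂} (hO : ∀ s i, ((b s).1.1, pp D (b s) (y s) i) ∈ D.Ov)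
    (b1 : Bd fun p : S × Ix k => y p.1 p.2 - D.π₁ (b p.1).1.1 (y p.1 p.2) -
      (1 - (b p.1).2 : ℝ) • D.u ((b p.1).1.1, z p.1 p.2) -
        ((b p.1).2 : ℝ) • j' (WW D (b p.1) (y p.1) p.2))
    (b2 : Bd fun p : S × Ix k => z p.1 p.2 - D.π₂ (b p.1).1.1 (z p.1 p.2) +
      ((b p.1).2 : ℝ) • j (D.u ((b p.1).1.1, z p.1 p.2)) -
        (1 - (b p.1).2 : ℝ) • WW D (b p.1) (y p.1) p.2) :
    (Bd fun p : S × Ix k => y p.1 p.2) ∧ (Bd fun p : S × Ix k => z p.1 p.2) ∧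
      (Bd fun p : S × Ix k => D.v ((b p.1).1.1, pp D (b p.1) (y p.1) p.2)) ∧
      Bd fun p : S × Ix k => pp D (b p.1) (y p.1) p.2 := by
  have bl : Bd fun p : S × Ix k => ((b p.1).2 : ℝ) := Bd.mem fun p => (b p.1).2.2
  have bt : Bd fun p : S × Ix k => (1 - (b p.1).2 : ℝ) :=
    Bd.mem fun p => unitInterval.one_minus_nonneg _ |> fun a => ⟨a, unitInterval.one_minus_le_one _⟩
  have nz : ∀ l : ℝ, 1 / 2 ≤ (1 - l) ^ 2 + l ^ 2 := fun l => by nlinarith [sq_nonneg (2 * l - 1)]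
  have bi : Bd fun p : S × Ix k => ((1 - (b p.1).2 : ℝ) ^ 2 + (b p.1).2 ^ 2)⁻¹ :=
    Bd.mem (c := 2) fun p => ⟨by positivity, inv_le_of_inv_le₀ two_pos (by
      rw [← one_div]; exact nz _)⟩
  have vW : ∀ s i, j (j' (WW D (b s) (y s) i)) = WW D (b s) (y s) i := fun s i => by
    rw [← he.p₂ (b s).1.1, WW, g_N]
    exact congrFun (congrArg _ (funext fun i => h.vp _ (hO s i))) i
  have a1 : Bd fun p : S × Ix k => (1 - (b p.1).2 : ℝ) • j' (j (D.u ((b p.1).1.1, z p.1 p.2))) +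
      ((b p.1).2 : ℝ) • j' (WW D (b p.1) (y p.1) p.2) :=
    ((b1.p1 he fun p => (b p.1).1.1).clm (-1)).eq fun p => by
      simp only [he.p₁, map_sub, ContinuousLinearMap.map_smul_of_tower, he.jj, he.jj',
        ContinuousLinearMap.neg_apply, ContinuousLinearMap.one_apply]
      abel
  have a2 : Bd fun p : S × Ix k => ((b p.1).2 : ℝ) • j' (j (D.u ((b p.1).1.1, z p.1 p.2))) -
      (1 - (b p.1).2 : ℝ) • j' (WW D (b p.1) (y p.1) p.2) :=
    (b2.clm j').eq fun p => by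
      simp only [he.p₂, map_sub, map_add, ContinuousLinearMap.map_smul_of_tower, he.jj']
      abel
  have a3 : Bd fun p : S × Ix k => j' (j (D.u ((b p.1).1.1, z p.1 p.2))) :=
    (bi.sm ((bt.sm a1).add (bl.sm a2))).eq fun p => by
      rw [eq_inv_smul_iff₀ (by linarith [nz (b p.1).2])]; module
  have a4 : Bd fun p : S × Ix k => j' (WW D (b p.1) (y p.1) p.2) :=
    (bi.sm ((bl.sm a1).sub (bt.sm a2))).eq fun p => by
      rw [eq_inv_smul_iff₀ (by linarith [nz (b p.1).2])]; module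
  have a5 : Bd fun p : S × Ix k => WW D (b p.1) (y p.1) p.2 := (a4.clm j).eq fun p => (vW _ _).symm
  have a6 : Bd fun p : S × Ix k => D.π₂ (b p.1).1.1 (z p.1 p.2) :=
    Bd.ux (x := fun p : S × Ix k => (b p.1).1.1) h (a3.eq fun p => he.p₁ _ _)
  have a7 : Bd fun p : S × Ix k => D.u ((b p.1).1.1, z p.1 p.2) :=
    (Bd.add ⟨M, fun p => h.ub (b p.1).1.1 (z p.1 p.2)⟩ a3).eq fun p => by rw [he.p₁]; abel
  have a8 : Bd fun p : S × Ix k => D.π₁ (b p.1).1.1 (Fo.g (-(b p.1).1.2) (y p.1) p.2) :=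
    ⟨R₀, fun p => by
      have := h.vb _ (hO p.1 p.2)
      simpa only [pp, map_sub, ContinuousLinearMap.map_smul_of_tower, h.p₁.id, sub_self, smul_zero,
        sub_zero] using this⟩
  have a9 : Bd fun p : S × Ix k => D.π₁ (b p.1).1.1 (y p.1 p.2) :=
    (Bd.g (y := fun s i => D.π₁ (b s).1.1 (Fo.g (-(b s).1.2) (y s) i)) a8 fun s => (b s).1.2).eq
      fun p => by rw [← g_N, Fo.g_neg']
  have by' : Bd fun p : S × Ix k => y p.1 p.2 :=
    (((b1.add a9).add (bt.sm a7)).add (bl.sm a4)).eq fun p => by abel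
  have bY := by'.g fun s => -(b s).1.2
  refine ⟨by', (((b2.add a6).sub (bl.sm (a7.clm j))).add (bt.sm a5)).eq fun p => by abel,
    (Bd.g (y := fun s => WW D (b s) (y s)) a5 fun s => -(b s).1.2).eq fun p => ?_,
    bY.sub (bl.sm (bY.sub a8))⟩
  rw [WW, Fo.g_neg]

theorem RR_ok [T2Space X] (h : D.Ok c κ R₀ M) (he : En D j j') : (RR D k j j').Ok := by
  have c1 := h.p₁.ct
  have c2 := h.p₂.ct
  have cu := h.uc
  have cY : ∀ i, Continuous fun w : ((X × ℝ) × I) × V k (E₁ × E₂) =>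
      (w.1.1.1, pp D w.1 (s1 w.2) i) := fun i => by
    have a : Continuous fun w : ((X × ℝ) × I) × V k (E₁ × E₂) => Fo.g (-w.1.1.2) (s1 w.2) i :=
      (continuous_apply i).comp (Fo.cont_g (by fun_prop) (by fun_prop))
    exact Continuous.prodMk (by fun_prop) (a.sub (Continuous.smul
      (f := fun w : ((X × ℝ) × I) × V k (E₁ × E₂) => (w.1.2 : ℝ)) (by fun_prop)
      (a.sub (Continuous.clm_apply (by fun_prop) a))))
  have ct : ContinuousOn (RR D k j j').P (RR D k j j').O := by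
    have a : ContinuousOn (fun w : ((X × ℝ) × I) × V k (E₁ × E₂) => fun i =>
        D.v (w.1.1.1, pp D w.1 (s1 w.2) i)) (RR D k j j').O :=
      continuousOn_pi.2 fun i => h.vc.comp (cY i).continuousOn fun w hw => hw i
    have a' : ContinuousOn (fun w : ((X × ℝ) × I) × V k (E₁ × E₂) => WW D w.1 (s1 w.2))
        (RR D k j j').O := by
      have := (by fun_prop : Continuous fun p : (((X × ℝ) × I) × V k (E₁ × E₂)) × V k E₂ =>
        Fo.g p.1.1.1.2 p.2).comp_continuousOn (continuousOn_id.prodMk a)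
      simpa only [WW, Function.comp_def, id] using this
    have b : Continuous fun p : (((X × ℝ) × I) × V k (E₁ × E₂)) × V k E₂ =>
        pr (fun i => s1 p.1.2 i - D.π₁ p.1.1.1.1 (s1 p.1.2 i) -
          (1 - p.1.1.2 : ℝ) • D.u (p.1.1.1.1, s2 p.1.2 i) - (p.1.1.2 : ℝ) • j' (p.2 i))
        fun i => s2 p.1.2 i - D.π₂ p.1.1.1.1 (s2 p.1.2 i) +
          (p.1.1.2 : ℝ) • j (D.u (p.1.1.1.1, s2 p.1.2 i)) - (1 - p.1.1.2 : ℝ) • p.2 i := by
      refine cont_pr (continuous_pi fun i => ?_) (continuous_pi fun i => ?_)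
      · unfold s1 s2; fun_prop
      · unfold s2; fun_prop
    exact b.comp_continuousOn (continuousOn_id.prodMk a')
  refine ⟨?_, fun w hw i => ?_, ct, fun w hw => ?_, fun K hK R => ?_, continuous_const,
    fun b y => rfl, fun b y e => e⟩
  · change IsOpen {w : ((X × ℝ) × I) × V k (E₁ × E₂) | ∀ i, _ ∈ D.Ov}
    rw [ofPred_forall]
    exact isOpen_iInter_of_finite fun i => h.vo.preimage (cY i)
  · change (_, pp D _ (sh k E₁ (s1 w.2)) i) ∈ D.Ov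
    rw [pp_sh]
    exact hw (i - 1)
  · simp only [RR, s1_sh, WW_sh]
    rfl
  · let S := {w // w ∈ (RR D k j j').O ∧ ‖(RR D k j j').P w‖ ≤ R}
    obtain ⟨b1, b2, b3, b4⟩ := bd h he (b := fun s : S => s.1.1) (y := fun s => s1 s.1.2)
      (z := fun s => s2 s.1.2) (fun s => s.2.1)
      ⟨R, fun p => (norm_fst_le _).trans ((norm_le_pi_norm _ p.2).trans p.1.2.2)⟩
      ⟨R, fun p => (norm_snd_le _).trans ((norm_le_pi_norm _ p.2).trans p.1.2.2)⟩
    obtain ⟨R₁, p⟩ := b1.two b2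
    obtain ⟨R₂, q⟩ := b3.two b4
    refine pp_of (C := (K ×ˢ Metric.closedBall 0 |R₁|) ∩ ⋂ i, (fun w => (w.1.1.1,
      pp D w.1 (s1 w.2) i)) ⁻¹' {w ∈ D.Ov | ‖D.v w‖ ≤ R₂ ∧ ‖w.2‖ ≤ R₂}) ct
      ((hK.prod (isCompact_closedBall _ _)).inter_right
        (isClosed_iInter fun i => (h.vk R₂).isClosed.preimage (cY i)))
      (fun w hw i => (mem_iInter.1 hw.2 i).1) hK fun w hw t r => ?_
    exact ⟨⟨t, mem_closedBall_zero_iff.2 ((pi_norm_le_iff_of_nonneg (abs_nonneg _)).2 fun i =>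
      (norm_prod_le_iff.2 (p (⟨w, hw, r⟩, i))).trans (le_abs_self _))⟩,
      mem_iInter.2 fun i => ⟨hw i, q (⟨w, hw, r⟩, i)⟩⟩

variable (D k j j') in
/-- the family over the circle -/
def RC : PM ((X × UnitAddCircle) × I) k (E₁ × E₂) :=
  (RR D k j j').pull fun b => ((b.1.1, rep b.1.2), b.2)

theorem RC_ok [T2Space X] (h : D.Ok c κ R₀ M) (he : En D j j') : (RC D k j j').Ok := by
  refine desc (φ := Prod.map (Prod.map id (↑)) id)
    ((IsOpenQuotientMap.id.prodMap QuotientAddGroup.isOpenQuotientMap_mk).prodMap .id)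
    (fun K hK => ⟨((Prod.fst '' (Prod.fst '' K)) ×ˢ Icc 0 1) ×ˢ univ,
      (((hK.image continuous_fst).image continuous_fst).prod isCompact_Icc).prod isCompact_univ,
      fun b hb => ⟨((b.1.1, rep b.1.2), b.2), ⟨⟨⟨_, ⟨_, hb, rfl⟩, rfl⟩, rep_mem _⟩, trivial⟩, ?_⟩⟩)
    (RR_ok h he) ?_ ?_ fun b => rfl
  · simp [coe_rep]
  · rintro ⟨⟨x, r⟩, l⟩ y
    change (∀ i, (x, pp D ((x, rep (r : UnitAddCircle)), l) (s1 y) i) ∈ D.Ov) ↔
      ∀ i, (x, pp D ((x, r), l) (s1 y) i) ∈ D.Ov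
    simp only [rep_coe, pp_per]
    exact ⟨fun a i => by simpa using a (i - ((- -⌊r⌋ : ℤ) : Ix k)), fun a i => a _⟩
  · rintro ⟨⟨x, r⟩, l⟩ y -
    have e : WW D ((x, rep (r : UnitAddCircle)), l) (s1 y) = WW D ((x, r), l) (s1 y) := by
      rw [rep_coe, WW_per]
    simp only [RC, RR, PM.pull, Prod.map, id, e]

theorem F_sm {B E : Type} {k : ℕ} [NormedAddCommGroup E] [NormedSpace ℝ E] {A A' : PM B k E}
    (o : A.O = A'.O) (p : ∀ w ∈ A.O, A.P w = A'.P w) (n : A.n = A'.n) (τ : B × V k E → ℝ) :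
    (A.F τ).Sm (A'.F τ) :=
  ⟨by simp only [PM.F, o], fun w hw => by simp only [PM.F]; rw [p _ hw.2, n]⟩

theorem un_coe {E : Type} [Zero E] (y : E) : un (y : OnePoint E) = y := rfl

theorem end0 : (RC D k j j').pull (fun b => (b, 0)) = D.Orb k := by
  simp only [RC, RR, PM.pull, Data.Orb, WW, pp]
  congr 1
  · simp
  · funext w; simp [Pi.sub_def]

theorem end1 {a : PT X E₁} {b : PT X E₂} (ha : IsA D j' a) (hb : IsB D j b) (τ) :
    (((RC D k j j').pull fun b => (b, 1)).F τ).Sm ((PL k a b).F τ) := by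
  have e : ∀ x r (y : V k E₁) i, pp D ((x, r), 1) y i = D.π₁ x (Fo.g (-r) y i) := fun x r y i => by
    simp [pp]
  refine F_sm (A := (RC D k j j').pull fun b => (b, 1)) (A' := PL k a b) (Set.ext fun w => ?_)
    (fun w hw => ?_) rfl τ
  · change (∀ i, (_, pp D ((w.1.1, rep w.1.2), 1) (s1 w.2) i) ∈ D.Ov) ↔ _ ∧ _
    simp only [e]
    refine ⟨fun t => ⟨fun i => ?_, fun i => ?_⟩, fun t i => ?_⟩
    · rw [(ha _ _).1 (t i)]; exact coe_ne_infty _
    · rw [hb]; exact coe_ne_infty _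
    · by_contra c
      exact t.1 i ((ha _ _).2 c)
  · change (∀ i, (_, pp D ((w.1.1, rep w.1.2), 1) (s1 w.2) i) ∈ D.Ov) at hw
    simp only [e] at hw
    simp only [RC, RR, PM.pull, PL, WW, e, fun i => (ha _ _).1 (hw i), hb _ _, un_coe]
    congr 1
    · funext i
      have t := Fo.g_neg' (rep w.1.2) (s1 w.2)
      generalize Fo.g (-rep w.1.2) (s1 w.2) = Y at t ⊢
      rw [← t, g_N, g_N]
      have := congrFun (map_sub (Fo.g (rep w.1.2)) (Y - fun i => D.π₁ w.1.1 (Y i))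
        fun i => j' (D.v (w.1.1, D.π₁ w.1.1 (Y i)))) i
      rw [map_sub _ Y] at this
      simp only [Set.Icc.coe_one, sub_self, zero_smul, sub_zero, one_smul]
      exact this.symm
    · funext i; simp

end Rt

open Rt in
/-- **ROT** -/
theorem rot : ROT := by
  intro A _ T E₁ E₂ _ _ _ _ _ _ k δ hk hδ D c κ R₀ M j j' h he
  obtain ⟨a, ha⟩ := ex_a h he
  obtain ⟨b, hb⟩ := ex_b h he
  have cs : (RC D k j j').Cs δ := ⟨univ, isCompact_univ, fun b hb => absurd trivial hb⟩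
  have ok := PM.fok (RC_ok (k := k) h he) (tau_ok hδ) cs
  have e := PM.eqv_F (RC_ok (k := k) h he) hδ cs
  have o1 : (((RC D k j j').pull fun b => (b, 1)).F (tau δ)).Ok := ok.sl 1
  rw [end0] at e
  exact ⟨a, b, ha, hb, T.an_eqv k (sp (E₁ × E₂)) _ _ hk (e.trans (o1.eqv_sm (end1 ha hb _)))⟩

end Crest.Agent.N218.D7

end
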