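import Crest.Agent.N218.D7.St
import Crest.Agent.N218.Pm.Kit1

/-!
# Row 218 (helper88): separated supports
-/

set_option autoImplicit false
set_option linter.unusedVariables false
set_option linter.unusedSectionVars false

open Set OnePoint unitInterval
open scoped InnerProductSpace

noncomputable section

namespace Crest.Agent.N218.D7

open Pm

namespace Sp

theorem F_cg {B B' E : Type} [TopologicalSpace B] [TopologicalSpace B'] [NormedAddCommGroup E]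
    [NormedSpace ℝ E] {k : ℕ} {A : PM B k E} {A' : PM B' k E} {b : B} {b' : B'} (δ : ℝ)
    (h : ∀ y, ((b, y) ∈ A.O ↔ (b', y) ∈ A'.O) ∧ A.P (b, y) = A'.P (b', y)) (hn : A.n b = A'.n b')
    (y : V k E) : ((b, y) ∈ (A.F (tau δ)).O ↔ (b', y) ∈ (A'.F (tau δ)).O) ∧
      (A.F (tau δ)).h (b, y) = (A'.F (tau δ)).h (b', y) :=
  ⟨and_congr_right fun _ => (h _).1, congrArg₂ (· + ·) (h _).2 (by rw [hn]; rfl)⟩

variable {X E₁ E₂ : Type} [TopologicalSpace X] [NormedAddCommGroup E₁] [InnerProductSpace ℂ E₁]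
  [NormedAddCommGroup E₂] [InnerProductSpace ℂ E₂] {k : ℕ} {a a' : PT X E₁} {b b' : PT X E₂}
  {x : X}

theorem pl_cg (ha : ∀ y, a.f (x, y) = a'.f (x, y)) (hb : ∀ z, b.f (x, z) = b'.f (x, z))
    (r : UnitAddCircle) (w : V k (E₁ × E₂)) :
    (((x, r), w) ∈ (PL k a b).O ↔ ((x, r), w) ∈ (PL k a' b').O) ∧
      (PL k a b).P ((x, r), w) = (PL k a' b').P ((x, r), w) := by
  simp only [PL, mem_ofPred_eq, ha, hb, and_self]

theorem pl_id (ha : ∀ y, a.f (x, y) = y) (r : UnitAddCircle) (w : V k (E₁ × E₂)) :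
    (((x, r), w) ∈ (PL k a b).O ↔ ∀ i, b.f (x, (s2 w i : E₂)) ≠ ∞) ∧
      (PL k a b).P ((x, r), w) = pr (s1 w) fun i => un (b.f (x, (s2 w i : E₂))) := by
  simp only [PL, mem_ofPred_eq, ha]
  exact ⟨and_iff_right fun i => coe_ne_infty _, congrArg (pr · _) (Fo.g_neg' _ _)⟩

theorem noz (ha : ∀ y, a.f (x, y) = y) (hb : ∀ z, b.f (x, z) = z) (δ : ℝ) (r : UnitAddCircle)
    (w : V k (E₁ × E₂)) : ((x, r), w) ∉ ((PL k a b).F (tau δ)).Z := fun h => by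
  have e := h.2
  simp only [PM.F] at e
  rw [(pl_id ha r _).2] at e
  simp only [hb] at e
  have : w = 0 := (sub_add_cancel w _).symm.trans e
  exact h.1.1 (by rw [this]; exact mn_zero)

end Sp

open Sp in
theorem sep (hP : PLH) : SEP := by
  intro A _ T E₁ E₂ _ _ _ _ _ _ k δ hk hd a b p ha hb
  have ok := fun (a : PT Sx E₁) (b : PT Sx E₂) =>
    (hP A T E₁ E₂ k δ hk hd a a b b (PT.Ht.rfl' a) (PT.Ht.rfl' b)).2.1
  replace hb : ∀ (x : Sx) z, ⟪x.1, p.1⟫_ℝ ≤ 1 / 2 → b.f (x, z) = z := fun x z h =>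
    hb x z (by rw [show (-p).1 = -p.1 from rfl, inner_neg_right]; linarith)
  have c : Continuous fun w : (Sx × UnitAddCircle) × V k (E₁ × E₂) => ⟪w.1.1.1, p.1⟫_ℝ := by
    fun_prop
  set N : Set ((Sx × UnitAddCircle) × V k (E₁ × E₂)) := {w | ⟪w.1.1.1, p.1⟫_ℝ < 0}
  set N' : Set ((Sx × UnitAddCircle) × V k (E₁ × E₂)) := {w | 0 < ⟪w.1.1.1, p.1⟫_ℝ}
  have q := (ok a PT.one).eqv_rs (N := N) (isOpen_lt c continuous_const) (fun _ i => i)
    fun ⟨⟨x, r⟩, w⟩ i => not_le.1 fun h : 0 ≤ ⟪x.1, p.1⟫_ℝ =>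
      noz (fun y => ha x y (by linarith)) (fun _ => rfl) δ r w i
  have q' := (ok PT.one b).eqv_rs (N := N') (isOpen_lt continuous_const c) (fun _ i => i)
    fun ⟨⟨x, r⟩, w⟩ i => not_le.1 fun h : ⟪x.1, p.1⟫_ℝ ≤ 0 =>
      noz (fun _ => rfl) (fun y => hb x y (by linarith)) δ r w i
  have e : ∀ w ∈ N, (w ∈ ((PL k a PT.one).F (tau δ)).O ↔ w ∈ ((PL k a b).F (tau δ)).O) ∧
      ((PL k a PT.one).F (tau δ)).h w = ((PL k a b).F (tau δ)).h w := fun ⟨⟨x, r⟩, w⟩ i =>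
    F_cg δ (pl_cg (a := a) (a' := a) (b := PT.one) (b' := b) (fun _ => rfl) (fun z => (hb x z (by
      have : ⟪x.1, p.1⟫_ℝ < 0 := i
      linarith)).symm) r) rfl w
  have e' : ∀ w ∈ N', (w ∈ ((PL k PT.one b).F (tau δ)).O ↔ w ∈ ((PL k a b).F (tau δ)).O) ∧
      ((PL k PT.one b).F (tau δ)).h w = ((PL k a b).F (tau δ)).h w := fun ⟨⟨x, r⟩, w⟩ i =>
    F_cg δ (pl_cg (a := PT.one) (a' := a) (b := b) (b' := b) (fun z => (ha x z (by
      have : 0 < ⟪x.1, p.1⟫_ℝ := i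
      linarith)).symm) (fun _ => rfl) r) rfl w
  have s : (((PL k a PT.one).F (tau δ)).rs N).Sm (((PL k a b).F (tau δ)).rs N) :=
    ⟨Set.ext fun w => and_congr_left fun i => (e w i).1, fun w i => (e w i.2).2⟩
  have s' : (((PL k PT.one b).F (tau δ)).rs N').Sm (((PL k a b).F (tau δ)).rs N') :=
    ⟨Set.ext fun w => and_congr_left fun i => (e' w i).1, fun w i => (e' w i.2).2⟩
  have o := (ok PT.one b).sl (0 : UnitAddCircle)
  have u : ∀ w : (Sx × UnitAddCircle) × V k (E₁ × E₂), (w ∈ ((PL k PT.one b).F (tau δ)).O ↔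
      ((w.1.1, (0 : UnitAddCircle)), w.2) ∈ ((PL k PT.one b).F (tau δ)).O) ∧
      ((PL k PT.one b).F (tau δ)).h w =
        ((PL k PT.one b).F (tau δ)).h ((w.1.1, (0 : UnitAddCircle)), w.2) := fun ⟨⟨x, r⟩, w⟩ =>
    F_cg δ (fun y => ⟨(pl_id (fun _ => rfl) r y).1.trans (pl_id (fun _ => rfl) 0 y).1.symm,
      (pl_id (fun _ => rfl) r y).2.trans (pl_id (fun _ => rfl) 0 y).2.symm⟩) rfl w
  have z : T.an k (sp (E₁ × E₂)) ((PL k PT.one b).F (tau δ)) = 0 :=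
    (T.an_eqv k (sp (E₁ × E₂)) _ _ hk ((ok PT.one b).eqv_sm
      ⟨Set.ext fun w => (u w).1, fun w _ => (u w).2⟩)).trans (T.cst k (sp (E₁ × E₂)) _ hk o)
  rw [T.an_sum k (sp (E₁ × E₂)) _ N N' hk (ok a b) (q.1.sm s) (q'.1.sm s')
    (disjoint_left.2 fun w i j => lt_asymm (show _ < (0 : ℝ) from i) j) fun ⟨⟨x, r⟩, w⟩ i => ?_,
    ← T.an_eqv k (sp (E₁ × E₂)) _ _ hk (q.2.trans (q.1.eqv_sm s)),
    ← T.an_eqv k (sp (E₁ × E₂)) _ _ hk (q'.2.trans (q'.1.eqv_sm s')), z, add_zero]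
  exact lt_or_gt_of_ne fun h : ⟪x.1, p.1⟫_ℝ = 0 =>
    noz (fun y => ha x y (by linarith)) (fun y => hb x y (by linarith)) δ r w i

end Crest.Agent.N218.D7

end
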