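import Crest.Agent.N218.D7.Orbj
import Crest.Agent.N218.D7.Dim
import Crest.Agent.N218.D7.Deg
import Crest.Agent.N218.D7.Rfl
import Crest.Agent.N218.D7.Plh
import Crest.Agent.N218.D7.Rot
import Crest.Agent.N218.D7.Loc
import Crest.Agent.N218.D7.Sep
import Crest.Agent.N218.D7.Nft
import Crest.Agent.N218.D7.Cht
import Crest.Agent.N218.K.Sum2
import Crest.Agent.N218.Sk.Fin

/-!
# Row 218, block D7 (helper75): assembly
-/

set_option autoImplicit false

namespace Crest.Agent.N218.D7

theorem d7T (hA : Pm.ALG) (hE : EXA) : Sk.D7T :=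
  Sk.d7t hA dim zer rfl_ deg plh rot loc (sep plh) nft cht (orbj K.dsum' hE)

end Crest.Agent.N218.D7
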