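import Mathlib

/-!
# Row 218, block D7 (helper75): the normalised norm map and its zeros, split by support pattern
-/

set_option autoImplicit false
set_option linter.unusedSectionVars false

open Set

noncomputable section

namespace Crest.Agent.N218.D7

variable {ι : Type} [Fintype ι] {B W : Type} [NormedAddCommGroup B]
  [NormedAddCommGroup W] [NormedSpace ℝ W]

/-- the odd part with respect to the involution `s` of the sites -/
def mn (s : ι → ι) (y : ι → W) : ι → W := fun i => (2⁻¹ : ℝ) • (y i - y (s i))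

/-- honest families in normal form -/
structure NF (v : B × W → W) (a : ℝ) : Prop where
  ct : Continuous v
  sm : ∀ x y, ‖y‖ ≤ a → v (x, y) = y
  far : ∀ x y, 1 ≤ ‖x‖ → v (x, y) = y
  pr : ∀ c, ∃ R, ∀ x y, R ≤ ‖y‖ → c ≤ ‖v (x, y)‖

/-- cut-off functions of the normalisation -/
structure Cu (s : ι → ι) (τ : (ι → W) → ℝ) (δ : ℝ) : Prop where
  ct : Continuous τ
  nn : ∀ y, 0 ≤ τ y
  le : ∀ y, τ y ≤ 1
  one : ∀ y, δ ≤ ‖mn s y‖ → τ y = 1
  zero : ∃ d > 0, ∀ y, ‖mn s y‖ < d → τ y = 0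

/-- the normalised norm map, base point `b i` at the site `i` -/
def nz (s : ι → ι) (τ : (ι → W) → ℝ) (v : B × W → W) (b : ι → B) (y : ι → W) : ι → W :=
  fun i => v (b i, y i - (1 - τ y) • mn s y i) + (1 - τ y) • mn s y i

/-- free points with support pattern `S` -/
def Os (s : ι → ι) (δ : ℝ) (S : Set ι) : Set (ι → W) :=
  {y | mn s y ≠ 0 ∧ (∀ i ∈ S, 5 / 2 * δ < ‖y i‖) ∧ ∀ i ∉ S, ‖y i‖ < 5 / 2 * δ}

omit [Fintype ι] in
theorem continuous_mn (s : ι → ι) : Continuous (mn s : (ι → W) → ι → W) := by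
  unfold mn; fun_prop

theorem isOpen_Os (s : ι → ι) (δ : ℝ) (S : Set ι) : IsOpen (Os s δ S : Set (ι → W)) := by
  have e : (Os s δ S : Set (ι → W)) = {y | mn s y ≠ 0} ∩ ((⋂ i ∈ S, {y | 5 / 2 * δ < ‖y i‖}) ∩
      ⋂ i ∈ Sᶜ, {y | ‖y i‖ < 5 / 2 * δ}) := by
    ext y; simp [Os]
  rw [e]
  refine (isOpen_ne_fun (continuous_mn s) continuous_const).inter (IsOpen.inter ?_ ?_)
  · exact (toFinite S).isOpen_biInter fun i _ => isOpen_lt continuous_const (by fun_prop)
  · exact (toFinite Sᶜ).isOpen_biInter fun i _ => isOpen_lt (by fun_prop) continuous_const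

omit [Fintype ι] in
theorem Os_inj {s : ι → ι} {δ : ℝ} {S S' : Set ι} {y : ι → W} (h : y ∈ Os s δ S)
    (h' : y ∈ Os s δ S') : S = S' := by
  ext i
  exact ⟨fun a => by_contra fun b => lt_asymm (h.2.1 i a) (h'.2.2 i b),
    fun a => by_contra fun b => lt_asymm (h'.2.1 i a) (h.2.2 i b)⟩

omit [Fintype ι] in
theorem mn_comp {s e : ι → ι} (h : ∀ i, e (s i) = s (e i)) (y : ι → W) :
    mn s (fun i => y (e i)) = fun i => mn s y (e i) := by
  funext i; simp [mn, h]

omit [Fintype ι] in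
theorem mem_Os_comp {s : ι → ι} (e : ι ≃ ι) (h : ∀ i, e (s i) = s (e i)) {δ : ℝ} {S : Set ι}
    {y : ι → W} : (fun i => y (e i)) ∈ Os s δ (e ⁻¹' S) ↔ y ∈ Os s δ S := by
  simp only [Os, mem_ofPred_eq, mn_comp h, mem_preimage]
  refine and_congr (not_congr ⟨fun a => funext fun i => ?_, fun a => funext fun i => ?_⟩)
    (and_congr ⟨fun a i k => ?_, fun a i k => a _ k⟩ ⟨fun a i k => ?_, fun a i k => a _ k⟩)
  · simpa using congrFun a (e.symm i)
  · simp [a]
  · simpa using a (e.symm i) (by simpa using k)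
  · simpa using a (e.symm i) (by simpa using k)

omit [Fintype ι] [NormedAddCommGroup B] in
theorem nz_comp {s e : ι → ι} (h : ∀ i, e (s i) = s (e i)) {τ : (ι → W) → ℝ} (v : B × W → W)
    (b : ι → B) {y : ι → W} (ht : τ (fun i => y (e i)) = τ y) :
    nz s τ v (fun i => b (e i)) (fun i => y (e i)) = fun i => nz s τ v b y (e i) := by
  funext i; simp [nz, mn_comp h, ht]

variable {s : ι → ι} {τ : (ι → W) → ℝ} {δ a : ℝ} {v : B × W → W}

theorem continuous_nz {P : Type} [TopologicalSpace P] (hv : Continuous v) (ht : Continuous τ)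
    {β : P → ι → B} (hb : Continuous β) {y : P → ι → W} (hy : Continuous y) :
    Continuous fun p => nz s τ v (β p) (y p) := by
  refine continuous_pi fun i => ?_
  have a : Continuous fun p => (1 - τ (y p)) • mn s (y p) i :=
    (continuous_const.sub (ht.comp hy)).smul
      ((continuous_apply i).comp ((continuous_mn s).comp hy))
  exact (hv.comp (((continuous_apply i).comp hb).prodMk
    (((continuous_apply i).comp hy).sub a))).add a

theorem Cu.small (ht : Cu s τ δ) (hd : 0 ≤ δ) (y : ι → W) (i : ι) :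
    ‖(1 - τ y) • mn s y i‖ ≤ δ := by
  rcases le_total δ ‖mn s y‖ with h | h
  · simp [ht.one y h, hd]
  · rw [norm_smul, Real.norm_of_nonneg (sub_nonneg.2 (ht.le y))]
    have := norm_le_pi_norm (mn s y) i
    nlinarith [ht.nn y, ht.le y, norm_nonneg (mn s y i)]

/-- every coordinate of a zero is small, or far with a base point in the unit ball -/
theorem zero_pat (hv : NF v a) (ht : Cu s τ δ) (hd : 0 ≤ δ) (ha : 4 * δ ≤ a) {b : ι → B}
    {y : ι → W} (h : nz s τ v b y = 0) (i : ι) :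
    (‖y i‖ ≤ 2 * δ ∧ y i = 0) ∨ (3 * δ ≤ ‖y i‖ ∧ ‖b i‖ < 1) := by
  have e := congrFun h i
  simp only [nz, Pi.zero_apply] at e
  have k := ht.small hd y i
  by_cases c : v (b i, y i - (1 - τ y) • mn s y i) = y i - (1 - τ y) • mn s y i
  · rw [c, sub_add_cancel] at e
    exact .inl ⟨by simp [e, hd], e⟩
  · refine .inr ⟨?_, not_le.1 fun k => c (hv.far _ _ k)⟩
    have := not_le.1 fun k => c (hv.sm _ _ k)
    have := norm_sub_le (y i) ((1 - τ y) • mn s y i)
    linarith

theorem zero_bdd (hv : NF v a) (ht : Cu s τ δ) (hd : 0 ≤ δ) :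
    ∃ R, ∀ (b : ι → B) (y : ι → W), nz s τ v b y = 0 → ‖y‖ ≤ R := by
  obtain ⟨R, hR⟩ := hv.pr (δ + 1)
  refine ⟨|R| + δ, fun b y h => (pi_norm_le_iff_of_nonneg (by positivity)).2 fun i => ?_⟩
  have e := congrFun h i
  simp only [nz, Pi.zero_apply] at e
  have k := ht.small hd y i
  have : ‖y i - (1 - τ y) • mn s y i‖ < R := not_le.1 fun c => by
    have := hR (b i) _ c
    rw [eq_neg_of_add_eq_zero_left e, norm_neg] at this
    linarith
  have := norm_add_le (y i - (1 - τ y) • mn s y i) ((1 - τ y) • mn s y i)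
  rw [sub_add_cancel] at this
  linarith [le_abs_self R]

theorem zero_gap (hs : ∀ i, s (s i) = i) (ht : Cu s τ δ) : ∃ d > 0, ∀ (v : B × W → W) (b : ι → B)
    (y : ι → W), (∀ i, b (s i) = b i) → nz s τ v b y = 0 → mn s y ≠ 0 → d ≤ ‖mn s y‖ := by
  obtain ⟨d, d0, hd⟩ := ht.zero
  refine ⟨d, d0, fun v b y hb h n => not_lt.1 fun c => n (funext fun i => ?_)⟩
  have e := congrFun h i
  have e' := congrFun h (s i)
  simp only [nz, hd y c, sub_zero, one_smul, Pi.zero_apply, hb] at e e'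
  have a : y (s i) - mn s y (s i) = y i - mn s y i := by simp only [mn, hs]; module
  have a' : mn s y (s i) = -mn s y i := by simp only [mn, hs]; module
  rw [a, a'] at e'
  have : (2 : ℝ) • mn s y i = 0 := by linear_combination (norm := module) e - e'
  simpa using this

/-- every free zero has a nonempty pattern -/
theorem zero_mem (hv : NF v a) (ht : Cu s τ δ) (hd : 0 < δ) (ha : 4 * δ ≤ a) {b : ι → B}
    {y : ι → W} (h : nz s τ v b y = 0) (n : mn s y ≠ 0) :
    ∃ S : Set ι, S.Nonempty ∧ y ∈ Os s δ S := by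
  have p := zero_pat hv ht hd.le ha h
  refine ⟨{i | 3 * δ ≤ ‖y i‖}, ?_, n, fun i k => ?_, fun i k => ?_⟩
  · by_contra c
    refine n (funext fun i => ?_)
    have z : ∀ i, y i = 0 := fun i => ((p i).resolve_right fun k => c ⟨i, k.1⟩).2
    simp [mn, z]
  · have : 3 * δ ≤ ‖y i‖ := k
    linarith
  · have := ((p i).resolve_right fun c => k c.1).1
    linarith

/-- the zeros with a given pattern form a compact set -/
theorem zero_cpt [FiniteDimensional ℝ W] {P : Type} [TopologicalSpace P]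
    (hs : ∀ i, s (s i) = i) (hv : NF v a) (ht : Cu s τ δ) (hd : 0 < δ) (ha : 4 * δ ≤ a)
    {β : P → ι → B} (hb : Continuous β) (sb : ∀ p i, β p (s i) = β p i) {S : Set ι} {C : Set P}
    (hC : IsCompact C) (hS : ∀ p, (∀ i ∈ S, ‖β p i‖ < 1) → p ∈ C) :
    IsCompact {z : P × (ι → W) | z.2 ∈ Os s δ S ∧ nz s τ v (β z.1) z.2 = 0} := by
  obtain ⟨R, hR⟩ := zero_bdd hv ht hd.le
  obtain ⟨d, d0, gap⟩ := zero_gap (B := B) hs ht
  have e : {z : P × (ι → W) | z.2 ∈ Os s δ S ∧ nz s τ v (β z.1) z.2 = 0} =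
      (C ×ˢ Metric.closedBall 0 R) ∩ ({z | nz s τ v (β z.1) z.2 = 0} ∩ ({z | d ≤ ‖mn s z.2‖} ∩
        ((⋂ i ∈ S, {z | 3 * δ ≤ ‖z.2 i‖}) ∩ ⋂ i ∈ Sᶜ, {z | ‖z.2 i‖ ≤ 2 * δ}))) := by
    ext ⟨p, y⟩
    simp only [mem_ofPred_eq, mem_inter_iff, mem_prod, mem_closedBall_zero_iff, mem_iInter,
      mem_compl_iff]
    refine ⟨fun ⟨o, z⟩ => ?_, fun ⟨_, z, g, k, k'⟩ => ⟨⟨fun c => ?_, fun i c => ?_,
      fun i c => ?_⟩, z⟩⟩
    · have p' := zero_pat hv ht hd.le ha z
      have k : ∀ i ∈ S, 3 * δ ≤ ‖y i‖ ∧ ‖β p i‖ < 1 := fun i c =>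
        (p' i).resolve_left fun k => by linarith [k.1, o.2.1 i c]
      exact ⟨⟨hS p fun i c => (k i c).2, hR _ _ z⟩, z, gap v _ y (sb p) z o.1,
        fun i c => (k i c).1, fun i c =>
          ((p' i).resolve_right fun k => by linarith [k.1, o.2.2 i c]).1⟩
    · rw [c, norm_zero] at g; linarith
    · linarith [k i c]
    · linarith [k' i c]
  rw [e]
  have : ProperSpace (ι → W) := FiniteDimensional.proper_real _
  refine (hC.prod (isCompact_closedBall 0 R)).inter_right (IsClosed.inter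
    (isClosed_eq (continuous_nz hv.ct ht.ct (hb.comp continuous_fst) continuous_snd)
      continuous_const) (IsClosed.inter (isClosed_le continuous_const
        ((continuous_mn s).comp continuous_snd).norm) (IsClosed.inter ?_ ?_)))
  · exact isClosed_biInter fun i _ => isClosed_le continuous_const (by fun_prop)
  · exact isClosed_biInter fun i _ => isClosed_le (by fun_prop) continuous_const

end Crest.Agent.N218.D7

end
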