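import Crest.Agent.N218.D7.Nf0

/-!
# Row 218, block D7 (helper99): bending the suspension of a pointed map into an honest proper map
-/

set_option autoImplicit false
set_option linter.unusedSectionVars false
open Topology Filter Set OnePoint unitInterval

noncomputable section

namespace Crest.Agent.N218.Nf

variable {W : Type*} [NormedAddCommGroup W] [NormedSpace ℝ W] [ProperSpace W]

/-- `s / (1 + |s|²)` -/
def sb (s : OnePoint W) : W := sa s • fin s

theorem norm_sb (s : OnePoint W) : ‖sb s‖ ^ 2 = sa s * (1 - sa s) := by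
  by_cases h : sa s = 0
  · simp [sb, h]
  · rw [sb, norm_smul, mul_pow, Real.norm_eq_abs, sq_abs, ← sa_mul s h]; ring

theorem continuous_sb : Continuous (sb : OnePoint W → W) := by
  refine continuous_iff_continuousAt.2 fun s => ?_
  by_cases h : sa s = 0
  · rw [ContinuousAt, sb, h, zero_smul, tendsto_zero_iff_norm_tendsto_zero]
    have := (Real.continuous_sqrt.comp ((continuous_sa (E := W)).mul
      (continuous_const.sub continuous_sa))).tendsto s (f := fun s => √(sa s * (1 - sa s)))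
    simp only [← norm_sb, Real.sqrt_sq (norm_nonneg _)] at this
    simpa [sb, h] using this
  · exact continuous_sa.continuousAt.smul (continuousAt_fin h)

theorem sb_inj {s s' : OnePoint W} (a : sa s = sa s') (b : sb s = sb s') : s = s' := by
  induction s using OnePoint.rec with
  | infty => exact (sa_eq_zero.1 a.symm).symm
  | coe w =>
    induction s' using OnePoint.rec with
    | infty => exact sa_eq_zero.1 a
    | coe w' =>
      rw [sb, sb, ← a] at b
      exact congrArg _ (smul_right_injective W (sa_pos w).ne' b)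

/-- denominators -/
def dl (ε : ℝ) (s : OnePoint W) : ℝ := sa s + ε ^ 2 * (1 - sa s)
/-- the point of the sphere of radius `τ + 1 / (2 ε)` with stereographic coordinate `s` -/
def bp (ε : ℝ) (s : OnePoint W) (τ : ℝ) : W × ℝ :=
  (((1 + 2 * ε * τ) / dl ε s) • sb s, τ - (1 + 2 * ε * τ) * ε * (1 - sa s) / dl ε s)
/-- the denominator of the radius -/
def dd (ε u : ℝ) : ℝ := max (1 - |u|) (-(2 * ε * u))
/-- the squared Euclidean norm -/
def nn (y : W × ℝ) : ℝ := ‖y.1‖ ^ 2 + y.2 ^ 2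

theorem nn_le (y : W × ℝ) : nn y ≤ 2 * ‖y‖ ^ 2 := by
  have a := pow_le_pow_left₀ (norm_nonneg _) (norm_fst_le y) 2
  have b := pow_le_pow_left₀ (norm_nonneg _) (norm_snd_le y) 2
  rw [Real.norm_eq_abs, sq_abs] at b
  rw [nn]; linarith
theorem le_nn (y : W × ℝ) : ‖y‖ ^ 2 ≤ nn y := by
  rw [nn, Prod.norm_def, Real.norm_eq_abs]
  rcases max_cases ‖y.1‖ |y.2| with h | h <;> rw [h.1]
  · nlinarith [sq_nonneg y.2]
  · rw [sq_abs]; nlinarith [sq_nonneg ‖y.1‖]

theorem dl_nonneg (ε : ℝ) (s : OnePoint W) : 0 ≤ dl ε s :=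
  add_nonneg (sa_nonneg s) (mul_nonneg (sq_nonneg _) (sub_nonneg.2 (sa_le s)))
theorem dl_eq_zero {ε : ℝ} {s : OnePoint W} : dl ε s = 0 ↔ ε = 0 ∧ s = ∞ := by
  refine ⟨fun h => ?_, fun ⟨a, b⟩ => by simp [dl, a, b]⟩
  have := mul_nonneg (sq_nonneg ε) (sub_nonneg.2 (sa_le s))
  have a : sa s = 0 := by rw [dl] at h; linarith [sa_nonneg s]
  exact ⟨by simpa [dl, a] using h, sa_eq_zero.1 a⟩

theorem nn_bp {ε : ℝ} {s : OnePoint W} (h : dl ε s ≠ 0) (τ : ℝ) :
    nn (bp ε s τ) = τ ^ 2 + (1 + 2 * ε * τ) * (1 - sa s) / dl ε s := by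
  simp only [nn, bp, norm_smul, mul_pow, Real.norm_eq_abs, sq_abs, norm_sb]
  have e : sa s = dl ε s - ε ^ 2 * (1 - sa s) := by rw [dl]; ring
  nth_rewrite 1 [e]
  field_simp; ring

theorem key_bp {ε : ℝ} {s : OnePoint W} (h : dl ε s ≠ 0) (τ : ℝ) :
    ε * nn (bp ε s τ) + (bp ε s τ).2 = τ + ε * τ ^ 2 := by
  rw [nn_bp h, bp]; ring

theorem bp_congr {ε τ τ' : ℝ} {s s' : OnePoint W} (h : dl ε s ≠ 0) (h' : dl ε s' ≠ 0)
    (l : 0 ≤ 1 + 2 * ε * τ) (l' : 0 ≤ 1 + 2 * ε * τ') (e : bp ε s τ = bp ε s' τ') :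
    τ = τ' ∧ (1 + 2 * ε * τ = 0 ∨ s = s') := by
  have a := key_bp h τ
  rw [e, key_bp h'] at a
  obtain rfl : τ = τ' := by
    by_contra c
    have : 1 + ε * (τ + τ') = 0 := mul_left_cancel₀ (sub_ne_zero.2 c) (by linarith)
    have e0 : ε ≠ 0 := by rintro rfl; simp at this
    exact c (mul_left_cancel₀ e0 (by linarith))
  refine ⟨rfl, or_iff_not_imp_left.2 fun c => ?_⟩
  have b := nn_bp h τ
  rw [e, nn_bp h', add_right_inj, mul_div_assoc, mul_div_assoc, mul_right_inj' c,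
    div_eq_div_iff h' h] at b
  have b2 : sa s = sa s' := by simp only [dl] at b; linarith
  have b3 : dl ε s = dl ε s' := by rw [dl, dl, b2]
  have := congrArg Prod.fst e
  simp only [bp, ← b3] at this
  exact sb_inj b2 (smul_right_injective W (div_ne_zero c h) this)

theorem bp_surj (ε : ℝ) (y : W × ℝ) :
    ∃ s τ, dl ε s ≠ 0 ∧ 0 ≤ 1 + 2 * ε * τ ∧ bp ε s τ = y := by
  obtain ⟨w, e⟩ := y
  obtain ⟨l, l0, hl⟩ : ∃ l, 0 ≤ l ∧ l ^ 2 = (1 + 2 * ε * e) ^ 2 + 4 * ε ^ 2 * ‖w‖ ^ 2 :=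
    ⟨√_, Real.sqrt_nonneg _, Real.sq_sqrt (by positivity)⟩
  obtain ⟨τ, hτ⟩ : ∃ τ, τ * (1 + l) = 2 * (ε * (‖w‖ ^ 2 + e ^ 2) + e) :=
    ⟨_, div_mul_cancel₀ _ (by positivity)⟩
  have p : (1 + l) ≠ 0 := by positivity
  have e1 : 1 + 2 * ε * τ = l := mul_right_cancel₀ p (by linear_combination 2 * ε * hτ - hl)
  by_cases c : l + (1 + 2 * ε * e) = 0
  · have e0 : ε ≠ 0 := by rintro rfl; simp at c; linarith
    have w0 : w = 0 := by
      have : 4 * ε ^ 2 * ‖w‖ ^ 2 = 0 := by linear_combination -hl + (l - (1 + 2 * ε * e)) * c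
      simpa [e0] using this
    refine ⟨∞, τ, fun k => e0 (dl_eq_zero.1 k).1, e1 ▸ l0, Prod.ext (by simp [bp, sb, w0]) ?_⟩
    simp only [bp, dl, sa_infty, sub_zero, zero_add, mul_one]
    rw [sub_eq_iff_eq_add, ← sub_eq_iff_eq_add', eq_div_iff (pow_ne_zero 2 e0)]
    linear_combination -(ε / 2) * e1 - (ε / 2) * c
  · obtain ⟨r, hr⟩ : ∃ r, r * (l + (1 + 2 * ε * e)) = 2 := ⟨_, div_mul_cancel₀ _ c⟩
    have n : ‖r • w‖ ^ 2 = r ^ 2 * ‖w‖ ^ 2 := by rw [norm_smul, mul_pow, Real.norm_eq_abs, sq_abs]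
    have d0 : 0 < 1 + r ^ 2 * ‖w‖ ^ 2 := by positivity
    have d1 : 0 < 1 + ε ^ 2 * (r ^ 2 * ‖w‖ ^ 2) := by positivity
    have e2 : 1 + ε ^ 2 * (r ^ 2 * ‖w‖ ^ 2) = l * r := mul_right_cancel₀ (pow_ne_zero 2 c) (by
      linear_combination (-1 : ℝ) * hl + (ε ^ 2 * ‖w‖ ^ 2 * (r * (l + (1 + 2 * ε * e)) + 2) -
        l * (l + (1 + 2 * ε * e))) * hr)
    have e3 : dl ε ((r • w : W) : OnePoint W) = l * r / (1 + r ^ 2 * ‖w‖ ^ 2) := by
      rw [← e2, dl, sa_coe, n]; field_simp; ring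
    have l1 : l * r ≠ 0 := e2 ▸ d1.ne'
    have := left_ne_zero_of_mul l1
    have := right_ne_zero_of_mul l1
    refine ⟨(r • w : W), τ, fun k => coe_ne_infty _ (dl_eq_zero.1 k).2, e1 ▸ l0, Prod.ext ?_ ?_⟩
    · simp only [bp, e1, e3, sb, sa_coe, fin_coe, n, smul_smul]
      rw [show l / (l * r / (1 + r ^ 2 * ‖w‖ ^ 2)) * ((1 + r ^ 2 * ‖w‖ ^ 2)⁻¹ * r) = 1 by field_simp,
        one_smul]
    · simp only [bp, e1, e3, sa_coe, n]
      rw [show l * ε * (1 - (1 + r ^ 2 * ‖w‖ ^ 2)⁻¹) / (l * r / (1 + r ^ 2 * ‖w‖ ^ 2)) =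
        ε * r * ‖w‖ ^ 2 by field_simp; ring]
      refine mul_right_cancel₀ (mul_ne_zero p c) ?_
      linear_combination (l + (1 + 2 * ε * e)) * hτ - e * hl - ε * ‖w‖ ^ 2 * (1 + l) * hr

theorem lam_nonneg {ε u : ℝ} (h : 0 < dd ε u) : 0 ≤ 1 + 2 * ε * (u / dd ε u) := by
  have := le_max_right (1 - |u|) (-(2 * ε * u))
  rw [← mul_div_assoc, ← div_self h.ne', ← add_div]
  exact div_nonneg (by rw [dd]; linarith) h.le

theorem dd_nonneg (ε : ℝ) (u : Icc (-1 : ℝ) 1) : 0 ≤ dd ε u :=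
  le_max_of_le_left (sub_nonneg.2 (abs_le.2 u.2))

/-- the bent collapse -/
def bq : I × OnePoint W × Icc (-1 : ℝ) 1 → OnePoint (W × ℝ) :=
  cut (fun z => dd z.1 z.2.2 * dl z.1 z.2.1) fun z => bp z.1 z.2.1 (z.2.2 / dd z.1 z.2.2)

theorem bq_zero {t : I} {s : OnePoint W} {u : Icc (-1 : ℝ) 1} (h : dd t u * dl t s = 0) :
    bq (t, s, u) = ∞ := cut_zero _ h
theorem bq_ne {t : I} {s : OnePoint W} {u : Icc (-1 : ℝ) 1} (h : dd t u * dl t s ≠ 0) :
    bq (t, s, u) = bp t s (u / dd t u) := cut_ne _ h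

theorem continuous_bq : Continuous (bq (W := W)) := by
  have a : Continuous fun z : I × OnePoint W × Icc (-1 : ℝ) 1 => sa z.2.1 :=
    continuous_sa.comp (by fun_prop)
  have b : Continuous fun z : I × OnePoint W × Icc (-1 : ℝ) 1 => sb z.2.1 :=
    continuous_sb.comp (by fun_prop)
  have c : Continuous fun z : I × OnePoint W × Icc (-1 : ℝ) 1 => dd z.1 z.2.2 := by
    unfold dd; fun_prop
  have d : Continuous fun z : I × OnePoint W × Icc (-1 : ℝ) 1 => dl z.1 z.2.1 := by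
    unfold dl; fun_prop
  refine continuous_cut (c.mul d) (fun z h => ?_) fun z h => ?_
  · have h1 := left_ne_zero_of_mul h
    have h2 := right_ne_zero_of_mul h
    have t : ContinuousAt (fun z : I × OnePoint W × Icc (-1 : ℝ) 1 => (z.1 : ℝ)) z :=
      Continuous.continuousAt (by fun_prop)
    have u : ContinuousAt (fun z : I × OnePoint W × Icc (-1 : ℝ) 1 => (z.2.2 : ℝ) / dd z.1 z.2.2) z :=
      (Continuous.continuousAt (by fun_prop)).div c.continuousAt h1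
    have l := (continuousAt_const (y := (1 : ℝ))).add (((continuousAt_const (y := (2 : ℝ))).mul t).mul u)
    exact ((l.div d.continuousAt h2).smul b.continuousAt).prodMk (u.sub
      (((l.mul t).mul (continuousAt_const.sub a.continuousAt)).div d.continuousAt h2))
  · by_cases k : dd z.1 z.2.2 = 0
    · refine blow (k := fun z => 2 * dd z.1 z.2.2 ^ 2) (n := fun z => (z.2.2 : ℝ) ^ 2) (by fun_prop)
        (by fun_prop) (by simp [k]) ?_ fun y e => ?_
      · have := le_max_left (1 - |(z.2.2 : ℝ)|) (-(2 * z.1 * z.2.2))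
        rw [← dd, k] at this
        rw [← sq_abs]; exact pow_pos (by linarith) 2
      · have p := (dd_nonneg y.1 y.2.2).lt_of_ne' (left_ne_zero_of_mul e)
        have := nn_le (bp y.1 y.2.1 (y.2.2 / dd y.1 y.2.2))
        rw [nn_bp (right_ne_zero_of_mul e)] at this
        have q := div_nonneg (mul_nonneg (lam_nonneg p) (sub_nonneg.2 (sa_le y.2.1)))
          (dl_nonneg y.1 y.2.1)
        have r : (y.2.2 : ℝ) ^ 2 = dd y.1 y.2.2 ^ 2 * (y.2.2 / dd y.1 y.2.2) ^ 2 := by field_simp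
        rw [r]
        nlinarith [sq_nonneg (dd y.1 y.2.2)]
    · obtain ⟨e0, e1⟩ := dl_eq_zero.1 ((mul_eq_zero.1 h).resolve_left k)
      refine blow (k := fun z => 2 * (dd z.1 z.2.2 * dl z.1 z.2.1))
        (n := fun z => (dd z.1 z.2.2 + 2 * z.1 * z.2.2) * (1 - sa z.2.1)) (by fun_prop)
        (by fun_prop) (by simp [h]) ?_ fun y e => ?_
      · simpa [e0, e1] using e0 ▸ (dd_nonneg z.1 z.2.2).lt_of_ne' k
      · have p := (dd_nonneg y.1 y.2.2).lt_of_ne' (left_ne_zero_of_mul e)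
        have p' := (dl_nonneg y.1 y.2.1).lt_of_ne' (right_ne_zero_of_mul e)
        have := nn_le (bp y.1 y.2.1 (y.2.2 / dd y.1 y.2.2))
        rw [nn_bp p'.ne'] at this
        have r : (dd y.1 y.2.2 + 2 * y.1 * y.2.2) * (1 - sa y.2.1) = dd y.1 y.2.2 * dl y.1 y.2.1 *
            ((1 + 2 * y.1 * (y.2.2 / dd y.1 y.2.2)) * (1 - sa y.2.1) / dl y.1 y.2.1) := by field_simp
        rw [r]
        nlinarith [mul_pos p p', sq_nonneg ((y.2.2 : ℝ) / dd y.1 y.2.2)]

theorem bq_one (ε : I) (s : OnePoint W) : bq (ε, s, ⟨1, by norm_num, le_rfl⟩) = ∞ :=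
  cut_zero _ (by simp [dd, ε.2.1])

theorem exists_u {ε τ : ℝ} (h : 0 ≤ 1 + 2 * ε * τ) :
    ∃ u : Icc (-1 : ℝ) 1, dd ε u ≠ 0 ∧ u / dd ε u = τ := by
  have p : 0 < 1 + |τ| := by positivity
  have a : |τ / (1 + |τ|)| = |τ| / (1 + |τ|) := by rw [abs_div, abs_of_pos p]
  have b : dd ε (τ / (1 + |τ|)) = 1 / (1 + |τ|) := by
    rw [dd, a, show 1 - |τ| / (1 + |τ|) = 1 / (1 + |τ|) by field_simp; ring, max_eq_left]
    rw [← mul_div_assoc, ← neg_div]
    exact div_le_div_of_nonneg_right (by linarith) p.le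
  refine ⟨⟨τ / (1 + |τ|), abs_le.1 (a ▸ div_le_one_of_le₀ (by linarith) p.le)⟩, ?_, ?_⟩ <;>
    simp only [b]
  · positivity
  · field_simp

theorem bq_surj (ε : I) (y : W × ℝ) : ∃ (s : OnePoint W) (u : Icc (-1 : ℝ) 1), dd ε u ≠ 0 ∧ dl ε s ≠ 0 ∧
    bp ε s (u / dd ε u) = y ∧ bq (ε, s, u) = y := by
  obtain ⟨s, τ, a, b, c⟩ := bp_surj ε y
  obtain ⟨u, d, rfl⟩ := exists_u b
  exact ⟨s, u, d, a, c, (bq_ne (mul_ne_zero d a)).trans (congrArg _ c)⟩

/-- **bending** -/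
theorem bend {B : Type*} [TopologicalSpace B] {v : B × OnePoint W → OnePoint W} (hv : Continuous v)
    (h0 : ∀ x, v (x, ∞) = ∞) : ∃ H : B × I × OnePoint (W × ℝ) → OnePoint (W × ℝ), Continuous H ∧
      (∀ x t, H (x, t, ∞) = ∞) ∧ (∀ x, (∀ s, v (x, s) = s) → ∀ t y, H (x, t, y) = y) ∧
      (∀ x (w : W) (e : ℝ), H (x, 0, ((w, e) : W × ℝ)) = (v (x, w)).map fun w' => (w', e)) ∧
      ∀ x (y : W × ℝ), ∃ y' : W × ℝ, H (x, 1, y) = y' ∧ nn y' + y'.2 = nn y + y.2 := by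
  have sj : Function.Surjective fun z : I × OnePoint W × Icc (-1 : ℝ) 1 => (z.1, bq z) := by
    rintro ⟨t, y⟩
    induction y using OnePoint.rec with
    | infty => exact ⟨(t, ∞, _), Prod.ext rfl (bq_one t ∞)⟩
    | coe y => obtain ⟨s, u, -, -, -, h⟩ := bq_surj t y; exact ⟨(t, s, u), Prod.ext rfl h⟩
  have dv : ∀ x (t : I) s, dl t s = 0 → dl t (v (x, s)) = 0 := fun x t s h => by
    rw [dl_eq_zero] at h ⊢
    exact ⟨h.1, h.2 ▸ h0 x⟩
  obtain ⟨H, a, b⟩ := lift_fam (B := B) (continuous_fst.prodMk continuous_bq) sj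
    (F := fun z => bq (z.2.1, v (z.1, z.2.2.1), z.2.2.2)) (continuous_bq.comp (by fun_prop)) (by
      rintro x ⟨t, s, u⟩ ⟨t', s', u'⟩ h
      obtain ⟨rfl, h⟩ := Prod.ext_iff.1 h
      have z : ∀ s (u : Icc (-1 : ℝ) 1), dd t u * dl t s = 0 → bq (t, v (x, s), u) = ∞ :=
        fun s u c => bq_zero (mul_eq_zero.2 ((mul_eq_zero.1 c).imp_right (dv x t s)))
      change bq (t, s, u) = bq (t, s', u') at h
      change bq (t, v (x, s), u) = bq (t, v (x, s'), u')
      by_cases c : dd t u * dl t s = 0 <;> by_cases c' : dd t u' * dl t s' = 0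
      · rw [z s u c, z s' u' c']
      · exact absurd (((bq_zero c).symm.trans h).trans (bq_ne c')) (infty_ne_coe _)
      · exact absurd (((bq_ne c).symm.trans h).trans (bq_zero c')) (coe_ne_infty _)
      have d := left_ne_zero_of_mul c
      have d' := left_ne_zero_of_mul c'
      obtain ⟨e, k⟩ := bp_congr (right_ne_zero_of_mul c) (right_ne_zero_of_mul c')
        (lam_nonneg ((dd_nonneg t u).lt_of_ne' d)) (lam_nonneg ((dd_nonneg t u').lt_of_ne' d'))
        (coe_injective (((bq_ne c).symm.trans h).trans (bq_ne c')))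
      rcases k with k | rfl
      · have n : ∀ s : OnePoint W, dl t s ≠ 0 := fun s m => by simp [(dl_eq_zero.1 m).1] at k
        rw [bq_ne (mul_ne_zero d (n _)), bq_ne (mul_ne_zero d' (n _))]
        simp only [bp, ← e, k]; simp
      · simp only [bq, cut, mul_eq_zero, d, d', e])
  refine ⟨H, a, fun x t => ?_, fun x h t y => ?_, fun x w e => ?_, fun x y => ?_⟩
  · simpa only [bq_one] using b x (t, ∞, ⟨1, by norm_num, le_rfl⟩)
  · obtain ⟨z, k⟩ := sj (t, y)
    rw [← k, b, h]; exact congrArg Prod.snd k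
  · obtain ⟨u, d, k⟩ := exists_u (ε := 0) (τ := e) (by norm_num)
    have : ∀ s : OnePoint W, bq (0, s, u) = s.map fun w' => (w', e) := fun s => by
      induction s using OnePoint.rec with
      | infty => exact cut_zero _ (by simp [dl])
      | coe w =>
        have n : sa (w : OnePoint W) ≠ 0 := (sa_pos w).ne'
        refine (bq_ne (mul_ne_zero d (by simpa [dl, -sa_coe] using n))).trans (congrArg _ ?_)
        change bp 0 (w : OnePoint W) (u / dd 0 u) = _
        rw [k]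
        simp [bp, dl, sb, smul_smul, -sa_coe, n]
    simpa only [this, map_some] using b x (0, w, u)
  · obtain ⟨s, u, d, d', k, k'⟩ := bq_surj 1 y
    have n : dl (1 : I) (v (x, s)) ≠ 0 := fun m => by simpa using (dl_eq_zero.1 m).1
    refine ⟨_, k' ▸ (b x (1, s, u)).trans (bq_ne (mul_ne_zero d n)), ?_⟩
    have := (key_bp n _).trans (key_bp d' (u / dd (1 : I) u)).symm
    rw [k] at this
    simpa using this

end Crest.Agent.N218.Nf
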