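import Crest.Agent.N218.D7.Dd
import Crest.Agent.N218.K.Cx

/-! # Row 218, block D7 (helper32): existence of the pair of Thom classes over the circle -/

set_option autoImplicit false
set_option linter.unusedVariables false
set_option linter.unusedSectionVars false

noncomputable section

namespace Crest.Agent.N218.D7

open K Fo

variable (B : Type) [NormedAddCommGroup B] [NormedSpace ℝ B] [FiniteDimensional ℝ B]
  [LocallyCompactSpace B] (q : ℕ) [NeZero q] (E : Type) [NormedAddCommGroup E] [NormedSpace ℂ E]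
  [FiniteDimensional ℂ E]

/-- `cir` is a sum of characters -/
theorem cir_wt : ∃ n, Nonempty ((cir q E).ls.Iso (wtc q (Fin n)).ls) := by
  obtain ⟨n, ⟨A⟩⟩ : ∃ n, Nonempty (E ≃L[ℂ] (Fin n → ℂ)) :=
    ⟨Module.finrank ℂ E, ⟨ContinuousLinearEquiv.ofFinrankEq (by simp)⟩⟩
  let e : (ZMod q → E) ≃L[ℂ] (ZMod q × Fin n → ℂ) :=
    (ContinuousLinearEquiv.piCongrRight fun _ : ZMod q => A).trans (co q _)
  have h : ∀ y, e y = co q _ fun i => A (y i) := fun _ => rfl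
  refine ⟨n, ⟨e.toHomeomorph, fun z (y : ZMod q → E) => ?_⟩⟩
  have k := mu_N (fun k : ZMod q => (z : ℂ) ^ k.val) (A : E →L[ℂ] (Fin n → ℂ)) y
  exact (h _).trans ((congrArg (co q _) k.symm).trans (co_cir z fun i => A (y i)))

theorem cx_cir : Cx (cir q E).ls := let ⟨_, ⟨A⟩⟩ := cir_wt q E; (cx_wt _ _).iso A

theorem ut_cir (T : THOM1) (r : ℕ) : ∃ l ρ, UT (Sp i1 continuous_id r) (cir q E).ls l ∧
    ps _ l = (Sb _ _).sm ρ l ∧ D3 ρ :=
  let ⟨_, ⟨A⟩⟩ := cir_wt q E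
  ut_sp (χ := i1) continuous_id r T (fun k => ⟨k.1.val, by rw [zpow_natCast]; rfl⟩) A

theorem exists_oc' (T : THOM1) (hB : Module.finrank ℝ B = 11) :
    ∃ o : OC B q E, OK o ∧ UT _ _ o.lS ∧ UT _ _ o.lT := by
  obtain ⟨l, ρ, a, b, c⟩ := ut_cir q E T 7
  obtain ⟨o, e, -, s, t⟩ := ori_ex (χ := i1) continuous_id 7 T (S := (XC B q E).xr) (E := B × ℝ)
    (m := 6) (by simp [hB]) (rcomm (LS.triv Circle B) (cir q E).ls (LS.triv Circle ℝ)) a b
  refine ⟨o, ⟨fun h _ => ?_, fun h _ => ?_, ?_⟩, s, t⟩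
  · exact s.2 _ (inc h) (cc _) _ _ (eqv7 (inc h)) _ (gH_mp (inc h) _)
  · exact t.2 _ (inc h) (cc _) _ _ (eqv7 (inc h)) _ (gH_mp (inc h) _)
  · rw [e]; exact (d3_pow 6).mul c

theorem exists_oc (T : THOM1) (hB : Module.finrank ℝ B = 11) : ∃ o : OC B q E, OK o :=
  (exists_oc' B q E T hB).imp fun _ h => h.1

end Crest.Agent.N218.D7

end
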