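import Crest.Agent.N218.D7.St
import Crest.Agent.N218.D7.Core
import Crest.Agent.N218.Pm.Loop0
import Crest.Agent.N218.Pm.Kit1

/-!
# Row 218, block D7 (helper75): the honest orbit loop is admissible
-/

set_option autoImplicit false
set_option linter.unusedVariables false
set_option linter.unusedSectionVars false

open Set

noncomputable section

namespace Crest.Agent.N218.D7

open Pm Pm.Lo

variable {X E : Type} [NormedAddCommGroup E] [NormedSpace ℂ E] {k : ℕ} {δ : ℝ} {v : X × E → E}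

variable (k δ) in
/-- the standard cut-off -/
abbrev t0 : V k E → ℝ := fun y => tau δ ((), y)

theorem mn_pm (y : V k E) : D7.mn (ht k) y = Pm.mn y := funext fun i => by
  simp [D7.mn, Pm.mn, ht]

theorem mn_fsh (g : Ix k) (y : V k E) : Pm.mn (Fo.sh g y) = Fo.sh g (Pm.mn y) :=
  funext fun i => by simp [Pm.mn, Fo.sh, add_right_comm]

theorem norm_fsh (g : Ix k) (y : V k E) : ‖Fo.sh g y‖ = ‖y‖ := by
  have a : ∀ (g : Ix k) (y : V k E), ‖Fo.sh g y‖ ≤ ‖y‖ := fun g y =>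
    (pi_norm_le_iff_of_nonneg (norm_nonneg _)).2 fun i => norm_le_pi_norm y _
  refine (a g y).antisymm ?_
  have := a (-g) (Fo.sh g y)
  rwa [Fo.sh_sh, neg_add_cancel, Fo.sh_zero] at this

theorem t0_sh (g : Ix k) (y : V k E) : t0 k δ (Fo.sh g y) = t0 k δ y := by
  simp only [t0, tau, mn_fsh, norm_fsh]

theorem t0_cu (hd : 0 < δ) : Cu (ht k) (t0 k δ : V k E → ℝ) δ := by
  have h := tau_ok (B := Unit) (k := k) (E := E) hd
  obtain ⟨d, d0, z⟩ := h.z univ isCompact_univ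
  exact ⟨h.ct.comp (by fun_prop), fun y => (h.mem _).1, fun y => (h.mem _).2,
    fun y a => h.o ((), y) (mn_pm y ▸ a), d, d0, fun y a => z ((), y) trivial (mn_pm y ▸ a)⟩

theorem mn_g (r : ℝ) (y : V k E) : Pm.mn (Fo.g r y) = Fo.g r (Pm.mn y) := by
  have e : ∀ y : V k E, Pm.mn y = (1 / 2 : ℝ) • (y - Fo.sh (2 ^ k) y) := fun _ => rfl
  rw [e, e, (Fo.g r).map_smul_of_tower, map_sub, Fo.g_sh]

theorem mn_g_ne (r : ℝ) {y : V k E} : Pm.mn (Fo.g r y) ≠ 0 ↔ Pm.mn y ≠ 0 := by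
  rw [mn_g]
  exact not_congr ⟨fun h => by rw [← Fo.g_neg r (Pm.mn y), h, map_zero], fun h => by
    rw [h, map_zero]⟩

variable (k δ v) in
/-- the slice of the loop -/
def N0 (z : X × V k E) : V k E := nz (ht k) (t0 k δ) v (fun _ => z.1) z.2

theorem N0_sh (x : X) (g : Ix k) (y : V k E) :
    N0 k δ v (x, Fo.sh g y) = Fo.sh g (N0 k δ v (x, y)) :=
  nz_comp (e := fun i => i + g) (fun i => add_right_comm _ _ _) v (fun _ => x) (t0_sh g y)

theorem ol_h (w : (X × UnitAddCircle) × V k E) :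
    (OL k v δ).h w = Fo.g (rep w.1.2) (N0 k δ v (w.1.1, Fo.g (-rep w.1.2) w.2)) := rfl

theorem ol_coe (x : X) (r : ℝ) (y : V k E) :
    (OL k v δ).h ((x, (r : UnitAddCircle)), y) = Fo.g r (N0 k δ v (x, Fo.g (-r) y)) := by
  have p : Fo.g (-rep (r : UnitAddCircle)) y = Fo.sh ((⌊r⌋ : ℤ) : Ix k) (Fo.g (-r) y) := by
    rw [rep_coe, ← g_int, ← Fo.g_add]; congr 2; push_cast; ring
  rw [ol_h, p, N0_sh, ← g_int, ← Fo.g_add, rep_coe]
  congr 2; push_cast; ring

theorem N0_id {x : X} (h : ∀ y, v (x, y) = y) (y : V k E) : N0 k δ v (x, y) = y :=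
  funext fun i => by simp [N0, nz, h]

/-- over a free zero the family is not the identity -/
theorem ol_free {w : (X × UnitAddCircle) × V k E} (z : w ∈ (OL k v δ).Z) :
    ¬∀ y, v (w.1.1, y) = y := fun h => z.1 (by
  have := z.2
  rw [ol_h, N0_id h, Fo.g_neg'] at this
  rw [this, mn_zero])

variable [TopologicalSpace X]

theorem N0_ct (hv : Continuous v) (hd : 0 < δ) : Continuous (N0 k δ v) := by
  refine continuous_pi fun i => ?_
  have a : Continuous fun p : X × V k E => (1 - t0 k δ p.2) • D7.mn (ht k) p.2 i :=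
    (continuous_const.sub ((t0_cu hd).ct.comp continuous_snd)).smul
      ((continuous_apply i).comp ((continuous_mn _).comp continuous_snd))
  exact (hv.comp (continuous_fst.prodMk (((continuous_apply i).comp continuous_snd).sub a))).add a

variable [T2Space X] [FiniteDimensional ℂ E] {K : Set X}

theorem N0_cp (hv : Continuous v) (hd : 0 < δ) (hK : IsCompact K) (far : ∀ x ∉ K, ∀ y, v (x, y) = y)
    (pr : ∀ c, ∃ R, ∀ x y, R ≤ ‖y‖ → c ≤ ‖v (x, y)‖) :
    IsCompact {z : X × V k E | Pm.mn z.2 ≠ 0 ∧ N0 k δ v z = 0} := by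
  obtain ⟨R, hR⟩ := pr (δ + 1)
  obtain ⟨d, d0, gap⟩ := zero_gap (B := Unit) (ht_ht (k := k)) (t0_cu (E := E) hd)
  have := FiniteDimensional.proper_rclike ℂ E
  have e : {z : X × V k E | Pm.mn z.2 ≠ 0 ∧ N0 k δ v z = 0} =
      (K ×ˢ Metric.closedBall 0 (|R| + δ)) ∩ ({z | N0 k δ v z = 0} ∩ {z | d ≤ ‖Pm.mn z.2‖}) := by
    ext ⟨x, y⟩
    refine ⟨fun ⟨o, z⟩ => ⟨⟨by_contra fun c => o ?_, mem_closedBall_zero_iff.2
      ((pi_norm_le_iff_of_nonneg (by positivity)).2 fun i => ?_)⟩, z, ?_⟩, fun ⟨_, z, g⟩ =>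
      ⟨fun c => ?_, z⟩⟩
    · rw [N0_id (far x c)] at z
      rw [show y = 0 from z]; exact mn_zero
    · have e := congrFun z i
      simp only [N0, nz, Pi.zero_apply] at e
      have k' := (t0_cu hd).small hd.le y i
      have : ‖y i - (1 - t0 k δ y) • D7.mn (ht k) y i‖ < R := not_le.1 fun c => by
        have := hR x _ c
        rw [eq_neg_of_add_eq_zero_left e, norm_neg] at this
        linarith
      have := norm_add_le (y i - (1 - t0 k δ y) • D7.mn (ht k) y i)
        ((1 - t0 k δ y) • D7.mn (ht k) y i)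
      rw [sub_add_cancel] at this
      linarith [le_abs_self R]
    · have := gap (fun z => v (x, z.2)) (fun _ => ()) y (fun _ => rfl) z (mn_pm y ▸ o)
      rwa [mn_pm] at this
    · have : d ≤ ‖Pm.mn y‖ := g
      rw [show Pm.mn y = 0 from c, norm_zero] at this
      linarith
  rw [e]
  exact (hK.prod (isCompact_closedBall _ _)).inter_right ((isClosed_eq (N0_ct hv hd)
    continuous_const).inter (isClosed_le continuous_const (by fun_prop)))

omit [T2Space X] [FiniteDimensional ℂ E] in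
theorem ol_ct (hv : Continuous v) (hd : 0 < δ) : Continuous (OL k v δ).h := by
  have q : IsOpenQuotientMap (Prod.map (Prod.map (id : X → X) ((↑) : ℝ → UnitAddCircle))
      (id : V k E → V k E)) :=
    (IsOpenQuotientMap.id.prodMap QuotientAddGroup.isOpenQuotientMap_mk).prodMap .id
  rw [← q.continuous_comp_iff]
  have := N0_ct (k := k) hv hd
  exact (show Continuous fun w : (X × ℝ) × V k E =>
    Fo.g w.1.2 (N0 k δ v (w.1.1, Fo.g (-w.1.2) w.2)) by fun_prop).congr fun w =>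
      (ol_coe _ _ _).symm

/-- **the honest orbit loop is admissible** -/
theorem ol_ok (hv : Continuous v) (hd : 0 < δ) (hK : IsCompact K)
    (far : ∀ x ∉ K, ∀ y, v (x, y) = y) (pr : ∀ c, ∃ R, ∀ x y, R ≤ ‖y‖ → c ≤ ‖v (x, y)‖) :
    (OL k v δ).Ok := by
  refine ⟨isOpen_ne_fun (by fun_prop) continuous_const, fun x h => sh_ne h,
    (ol_ct hv hd).continuousOn, fun x _ => ?_, ?_, fun x h => h⟩
  · simp only [ol_h, sh_fo, Fo.g_sh, N0_sh]
  · have c : Continuous fun u : (X × V k E) × ℝ =>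
        (((u.1.1, (u.2 : UnitAddCircle)), Fo.g u.2 u.1.2) : (X × UnitAddCircle) × V k E) :=
      (continuous_fst.fst.prodMk ((AddCircle.continuous_mk' 1).comp continuous_snd)).prodMk
        (by fun_prop)
    convert ((N0_cp hv hd hK far pr).prod (isCompact_Icc (a := (0 : ℝ)) (b := 1))).image c using 1
    ext ⟨⟨x, t⟩, y⟩
    constructor
    · rintro ⟨o, z⟩
      refine ⟨((x, Fo.g (-rep t) y), rep t), ⟨⟨(mn_g_ne _).2 o, ?_⟩, rep_mem t⟩,
        Prod.ext (Prod.ext rfl (coe_rep t)) (Fo.g_neg' _ _)⟩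
      rw [← Fo.g_neg (rep t) (N0 k δ v _)]
      exact (congrArg _ z).trans (map_zero _)
    · rintro ⟨⟨⟨x', y'⟩, r⟩, ⟨⟨o, z⟩, -⟩, e⟩
      obtain ⟨⟨rfl, rfl⟩, rfl⟩ : (x' = x ∧ (r : UnitAddCircle) = t) ∧ Fo.g r y' = y := by
        simpa [Prod.ext_iff] using e
      exact ⟨(mn_g_ne _).2 o, by rw [ol_coe, Fo.g_neg, show N0 k δ v (x', y') = 0 from z, map_zero]⟩

theorem NS.ok {v : Sx × E → E} {p : Sx} {a : ℝ} (h : NS v p a) (hd : 0 < δ) : (OL k v δ).Ok :=
  ol_ok h.ct hd isCompact_univ (fun _ c => absurd trivial c) h.pr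

theorem NF.ok {B : Type} [NormedAddCommGroup B] [ProperSpace B] {v : B × E → E} {a : ℝ}
    (h : NF v a) (hd : 0 < δ) : (OL k v δ).Ok :=
  ol_ok h.ct hd (isCompact_closedBall 0 1)
    (fun x c y => h.far x y (not_le.1 fun e => c (mem_closedBall_zero_iff.2 e)).le) h.pr

end Crest.Agent.N218.D7

end
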