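import Crest.Agent.N218.D7.Orb
import Crest.Agent.N218.K.St

/-!
# Row 218, block D7 (helper87): orbit problems at the level of `PB`, bordisms and cycles
-/

set_option autoImplicit false
set_option linter.unusedVariables false
set_option linter.unusedSectionVars false

open unitInterval Topology Filter Set OnePoint

noncomputable section

namespace Crest.Agent.N218.Orb

open K

section iso
variable {Γ : Type} [Group Γ] [TopologicalSpace Γ] [CompactSpace Γ] {Y : GS Γ} {M M' : LS Γ}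
  {W : Rep Γ}

/-- change of the source -/
def fi (A : M'.Iso M) (P : FP Y M W) : FP Y M' W :=
  ⟨{x | (x.1, A.e x.2) ∈ P.O}, fun x => P.f (x.1, A.e x.2)⟩

theorem fi_ok (A : M'.Iso M) {P : FP Y M W} (h : P.Ok) : (fi A P).Ok := by
  let e : Y.Z × M'.Z ≃ₜ Y.Z × M.Z := (Homeomorph.refl _).prodCongr A.e
  refine ⟨h.op.preimage e.continuous, fun g x o => ?_,
    h.ct.comp e.continuous.continuousOn fun _ o => o, fun g x o => ?_,
    e.isClosedEmbedding.isCompact_preimage h.cp⟩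
  · change (_, A.e _) ∈ P.O
    rw [A.eq]; exact h.inv g _ o
  · change P.f (_, A.e _) = _
    rw [A.eq]; exact h.eq g _ o

theorem fi_cut (A : M'.Iso M) {P : FP Y M W} {χ : Y.Z × M.Z → ℝ} (c : P.Cut χ) :
    (fi A P).Cut fun x => χ (x.1, A.e x.2) := by
  let e : Y.Z × M'.Z ≃ₜ Y.Z × M.Z := (Homeomorph.refl _).prodCongr A.e
  have s : tsupport (fun x : Y.Z × M'.Z => χ (x.1, A.e x.2)) ⊆ e ⁻¹' tsupport χ :=
    closure_minimal (fun x m => subset_tsupport χ m) ((isClosed_tsupport χ).preimage e.continuous)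
  refine ⟨c.ct.comp e.continuous, fun x => c.nn _,
    (e.isClosedEmbedding.isCompact_preimage c.cp).of_isClosed_subset (isClosed_tsupport _) s,
    fun x m => c.sub (s m), fun x o z => c.pos _ o z, fun g x => ?_⟩
  change χ (_, A.e _) = _
  rw [A.eq]; exact c.inv g (x.1, A.e x.2)

theorem exists_h1 (Y : GS Γ) (A : M'.Iso M) :
    ∃ a : H1 (Sb Y M') (Sb Y M), Rg a fun x => OnePoint.some (A.e x.2) :=
  Pm.exists_rg ⟨continuous_coe.comp (A.e.continuous.comp continuous_snd), fun K' k =>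
    ⟨_, A.e.isClosedEmbedding.isCompact_preimage k, fun p w w' n e m => n (by
      rwa [← coe_injective e] at m)⟩, fun γ y w => congrArg OnePoint.some (A.eq γ w)⟩

theorem fi_rp (A : M'.Iso M) {P : FP Y M W} {F : H1 (Sb Y M) (Sb Y W.ls)} (r : P.Rp F)
    {a : H1 (Sb Y M') (Sb Y M)} (ha : Rg a fun x => OnePoint.some (A.e x.2)) :
    (fi A P).Rp (a.cm F) := by
  obtain ⟨χ, c, e⟩ := r
  exact ⟨_, fi_cut A c, fun y w => (congrArg F.f (ha y w)).trans (e y _)⟩

theorem th_iso (A : M'.Iso M) {a : H1 (Sb Y M') (Sb Y M)}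
    (ha : Rg a fun x => OnePoint.some (A.e x.2)) {l : KS Y M} (h : (Sb Y M).Th l) :
    (Sb Y M').Th (pull a.f l) := by
  obtain ⟨b, hb⟩ := exists_h1 Y (M := M') (M' := M)
    ⟨A.e.symm, fun g x => A.e.injective (by rw [A.eq, A.e.apply_symm_apply, A.e.apply_symm_apply])⟩
  have ab : ∀ e, b.f (a.f e) = e := sb_ind (fun y => (congrArg b.f (a.f_inf y)).trans (b.f_inf y))
    fun y w => (congrArg b.f (ha y w)).trans ((hb y _).trans
      (congrArg (fun z => pt Y M' y (OnePoint.some z)) (A.e.symm_apply_apply w)))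
  have ba : ∀ e, a.f (b.f e) = e := sb_ind (fun y => (congrArg a.f (b.f_inf y)).trans (a.f_inf y))
    fun y w => (congrArg a.f (hb y w)).trans ((ha y _).trans
      (congrArg (fun z => pt Y M y (OnePoint.some z)) (A.e.apply_symm_apply w)))
  have k : ∀ c, pull a.f ((Sb Y M).sm c l) = (Sb Y M').sm c (pull a.f l) := fun c =>
    (pull_sm a c l).trans (congrArg (fun c => (Sb Y M').sm c (pull a.f l)) (pull_id c))
  refine ⟨pull_rd a h.1, fun x r => ?_⟩
  obtain ⟨c, e, u⟩ := h.2 _ (pull_rd b r)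
  refine ⟨c, ?_, fun c' e' => u c' ?_⟩
  · change x = _
    rw [← k, ← e, pull_pull_id _ _ ab]
  · change pull b.f x = _
    rw [e', ← k, pull_pull_id _ _ ba]

/-- a problem as a constant fibrewise problem -/
def toF (Y : GS Γ) (P : PB M W) : FP Y M W := ⟨{x | x.2 ∈ P.O}, fun x => P.f x.2⟩

theorem toF_ok {P : PB M W} {S : Set M.Z} (h : P.Ok S) : (toF Y P).Ok :=
  ⟨h.op.preimage continuous_snd, fun g x o => h.inv g _ o,
    h.ct.comp continuousOn_snd fun _ o => o, fun g x o => h.eq g _ o, by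
      convert (isCompact_univ (X := Y.Z)).prod h.cp using 1
      ext x; simp [toF, PB.Z]⟩

theorem ofF_ok {Q : FP (GS.triv Γ Unit) M W} (k : Q.Ok) {P : PB M W}
    (o : ∀ x, x ∈ P.O ↔ ((), x) ∈ Q.O) (f : ∀ x, P.f x = Q.f ((), x)) : P.Ok univ := by
  have c : IsClosedEmbedding fun x : M.Z => (((), x) : Unit × M.Z) :=
    Function.LeftInverse.isClosedEmbedding (f := Prod.snd) (fun _ => rfl) continuous_snd
      (by fun_prop)
  obtain ⟨O, g⟩ := P
  obtain rfl : O = {x | ((), x) ∈ Q.O} := Set.ext o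
  obtain rfl : g = fun x => Q.f ((), x) := funext f
  exact ⟨k.op.preimage c.continuous, fun g x o => k.inv g ((), x) o,
    k.ct.comp c.continuous.continuousOn fun _ o => o, fun g x o => k.eq g ((), x) o,
    c.isCompact_preimage k.cp, subset_univ _⟩
end iso

variable {G : Type} [Group G] [TopologicalSpace G] [CompactSpace G]
  {q : ℕ} {φ : G →* Circle} {hφ : Continuous φ} {M X X1 : LS Circle} {V : Rep Circle}

/-- restriction of an isomorphism -/
def rsI (φ : G →* Circle) (hφ : Continuous φ) (A : M.Iso X) : (M.res φ hφ).Iso (X.res φ hφ) :=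
  ⟨A.e, fun g => A.eq (φ g)⟩

section pr
variable (T : Type) [TopologicalSpace T] [LocallyCompactSpace T] [T2Space T]

/-- one more trivial coordinate -/
def OD.pr (d : OD q φ M X) : OD q φ (M.prod (LS.triv _ T)) (X.prod (LS.triv _ T)) where
  e := { toFun z := (d.e (z.1.1, z.2), z.1.2)
         invFun z := (((d.e.symm z.1).1, z.2), (d.e.symm z.1).2)
         left_inv z := by simp
         right_inv z := by simp
         continuous_toFun := by fun_prop
         continuous_invFun := by fun_prop }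
  he ζ v w := Prod.ext (d.he ζ v.1 w) rfl
  q0 := d.q0
  hr := d.hr

/-- one more trivial coordinate -/
def prI (A : (R1 M).Iso X1) : (R1 (M.prod (LS.triv _ T))).Iso (X1.prod (LS.triv _ T)) where
  e := { toFun z := (A.e (z.1.1, z.2), z.1.2)
         invFun z := (((A.e.symm z.1).1, z.2), (A.e.symm z.1).2)
         left_inv z := by simp
         right_inv z := by simp
         continuous_toFun := by fun_prop
         continuous_invFun := by fun_prop }
  eq g x := Prod.ext (A.eq g (x.1.1, x.2)) rfl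
end pr

variable (d : OD q φ M X) (A : (R1 M).Iso X1)

/-- the point of the slice -/
def OD.sp (ζ : Circle) (x : X.Z) : X1.Z := A.e (M.act ζ (d.e.symm x).1, Real.log ‖(d.e.symm x).2‖)

/-- **the orbit problem** -/
def OD.ob (P : PB (X1.res φ hφ) (V.res φ hφ)) : PB X V :=
  ⟨{x | (d.e.symm x).2 ≠ 0 ∧ d.sp A (rt q (d.e.symm x).2) x ∈ P.O},
    fun x => V.ρ (rt q (d.e.symm x).2)⁻¹ (P.f (d.sp A (rt q (d.e.symm x).2) x))⟩

variable {P P' : PB (X1.res φ hφ) (V.res φ hφ)} {S : Set X1.Z}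

theorem okF (h : P.Ok S) :
    (fi (rsI φ hφ A) (toF ((GS.triv Circle Unit).res φ hφ) P)).Ok := fi_ok _ (toF_ok h)

theorem OD.mem_ob (h : P.Ok S) {ζ : Circle} {x : X.Z}
    (t : (ζ : ℂ) ^ q * (d.e.symm x).2 = (‖(d.e.symm x).2‖ : ℝ)) :
    x ∈ (d.ob A P).O ↔ (d.e.symm x).2 ≠ 0 ∧ d.sp A ζ x ∈ P.O :=
  d.mem_iff (Y := GS.triv Circle Unit) (x := ((), x)) (okF A h) t

theorem OD.f_ob (h : P.Ok S) {ζ : Circle} {x : X.Z}
    (t : (ζ : ℂ) ^ q * (d.e.symm x).2 = (‖(d.e.symm x).2‖ : ℝ)) (m : x ∈ (d.ob A P).O) :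
    (d.ob A P).f x = V.ρ ζ⁻¹ (P.f (d.sp A ζ x)) :=
  d.f_eq (Y := GS.triv Circle Unit) (x := ((), x)) (okF A h) t m

theorem OD.ob_ok (h : P.Ok S) : (d.ob A P).Ok univ :=
  ofF_ok (d.ok (Y := GS.triv Circle Unit) (okF A h)) (fun _ => Iff.rfl) fun _ => rfl

theorem OD.ob_z {x : X.Z} (z : x ∈ (d.ob A P).Z) : d.sp A (rt q (d.e.symm x).2) x ∈ P.Z := by
  refine ⟨z.1.2, ?_⟩
  have := V.inv_apply (rt q (d.e.symm x).2)⁻¹ (P.f (d.sp A (rt q (d.e.symm x).2) x))
  exact this.symm.trans ((congrArg (V.ρ _) z.2).trans (map_zero _))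

theorem OD.sp_fr {ζ : Circle} {x : X.Z} (h : d.sp A ζ x ∈ (X1.res φ hφ).fr) :
    x ∈ (X.res φ hφ).fr := fun g e => h g (by
  have e' : X.act (φ g) x = x := e
  have e1 := congrArg (fun z => (d.e.symm z).1) e'
  simp only [d.symm_act] at e1
  change X1.act (φ g) (A.e _) = A.e _
  rw [← A.eq]
  refine congrArg A.e (Prod.ext ?_ rfl)
  change M.act (φ g) (M.act ζ _) = _
  rw [← M.mul, mul_comm, M.mul, e1])

theorem ok_res {Q : PB X V} {S' : Set X.Z} (h : Q.Ok univ) (s : Q.Z ⊆ S') :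
    (Q.res φ hφ).Ok S' := ⟨h.op, fun g => h.inv (φ g), h.ct, fun g => h.eq (φ g), h.cp, s⟩

theorem OD.ob_fr (h : P.Fr) : ((d.ob A P).res φ hφ).Fr :=
  ok_res (d.ob_ok A h) fun x z => d.sp_fr A (h.fr (d.ob_z A z))

theorem OD.ob_bd (h : P.Bd P') : ((d.ob A P).res φ hφ).Bd ((d.ob A P').res φ hφ) := by
  obtain ⟨a, b, H, k, l0, l1⟩ := h
  have le : ∀ (t : I) (R : PB (X1.res φ hφ) (V.res φ hφ)), (H.sl t).Le R →
      (PB.sl (X := X.res φ hφ) (((d.pr I).ob (prI I A) (hφ := hφ) H).res φ hφ) t).Le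
        ((d.ob A R).res φ hφ) := fun t R l =>
    ⟨fun x o => ⟨o.1, l.sub o.2⟩, fun x o => congrArg (V.ρ _) (l.eq _ o.2),
      fun x z => ⟨z.1.1, l.z (d.ob_z A z)⟩⟩
  exact ⟨d.ob_fr A a, d.ob_fr A b, ((d.pr I).ob (prI I A) (hφ := hφ) H).res φ hφ,
    ok_res ((d.pr I).ob_ok (prI I A) k) fun x z =>
      d.sp_fr A (k.fr ((d.pr I).ob_z (prI I A) z)), le 0 P l0, le 1 P' l1⟩

theorem OD.ob_lift {U : Rep Circle} {k : X1.Z → U.W} (h : P.Ok S) (l : P.Lift (U.res φ hφ) k) :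
    ((d.ob A P).res φ hφ).Lift (U.res φ hφ)
      fun x => U.ρ (rt q (d.e.symm x).2)⁻¹ (k (d.sp A (rt q (d.e.symm x).2) x)) := by
  let R : PB (X1.res φ hφ) ((V.prod U).res φ hφ) := ⟨P.O, fun x => (P.f x, k x)⟩
  have r : R.Ok univ := ⟨h.op, h.inv, h.ct.prodMk l.ct,
    fun g x o => Prod.ext (h.eq g x o) (l.eq g x o), by
      convert isCompact_empty
      exact eq_empty_of_forall_notMem fun x z =>
        l.nz x ⟨z.1, congrArg Prod.fst z.2⟩ (congrArg Prod.snd z.2), subset_univ _⟩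
  have o := d.ob_ok A r
  refine ⟨continuous_snd.comp_continuousOn o.ct, fun g x m => congrArg Prod.snd (o.eq (φ g) x m),
    fun x z e => l.nz _ (d.ob_z A z) ?_⟩
  have := U.inv_apply (rt q (d.e.symm x).2)⁻¹ (k (d.sp A (rt q (d.e.symm x).2) x))
  exact this.symm.trans ((congrArg (U.ρ _) e).trans (map_zero _))

end Crest.Agent.N218.Orb

end
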