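import Crest.Agent.N218.D7.OrbB
import Crest.Agent.N218.K.Clu
import Crest.Agent.N218.K.Lam1
import Crest.Agent.N218.Al.Kr

/-!
# Row 218, block D7 (helper87): ORB on the invariants of `K/St`
-/

set_option autoImplicit false
set_option linter.unusedVariables false
set_option linter.unusedSectionVars false

open unitInterval Topology Filter Set OnePoint Polynomial

noncomputable section

namespace Crest.Agent.N218.Orb

open K

section kit
variable {Γ : Type} [Group Γ] [TopologicalSpace Γ] [CompactSpace Γ]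

/-- the tautological section -/
def sp0 (χ : Γ →* Circle) (hχ : Continuous χ) (r : ℕ) : Sec (Sp χ hχ r) χ :=
  ⟨Fin r, ⟨fun z : US r => z.1, continuous_subtype_val⟩, fun z : US r => z.2, fun _ _ _ => rfl⟩

theorem LL_eq (χ : Γ →* Circle) (hχ : Continuous χ) (r : ℕ) : LL χ hχ r = Lc (Sp χ hχ r) χ :=
  (Lc_eq (sp0 χ hχ r)).symm

/-- the external product on the zero section -/
theorem xm_zero {Y : GS Γ} {V : LS Γ} {χ : Γ →* Circle} (hχ : Continuous χ)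
    (h : Nonempty (Sec Y χ)) {x : KS Y V} (hx : (Sb Y V).Rd x)
    (z : C((Sb Y V).E, (Sb Y (V.prod (ch χ hχ))).E)) (z0 : ∀ y, z (pt Y V y ∞) = pt Y _ y ∞)
    (z1 : ∀ y (v : V.Z), z (pt Y V y v) = pt Y _ y (OnePoint.some (v, (0 : ℂ)))) :
    pull z (xm x (lam1 Y χ hχ)) = (Sb Y V).sm (1 - Lc Y χ) x := by
  have a0 : ∀ g, (ch χ hχ).sph.act g ((0 : ℂ) : OnePoint ℂ) = ((0 : ℂ) : OnePoint ℂ) := fun g =>
    congrArg OnePoint.some (mul_zero (χ g : ℂ))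
  let i : C((Sb Y V).E, (smd Y V (ch χ hχ)).P.E) :=
    GS.qmap (Y.prod V.sph) ((Y.prod (ch χ hχ).sph).prod V.sph)
      ⟨fun u => ((u.1, ((0 : ℂ) : OnePoint ℂ)), u.2), by fun_prop⟩ fun g u =>
        ⟨g, Prod.ext (Prod.ext rfl (a0 g)) rfl⟩
  let s0 : C(Y.Q, (Sb Y (ch χ hχ)).E) := GS.qmap Y (Y.prod (ch χ hχ).sph)
    ⟨fun u => (u, ((0 : ℂ) : OnePoint ℂ)), by fun_prop⟩ fun g u => ⟨g, Prod.ext rfl (a0 g)⟩
  rw [← pull_pull i (smd Y V (ch χ hχ)).c z (sb_ind (fun y => (z0 y).symm) fun y v => (z1 y v).symm),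
    xm, (smd Y V (ch χ hχ)).c_mul hx (rd_lam1 hχ), map_mul,
    pull_pull_id i (smd Y V (ch χ hχ)).q (sb_ind (fun _ => rfl) fun _ _ => rfl),
    pull_sq i (smd Y V (ch χ hχ)).P.p (Sb Y V).p s0 (sb_ind (fun _ => rfl) fun _ _ => rfl),
    zero_lam1 hχ h s0 fun _ => rfl, Ex.sm, mul_comm]

theorem lf_ev (χ : Γ →* Circle) (hχ : Continuous χ) (r : ℕ) (p : ℤ[X]) :
    Al.Lf (LL χ hχ r) (ev χ hχ r p) (iS p) :=
  ⟨p, by rw [ev, aeval_def, algebraMap_int_eq], congrArg (fun f => eval₂ f Al.L p) (RingHom.ext_int _ _)⟩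

theorem lf_ex {χ : Γ →* Circle} {hχ : Continuous χ} {r : ℕ} {y : KX (Sp χ hχ r).Q} {s : Al.S}
    (h : Al.Lf (LL χ hχ r) y s) : ∃ p, ev χ hχ r p = y ∧ iS p = s :=
  let ⟨p, a, b⟩ := h
  ⟨p, by rw [ev, aeval_def, algebraMap_int_eq, a], (congrArg (fun f => eval₂ f Al.L p) (RingHom.ext_int _ _)).trans b⟩

theorem rU_eq (χ : Γ →* Circle) (hχ : Continuous χ) (r : ℕ) :
    rU χ hχ r = (1 + LL χ hχ r + LL χ hχ r ^ 2) ^ r := by simp [rU, ev]
end kit

theorem pz_of (hK : KLN) {G : Type} [Group G] [Fintype G] [TopologicalSpace G] [DiscreteTopology G]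
    (φ : G →* Circle) (h : Function.Injective φ) {r : ℕ} (hr : 0 < r) :
    Al.Pz (Int.castRingHom _) (LL φ (cc φ) r) r (Fintype.card G) := by
  obtain ⟨a, b, -⟩ := hK φ r h hr
  have e : ∀ p : ℤ[X], p.eval₂ (Int.castRingHom _) (LL φ (cc φ) r) = ev φ (cc φ) r p := fun p => by
    rw [ev, aeval_def, algebraMap_int_eq]
  refine ⟨fun y => (a y).imp fun p k => (e p).trans k, fun p k => ?_⟩
  obtain ⟨u, v, k⟩ := Ideal.mem_span_pair.1 ((b p).1 ((e p).symm.trans k))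
  exact ⟨u, -v, by linear_combination -k⟩

/-- the algebra of ORB -/
theorem orb_alg {A : Type} [CommRing A] {l : A} (hA : Al.Pz (Int.castRingHom A) l 7 0)
    (ψ : A →+* A) (hψ : ψ l = l ^ 3) {q N : ℕ} (hq : 256 ∣ q) (h0 : q ≠ 0) {rS rT c a e : A}
    (hc : rS * c = 3 ^ N) (nm : rS * (1 + l + l ^ 2) ^ 7 = 3 ^ 6 * rT)
    (h : (1 - l ^ q) * e = rS * ψ a - rT * a) {s ε : Al.S} (ks : Al.Lf l a s)
    (kε : Al.Lf l (c * e) ε) (g : Al.Gd q s) : Al.ph ε / 3 ^ (N + 1) ∈ Al.O2 := by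
  have e0 : 3 ^ 6 * ((1 - l ^ q) * (c * e)) = 3 ^ N * (3 ^ 6 * ψ a - (1 + l + l ^ 2) ^ 7 * a) := by
    linear_combination 3 ^ 6 * c * h + (3 ^ 6 * ψ a - (1 + l + l ^ 2) ^ 7 * a) * hc + c * a * nm
  obtain ⟨b, -, c', -, e1⟩ := (((Al.lf_3 l).pow 6).mul
    (((Al.lf_one l).sub ((Al.lf_l l).pow q)).mul kε)).uniq hA
    (e0 ▸ ((Al.lf_3 l).pow N).mul ((((Al.lf_3 l).pow 6).mul (ks.ps ψ hψ)).sub
      (((Al.lf_r l).pow 7).mul ks)))
  have i3 : ∀ n : ℕ, ((3 : ℚ) ^ n)⁻¹ ∈ Al.O2 := fun n => by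
    simpa using Al.inv_mem (n := 3 ^ n) (Odd.pow (by decide))
  have u : (PowerSeries.C ((3 : ℚ) ^ N)⁻¹ : Al.S) * 3 ^ N = 1 := by
    rw [show (3 : Al.S) = PowerSeries.C (3 : ℚ) from (map_ofNat _ 3).symm, ← map_pow, ← map_mul,
      inv_mul_cancel₀ (by positivity), map_one]
  have := Al.orb_mem hq h0 (e := PowerSeries.C ((3 : ℚ) ^ N)⁻¹ * (PowerSeries.C (3 ^ 6 : ℚ) * ε))
    (Al.OS.mul_mem (Al.C_mem (i3 N)) (Al.OS.mul_mem (Al.C_mem
      (Al.O2.pow_mem (ofNat_mem _ 3) 6)) kε.mem)) ks.mem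
    (b := PowerSeries.C ((3 : ℚ) ^ N)⁻¹ * b) (by
      rw [map_pow, map_ofNat]
      linear_combination PowerSeries.C ((3 : ℚ) ^ N)⁻¹ * e1 +
        (3 ^ 6 * Al.ps s - Al.r ^ 7 * s) * u) g
  rw [Al.ph_C, Al.ph_C] at this
  convert Al.O2.mul_mem (i3 7) this using 1
  field_simp
  ring

/-- the standard character -/
abbrev iC : Circle →* Circle := MonoidHom.id Circle
theorem iC_cont : Continuous iC := continuous_id
/-- the sphere `S (7 L)` of the circle -/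
abbrev YT : GS Circle := Sp iC iC_cont 7
/-- the character `L ^ q` -/
abbrev cq (q : ℕ) : Circle →* Circle := iC ^ q
theorem cq_cont (q : ℕ) : Continuous (cq q) := continuous_pow q

variable {G : Type} [Group G] [Fintype G] [TopologicalSpace G] [DiscreteTopology G]
  {q : ℕ} {φ : G →* Circle} {M X X1 : LS Circle} {V : Rep Circle}

/-- `X × ℝ × ℝ = M × ℝ × ℝ × L ^ q` -/
def OD.iso2 (d : OD q φ M X) : (R1 X.xr).Iso ((R1 M.xr).prod (ch (cq q) (cq_cont q))) where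
  e := { toFun z := ((((d.e.symm z.1.1).1, z.1.2), z.2), (d.e.symm z.1.1).2)
         invFun z := ((d.e (z.1.1.1, z.2), z.1.1.2), z.1.2)
         left_inv z := by simp
         right_inv z := by simp
         continuous_toFun := by fun_prop
         continuous_invFun := by fun_prop }
  eq g x := by
    have := d.symm_act g x.1.1
    exact Prod.ext (Prod.ext (Prod.ext (congrArg Prod.fst this :) rfl) rfl)
      ((congrArg Prod.snd this :).trans (by rw [← Circle.coe_pow]; rfl))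

section rs
variable (φ)
/-- restriction from the circle: base -/
def rB : C((Sp φ (cc φ) 7).Q, YT.Q) := rsB φ (cc φ) YT
/-- restriction from the circle: source of `d` -/
def rX (W : LS Circle) : Hm (Sb (Sp φ (cc φ) 7) (W.res φ (cc φ)).xr) (Sb YT W.xr) (rB φ) :=
  rsS φ (cc φ) YT W.xr
/-- restriction from the circle: source of `e` -/
def rXX (W : LS Circle) :
    Hm (Sb (Sp φ (cc φ) 7) (W.res φ (cc φ)).xr.xr) (Sb YT W.xr.xr) (rB φ) :=
  rsS φ (cc φ) YT W.xr.xr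
/-- restriction from the circle: target -/
def rV (V : Rep Circle) : Hm (Sb (Sp φ (cc φ) 7) (TT φ (cc φ) 7 (V.res φ (cc φ))))
    (Sb YT (TT iC iC_cont 7 V)) (rB φ) := rsS φ (cc φ) YT (TT iC iC_cont 7 V)
end rs

theorem rsB_LL : pull (rB φ) (LL iC iC_cont 7) = LL φ (cc φ) 7 := by
  rw [LL_eq, LL_eq, Lc_eq (sp0 iC iC_cont 7), Lc_eq (sp0 φ (cc φ) 7)]
  exact (sp0 iC iC_cont 7).pull_L (sp0 φ (cc φ) 7) (rB φ) (.id _) (fun _ => rfl)
    fun _ _ _ => rfl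

/-- **ORB** -/
theorem orbF (hE : EEX) (hK : KLN) (hC : Al.Pz (Int.castRingHom _) (LL iC iC_cont 7) 7 0)
    (hG : Gq φ) (d : OD (Fintype.card G) φ M X) (A : (R1 M).Iso X1)
    (o : Ori YT X1.xr (TT iC iC_cont 7 V) (rU iC iC_cont 7) (3 ^ 6))
    (hc : ∃ N c, o.rS * c = 3 ^ N)
    (tx : ∀ t, (Sb YT (R1 M.xr)).Th t →
      (Sb YT _).Th (xm t (lam1 YT (cq (Fintype.card G)) (cq_cont _))))
    (t1 : ∀ t, (Sb YT X1.xr).Th t → (Sb _ _).Th (pull (rX φ X1).f t))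
    (t2 : ∀ t, (Sb YT X.xr.xr).Th t → (Sb _ _).Th (pull (rXX φ X).f t))
    (t3 : ∀ t, (Sb YT (TT iC iC_cont 7 V)).Th t → (Sb _ _).Th (pull (rV φ V).f t))
    (hv : ∀ y, (Sb YT X.xr).Rd y → y = 0) :
    ∃ o' : OE φ (cc φ) (X.res φ (cc φ)) (V.res φ (cc φ)),
      ∀ (P : PB (X1.res φ (cc φ)) (V.res φ (cc φ))) (p : ℤ[X]),
        Dg φ (cc φ) 7 P (pull (rV φ V).f o.lT)
          ((Sb _ _).sm (ev φ (cc φ) 7 p) (pull (rX φ X1).f o.lS)) →
        Al.Gd (Fintype.card G) (iS p) → EV φ (cc φ) o' ((d.ob A P).res φ (cc φ)) 0 := by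
  obtain ⟨N, c, hc⟩ := hc
  have sq : Nonempty (Sec YT (cq (Fintype.card G))) := sec_pow ⟨sp0 iC iC_cont 7⟩ _
  have eL : Lc YT (cq (Fintype.card G)) = LL iC iC_cont 7 ^ Fintype.card G := by
    rw [LL_eq]; exact Lc_pow ⟨sp0 iC iC_cont 7⟩ _
  have pG := pz_of hK φ hG.inj (r := 7) (by norm_num)
  have eG : LL φ (cc φ) 7 ^ Fintype.card G = 1 := by
    rw [LL_eq, ← Lc_pow ⟨sp0 φ (cc φ) 7⟩]
    exact Lc_of_one fun g => by rw [MonoidHom.pow_apply, ← map_pow, pow_card_eq_one, map_one]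
  obtain ⟨a1, e1⟩ := exists_h1 YT (prI ℝ A)
  obtain ⟨a2, e2⟩ := exists_h1 YT d.iso2
  have sm1 : ∀ {W W' : LS Circle} (a : H1 (Sb YT W) (Sb YT W')) u x,
      pull a.f ((Sb YT W').sm u x) = (Sb YT W).sm u (pull a.f x) := fun a u x =>
    (pull_sm a u x).trans (congrArg (fun u => Ex.sm _ u (pull a.f x)) (pull_id u))
  have h1 := th_iso _ e1 o.tS
  have p1 : ps _ (pull a1.f o.lS) = (Sb YT _).sm o.rS (pull a1.f o.lS) := by
    rw [ps_pull, o.pS, sm1]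
  have h2 := th_iso _ e2 (tx _ h1)
  set u2 := pull a2.f (xm (pull a1.f o.lS) (lam1 YT (cq (Fintype.card G)) (cq_cont _))) with hu
  have p2 : ps _ u2 = (Sb YT _).sm (o.rS * rho3 (Lc YT (cq (Fintype.card G)))) u2 := by
    rw [hu, ps_pull, xm, SmD.ps_mul, p1, ps_lam1, SmD.sm_mul, SmD.mul_sm, ← sm_mul, sm1]
  have e3 : pull (rB φ) (rho3 (Lc YT (cq (Fintype.card G)))) = 3 := by
    rw [eL, rho3]
    simp only [map_add, map_pow, map_one, rsB_LL, eG]; norm_num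
  have nm := (congrArg (o.rS * ·) (rU_eq iC iC_cont 7)).symm.trans o.nm
  refine ⟨⟨pull (rXX φ X).f u2, pull (rV φ V).f o.lT,
    pull (rB φ) (o.rS * rho3 (Lc YT (cq (Fintype.card G)))),
    pull (rB φ) o.rT, t2 _ h2, t3 _ o.tT, ?_, ?_, ?_⟩, ?_⟩
  · exact (ps_pull _ _).trans ((congrArg _ p2).trans (pull_sm (rXX φ X) _ _))
  · exact (ps_pull _ _).trans ((congrArg _ o.pT).trans (pull_sm (rV φ V) _ _))
  · have := congrArg (pull (rB φ)) nm
    simp only [map_mul, map_pow, map_add, map_one, map_ofNat, rsB_LL] at this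
    rw [map_mul, e3, rU_eq φ, mul_right_comm, this, pow_succ _ 6, mul_right_comm]
  rintro P p ⟨F, ⟨P', k, b, l, r⟩, hF⟩ g
  have ok := fi_ok (rsI φ (cc φ) (prI ℝ A)) (Tc_ok φ (cc φ) 7 b.2.1 l)
  obtain ⟨a, e, q1, q2, F', r', E⟩ := (d.pr ℝ).main (Y := YT) (hφ := cc φ)
    (W := V.prod (UU iC iC_cont 7)) ok o.tT.1
    (fun F => hE F _ _ o.rT o.tT.1 (hv _ (pull_rd F o.tT.1)) o.pT) h1 p1 h2
    (c := 1 - Lc YT (cq (Fintype.card G))) fun j ej => by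
      rw [hu, ← pull_cm]
      refine xm_zero _ sq h1.1 _ (fun y => (j.cm a2).f_inf y) fun y v =>
        (congrArg a2.f (ej y v)).trans ((e2 y _).trans (congrArg (pt YT _ y) ?_))
      refine congrArg OnePoint.some ?_
      change ((((d.e.symm (d.e _)).1, _), _), (d.e.symm (d.e _)).2) = _
      rw [d.e.symm_apply_apply]
      rfl
  obtain ⟨b1, f1⟩ := exists_h1 (Sp φ (cc φ) 7) (rsI φ (cc φ) (prI ℝ A))
  have k1 : pull b1.f (pull (rX φ X1).f o.lS) = pull (rX φ M.xr).f (pull a1.f o.lS) :=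
    pull_sq _ _ _ _ (sb_ind (fun y => (congrArg _ (b1.f_inf y)).trans (a1.f_inf y).symm)
      fun y w => (congrArg _ (f1 y w)).trans (e1 y w).symm) _
  have k2 : ev φ (cc φ) 7 p = pull (rB φ) a := by
    refine th_inj (th_iso _ f1 (t1 _ o.tS)) ?_
    have := DFunLike.congr_fun ((fi_rp _ r f1).ht_hm ok).pull_eq (pull (rV φ V).f o.lT)
    refine Eq.trans ?_ ((this.symm.trans q2).trans (congrArg _ k1.symm))
    refine Eq.trans ?_ ((congrArg (pull b1.f) hF.symm).trans (pull_cm b1.f F.f _).symm)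
    exact ((pull_sm b1 _ _).trans (congrArg (fun u => Ex.sm _ u _) (pull_id _))).symm
  obtain ⟨s, ks⟩ := hC.lf a
  obtain ⟨ε, kε⟩ := hC.lf (c * e)
  obtain ⟨a', v1, rfl⟩ := lf_ex kε
  have ks' := ks.map (pull (rB φ))
  rw [rsB_LL, ← k2] at ks'
  obtain ⟨b2, -, c2, m2, w⟩ := ks'.uniq pG (lf_ev φ (cc φ) 7 p)
  obtain ⟨n, n17, en⟩ := hG.card
  have h256 : 256 ∣ Fintype.card G := en ▸ (pow_dvd_pow 2 (by omega : 8 ≤ n))
  have h0 : Fintype.card G ≠ 0 := Fintype.card_ne_zero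
  refine ⟨pull (rB φ) e, N + 1, a', ⟨F', ⟨_, _, d.ob_bd A b,
    d.ob_lift A (U := UU iC iC_cont 7) b.2.1 l, r'.grow (fun x m => m) (fun x m => ?_)
      fun x m _ => m⟩, E⟩, ?_, ?_⟩
  · refine Prod.ext rfl (funext fun i => ?_)
    change ((rt _ _)⁻¹ : Circle) * (k _ i - Real.exp x.2.2 • (((rt _ _ : Circle) : ℂ) * x.1.1 i)) =
      ((rt _ _)⁻¹ : Circle) * k _ i - Real.exp x.2.2 • x.1.1 i
    rw [mul_sub, mul_smul_comm, ← mul_assoc, ← Circle.coe_mul, inv_mul_cancel, Circle.coe_one,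
      one_mul]
    rfl
  · have v2 : ev φ (cc φ) 7 a' = pull (rB φ) (c * e) := by
      rw [← v1, ev, ev, ← rsB_LL]
      exact aeval_algHom_apply (pull (rB φ)).toIntAlgHom _ a'
    have := congrArg (pull (rB φ)) hc
    simp only [map_mul, map_pow, map_ofNat] at this
    change _ * pull (rB φ) _ = _
    rw [v2, map_mul, map_mul, e3]
    linear_combination 3 * pull (rB φ) e * this
  · rw [eL] at q1
    refine ((QuotientAddGroup.eq_zero_iff _).2 (orb_alg hC (ps _) (by rw [LL_eq, ps_Lc]) h256 h0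
      hc nm q1 ks kε ?_)).symm
    rw [w]
    exact (g.add (Al.Gd.t7 h0 b2)).add (Al.Gd.rel (dvd_trans (by norm_num) h256) m2)

end Crest.Agent.N218.Orb

end
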