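import Crest.Agent.N218.D7.OrbF
import Crest.Agent.N218.D7.Dd
import Crest.Agent.N218.D7.St2
import Crest.Agent.N218.K.Cx1
import Crest.Agent.N218.K.Kill
import Crest.Agent.N218.K.Eht

/-!
# Row 218, block D7 (helper87): ORB for the tube problem
-/

set_option autoImplicit false
set_option linter.unusedVariables false
set_option linter.unusedSectionVars false

open Set Polynomial Module

noncomputable section

namespace Crest.Agent.N218.Orb

open K Fo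

section cs
variable {Γ : Type} [Group Γ] [TopologicalSpace Γ] [CompactSpace Γ] {Y : GS Γ} {W W' : LS Γ}

variable (Y W) in
/-- sums of characters with sections -/
def Cs : Prop := ∃ (ι : Type) (_ : Fintype ι) (χ : ι → Γ →* Circle) (h : ∀ i, Continuous (χ i)),
  (∀ i, Nonempty (Sec Y (χ i))) ∧ Nonempty (W.Iso (Rep.wt χ h).ls)

theorem Cs.iso (A : W'.Iso W) (h : Cs Y W) : Cs Y W' :=
  let ⟨ι, f, χ, hχ, s, ⟨B⟩⟩ := h; ⟨ι, f, χ, hχ, s, ⟨A.trans B⟩⟩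

theorem Cs.prod (h : Cs Y W) (h' : Cs Y W') : Cs Y (W.prod W') := by
  obtain ⟨ι, _, χ, hχ, s, ⟨A⟩⟩ := h
  obtain ⟨κ, _, ψ, hψ, s', ⟨B⟩⟩ := h'
  exact ⟨ι ⊕ κ, inferInstance, Sum.elim χ ψ, by rintro (i | i); exacts [hχ i, hψ i],
    by rintro (i | i); exacts [s i, s' i], ⟨(A.prod B).trans (wtSum (Sum.elim χ ψ) _).symm⟩⟩

theorem cs_ch {χ : Γ →* Circle} (h : Continuous χ) (s : Nonempty (Sec Y χ)) : Cs Y (ch χ h) :=
  ⟨Unit, inferInstance, fun _ => χ, fun _ => h, fun _ => s,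
    ⟨⟨(Homeomorph.funUnique Unit ℂ).symm, fun _ _ => rfl⟩⟩⟩

theorem cs_even (E : Type) [NormedAddCommGroup E] [NormedSpace ℝ E] [FiniteDimensional ℝ E]
    (m : ℕ) (h : finrank ℝ E = 2 * m) : Cs Y (Rep.triv Γ E).ls :=
  let ⟨e⟩ := homeo_even E m h
  ⟨Fin m, inferInstance, fun _ => 1, fun _ => continuous_const, fun _ => ⟨Sec.one Y⟩,
    ⟨trivIso (fun _ _ => rfl) e⟩⟩

theorem Cs.xr2 (h : Cs Y W) : Cs Y W.xr.xr :=
  (h.prod (cs_even (ℝ × ℝ) 1 (by simp))).iso (LS.Iso.assoc _ _ _)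

theorem Cs.cx (h : Cs Y W) : Cx W :=
  let ⟨_, _, χ, hχ, _, ⟨A⟩⟩ := h; (cx_wt χ hχ).iso A

theorem Cs.ut (T : THOM1) (h : Cs Y W) {l : KS Y W} (hl : (Sb Y W).Th l) : UT Y W l :=
  let ⟨_, _, _, _, s, ⟨A⟩⟩ := h
  let ⟨_, a, _⟩ := ut_wt T s A
  a.of_th hl

theorem Cs.lz (T : THOM1) (h0 : K1Z Y.Q) (h : Cs Y W) : Kl.Lz Y W.xr :=
  let ⟨ι, _, χ, hχ, s, ⟨A⟩⟩ := h
  Kl.lz_of T h0 _ _ (fun _ => s _)
    ((A.trans (wtRe (Fintype.equivFin ι).symm χ hχ)).prod (.refl _))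
end cs

theorem orbF' {G : Type} [Group G] [Fintype G] [TopologicalSpace G] [DiscreteTopology G]
    {q : ℕ} {φ : G →* Circle} {M X X1 : LS Circle} {V : Rep Circle} (hq : Fintype.card G = q)
    (hE : EEX) (hK : KLN) (hC : Al.Pz (Int.castRingHom _) (LL iC iC_cont 7) 7 0)
    (hG : Gq φ) (d : OD q φ M X) (A : (R1 M).Iso X1)
    (o : Ori YT X1.xr (TT iC iC_cont 7 V) (rU iC iC_cont 7) (3 ^ 6))
    (hc : ∃ N c, o.rS * c = 3 ^ N)
    (tx : ∀ t, (Sb YT (R1 M.xr)).Th t → (Sb YT _).Th (xm t (lam1 YT (cq q) (cq_cont _))))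
    (t1 : ∀ t, (Sb YT X1.xr).Th t → (Sb _ _).Th (pull (rX φ X1).f t))
    (t2 : ∀ t, (Sb YT X.xr.xr).Th t → (Sb _ _).Th (pull (rXX φ X).f t))
    (t3 : ∀ t, (Sb YT (TT iC iC_cont 7 V)).Th t → (Sb _ _).Th (pull (rV φ V).f t))
    (hv : ∀ y, (Sb YT X.xr).Rd y → y = 0) :
    ∃ o' : OE φ (cc φ) (X.res φ (cc φ)) (V.res φ (cc φ)),
      ∀ (P : PB (X1.res φ (cc φ)) (V.res φ (cc φ))) (p : ℤ[X]),
        Dg φ (cc φ) 7 P (pull (rV φ V).f o.lT)
          ((Sb _ _).sm (ev φ (cc φ) 7 p) (pull (rX φ X1).f o.lS)) →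
        Al.Gd q (iS p) → EV φ (cc φ) o' ((d.ob A P).res φ (cc φ)) 0 := by
  subst hq
  exact orbF hE hK hC hG d A o hc tx t1 t2 t3 hv

variable (B : Type) [NormedAddCommGroup B] [NormedSpace ℝ B] [FiniteDimensional ℝ B]
  [LocallyCompactSpace B] (q : ℕ) [NeZero q] (E : Type) [NormedAddCommGroup E] [NormedSpace ℂ E]
  [FiniteDimensional ℂ E]

theorem cs_cir {r : ℕ} : Cs (Sp iC iC_cont r) (cir q E).ls := by
  let e : E ≃L[ℂ] (Fin (finrank ℂ E) → ℂ) := .ofFinrankEq (by simp)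
  refine ⟨ZMod q × Fin (finrank ℂ E), inferInstance, fun k => pw k.1.val, fun _ => pw_cont _,
    fun k => sec_pow ⟨sp0 iC iC_cont r⟩ k.1.val, ⟨⟨((D q E).trans
      ((ContinuousLinearEquiv.piCongrRight fun _ => e).trans
        (LinearEquiv.curry ℂ ℂ (ZMod q) _).symm.toContinuousLinearEquiv)).toHomeomorph,
      fun z y => funext fun k => ?_⟩⟩⟩
  change e (D q E ((cir q E).ρ z y) k.1) k.2 = (pw k.1.val z : ℂ) * e (D q E y k.1) k.2
  rw [D_cir, map_smul, pw_apply]; rfl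

/-- the source of the tube problem -/
abbrev XT : Rep Circle := ((Rep.triv Circle B).prod (Rep.ch (cq q) (cq_cont q))).prod (cir q E)
/-- the zero section -/
abbrev MT : LS Circle := (LS.triv Circle B).prod (cir q E).ls

theorem card_Ch : Fintype.card (D7.Ch q) = q := by simp

/-- the orbit data -/
def odT : OD q (inc q) (MT B q E) (XT B q E).ls where
  e := { toFun z := ((z.1.1, z.2), z.1.2)
         invFun z := ((z.1.1, z.2), z.1.2)
         left_inv _ := rfl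
         right_inv _ := rfl
         continuous_toFun := by fun_prop
         continuous_invFun := by fun_prop }
  he ζ v w := Prod.ext (Prod.ext rfl (by rw [← Circle.coe_pow]; rfl)) rfl
  q0 := NeZero.ne q
  hr ζ := by
    have := congrArg (ζ ∈ ·) (range_eq_ker (inc_inj q))
    rw [card_Ch] at this
    exact (Iff.of_eq this).symm

/-- the slice -/
def slT : (R1 (MT B q E)).Iso (D7.XC (B × ℝ) q E) where
  e := { toFun z := ((z.1.1, z.2), z.1.2)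
         invFun z := ((z.1.1, z.2), z.1.2)
         left_inv _ := rfl
         right_inv _ := rfl
         continuous_toFun := by fun_prop
         continuous_invFun := by fun_prop }
  eq _ _ := rfl

variable {B q E}

/-- **the tube problem** -/
def tube (P : D7.P0 (B × ℝ) q E q) :
    PB ((XT B q E).res (inc q) (cc _)).ls ((cir q E).res (inc q) (cc _)) :=
  ((odT B q E).ob (slT B q E) (hφ := cc _) P).res (inc q) (cc _)

variable {P : D7.P0 (B × ℝ) q E q}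

theorem mem_tube (h : P.Fr) {ζ : Circle} {x : (B × ℂ) × (ZMod q → E)}
    (t : (ζ : ℂ) ^ q * x.1.2 = (‖x.1.2‖ : ℝ)) :
    x ∈ (tube P).O ↔ x.1.2 ≠ 0 ∧ ((x.1.1, Real.log ‖x.1.2‖), (cir q E).ρ ζ x.2) ∈ P.O :=
  (odT B q E).mem_ob (slT B q E) (hφ := cc _) h t

theorem f_tube (h : P.Fr) {ζ : Circle} {x : (B × ℂ) × (ZMod q → E)}
    (t : (ζ : ℂ) ^ q * x.1.2 = (‖x.1.2‖ : ℝ)) (m : x ∈ (tube P).O) :
    (tube P).f x = (cir q E).ρ ζ⁻¹ (P.f ((x.1.1, Real.log ‖x.1.2‖), (cir q E).ρ ζ x.2)) :=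
  (odT B q E).f_ob (slT B q E) (hφ := cc _) h t m

theorem tube_fr (h : P.Fr) : (tube P).Fr := (odT B q E).ob_fr (slT B q E) (hφ := cc _) h

theorem adm_tube (hB : finrank ℝ B = 10) :
    Adm 12 ((XT B q E).res (inc q) (cc _)) ((cir q E).res (inc q) (cc _)) := by
  let e : (B × ℂ) ≃L[ℝ] (Fin 12 → ℝ) := .ofFinrankEq (by simp [hB])
  refine ⟨⟨e.prodCongr (.refl _ _), fun g x => Prod.ext (congrArg e (Prod.ext rfl ?_)) rfl⟩⟩
  obtain ⟨⟨b, w⟩, y⟩ : (B × ℂ) × (ZMod q → E) := x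
  change ((cq q (inc q g) : Circle) : ℂ) * w = w
  rw [show cq q (inc q g) = 1 from ((odT B q E).hr _).2 ⟨g, rfl⟩, Circle.coe_one, one_mul]

/-- **ORB for the tube problem** -/
theorem orbG (T : THOM1) (hK : KLN) {J : AI 12} (hJ : D7.SpE J) (hB : finrank ℝ B = 10)
    (hq : ∃ k, 17 ≤ k ∧ q = 2 ^ k) (o : D7.OC (B × ℝ) q E) (hc : ∃ N c, o.rS * c = 3 ^ N)
    {d : Al.S} (h : D7.DD o q P d) (g : Al.Gd q d) :
    J.ν (inc q) ((XT B q E).res (inc q) (cc _)) ((cir q E).res (inc q) (cc _)) (tube P) = 0 := by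
  have hG : Gq (inc q) := ⟨inc_inj q, by rwa [card_Ch]⟩
  have s0 : Nonempty (Sec YT iC) := ⟨sp0 iC iC_cont 7⟩
  have cV : Cs YT (cir q E).ls := cs_cir q E
  have cM : Cs YT (MT B q E) := (cs_even B 5 hB).prod cV
  have cX : Cs YT (XT B q E).ls :=
    ((cs_even B 5 hB).prod (cs_ch (cq_cont q) (sec_pow s0 q))).prod cV
  have c1 : Cs YT (D7.XC (B × ℝ) q E).xr := cM.xr2.iso ((slT B q E).symm.prod (.refl _))
  have cT : Cs YT (TT iC iC_cont 7 (cir q E)) :=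
    cV.prod ⟨_, _, _, _, fun _ => s0, ⟨.refl _⟩⟩
  have hC : Al.Pz (Int.castRingHom _) (LL iC iC_cont 7) 7 0 := by
    obtain ⟨a, b⟩ := cp_int T iC_cont 7 Function.surjective_id
    have e : ∀ p : ℤ[X], p.eval₂ (Int.castRingHom _) (LL iC iC_cont 7) =
        aeval (Lc (Sp iC iC_cont 7) iC) p := fun p => by rw [LL_eq, aeval_def, algebraMap_int_eq]
    exact ⟨fun y => (a y).imp fun p k => (e p).trans k, fun p k =>
      let ⟨u, v⟩ := (b p).1 ((e p).symm.trans k); ⟨u, 0, by simp [v]⟩⟩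
  have ev7 := D7.eqv7 (inc q)
  obtain ⟨o', ho⟩ := orbF' (card_Ch q) eex hK hC hG (odT B q E) (slT B q E) o hc
    (fun t ht => (ut_lam1 T (cq_cont q) (sec_pow s0 q)).th_r ht)
    (fun t ht => (c1.ut T ht).2 _ (inc q) (cc _) _ _ ev7 _ fun _ _ => rfl)
    (fun t ht => (cX.xr2.ut T ht).2 _ (inc q) (cc _) _ _ ev7 _ fun _ _ => rfl)
    (fun t ht => (cT.ut T ht).2 _ (inc q) (cc _) _ _ ev7 _ fun _ _ => rfl)
    (cX.lz T (k1Z_sp T iC_cont 7 Function.surjective_id))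
  obtain ⟨p, rfl, h⟩ := h
  obtain ⟨s, hs⟩ := hJ (inc q) _ _ hG (adm_tube hB) (cV.cx.res (inc q) (cc _)) o'
  exact (hs _ _ (ho P p h g)).trans (smul_zero s)

end Crest.Agent.N218.Orb

end
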