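import Crest.Agent.N218.K.Defs

/-!
# Row 218, block D7 (helper87): the orbit problem of a problem

A problem for a finite subgroup `G` of the circle with source `M × ℝ` gives a circle-equivariant
problem with source `N = M × L ^ q`.
-/

set_option autoImplicit false
set_option linter.unusedVariables false
set_option linter.unusedSectionVars false

open unitInterval Topology Filter Set OnePoint

noncomputable section

namespace Crest.Agent.N218.Orb

open K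

variable {G : Type} [Group G] [TopologicalSpace G]

/-- `φ` is onto the `q`-th roots of unity and `N = M × L ^ q` -/
structure OD (q : ℕ) (φ : G →* Circle) (M N : LS Circle) where
  e : M.Z × ℂ ≃ₜ N.Z
  he : ∀ ζ v w, N.act ζ (e (v, w)) = e (M.act ζ v, (ζ : ℂ) ^ q * w)
  q0 : q ≠ 0
  hr : ∀ ζ : Circle, ζ ^ q = 1 ↔ ∃ g, φ g = ζ

/-- a root of the inverse phase -/
def rt (q : ℕ) (w : ℂ) : Circle := Circle.exp (-Complex.arg w / q)

theorem rt_spec {q : ℕ} (h : q ≠ 0) (w : ℂ) : (rt q w : ℂ) ^ q * w = (‖w‖ : ℝ) := by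
  have hq : (q : ℂ) ≠ 0 := Nat.cast_ne_zero.2 h
  have e : (rt q w : ℂ) ^ q = Complex.exp (-(Complex.arg w * Complex.I)) := by
    rw [rt, Circle.coe_exp, ← Complex.exp_nat_mul]
    congr 1
    push_cast
    field_simp
  rw [e]
  nth_rewrite 2 [← Complex.norm_mul_exp_arg_mul_I w]
  rw [mul_left_comm, ← Complex.exp_add, neg_add_cancel, Complex.exp_zero, mul_one]

theorem rt_cont (q : ℕ) : ContinuousOn (rt q) Complex.slitPlane := fun w hw =>
  (Circle.exp.continuous.continuousAt.comp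
    (((Complex.continuousAt_arg hw).neg).div_const _)).continuousWithinAt

/-- the source of the problem -/
abbrev R1 (M : LS Circle) : LS Circle := M.prod (LS.triv Circle ℝ)

variable {q : ℕ} {φ : G →* Circle} {hφ : Continuous φ} {M N : LS Circle} {Y : GS Circle}
  {W : Rep Circle} (d : OD q φ M N)

/-- the point of the slice -/
def OD.sl (Y : GS Circle) (ζ : Circle) (x : Y.Z × N.Z) : Y.Z × M.Z × ℝ :=
  (Y.act ζ x.1, M.act ζ (d.e.symm x.2).1, Real.log ‖(d.e.symm x.2).2‖)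

/-- `ζ` turns the point into the slice -/
def OD.Tn {Z : Type} (ζ : Circle) (x : Z × N.Z) : Prop :=
  (ζ : ℂ) ^ q * (d.e.symm x.2).2 = (‖(d.e.symm x.2).2‖ : ℝ)

theorem OD.tn_rt {Z : Type} (x : Z × N.Z) : d.Tn (rt q (d.e.symm x.2).2) x := rt_spec d.q0 _

theorem OD.symm_act (ζ : Circle) (z : N.Z) :
    d.e.symm (N.act ζ z) = (M.act ζ (d.e.symm z).1, (ζ : ℂ) ^ q * (d.e.symm z).2) := by
  obtain ⟨⟨v, w⟩, rfl⟩ := d.e.surjective z
  rw [d.he, d.e.symm_apply_apply, d.e.symm_apply_apply]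

include d in
theorem OD.pw_one (g : G) : ((φ g : Circle) : ℂ) ^ q = 1 := by
  have : φ g ^ q = 1 := (d.hr _).2 ⟨g, rfl⟩
  rw [← Circle.coe_pow, this, Circle.coe_one]

/-- the orbit problem -/
def OD.orb (P : FP (Y.res φ hφ) ((R1 M).res φ hφ) (W.res φ hφ)) : FP Y N W where
  O := {x | (d.e.symm x.2).2 ≠ 0 ∧ d.sl Y (rt q (d.e.symm x.2).2) x ∈ P.O}
  f x := W.ρ (rt q (d.e.symm x.2).2)⁻¹ (P.f (d.sl Y (rt q (d.e.symm x.2).2) x))

variable {P : FP (Y.res φ hφ) ((R1 M).res φ hφ) (W.res φ hφ)}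

theorem OD.two {ζ ζ' : Circle} {x : Y.Z × N.Z} (h0 : (d.e.symm x.2).2 ≠ 0) (h : d.Tn ζ x)
    (h' : d.Tn ζ' x) (hP : P.Ok) (m : d.sl Y ζ x ∈ P.O) :
    d.sl Y ζ' x ∈ P.O ∧ W.ρ ζ'⁻¹ (P.f (d.sl Y ζ' x)) = W.ρ ζ⁻¹ (P.f (d.sl Y ζ x)) := by
  have e : (ζ' * ζ⁻¹) ^ q = 1 := by
    have : (ζ' : ℂ) ^ q = (ζ : ℂ) ^ q := mul_right_cancel₀ h0 (h'.trans h.symm)
    have : ζ' ^ q = ζ ^ q := Circle.ext (by rw [Circle.coe_pow, Circle.coe_pow, this])
    rw [mul_pow, this, inv_pow, mul_inv_cancel]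
  obtain ⟨g, hg⟩ := (d.hr _).1 e
  have hz : ζ' = φ g * ζ := by rw [hg, inv_mul_cancel_right]
  have es : d.sl Y ζ' x = ((Y.res φ hφ).act g (d.sl Y ζ x).1,
      ((R1 M).res φ hφ).act g (d.sl Y ζ x).2) := by
    rw [hz]
    exact Prod.ext (Y.mul _ _ _) (Prod.ext (M.mul _ _ _) rfl)
  refine ⟨es ▸ hP.inv g _ m, ?_⟩
  rw [es, hP.eq g _ m, hz, mul_inv_rev, map_mul]
  exact congrArg (W.ρ ζ⁻¹) (W.inv_apply (φ g) _)

theorem OD.mem_iff (hP : P.Ok) {ζ : Circle} {x : Y.Z × N.Z} (h : d.Tn ζ x) :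
    x ∈ (d.orb P).O ↔ (d.e.symm x.2).2 ≠ 0 ∧ d.sl Y ζ x ∈ P.O :=
  ⟨fun m => ⟨m.1, (d.two m.1 (d.tn_rt x) h hP m.2).1⟩,
    fun m => ⟨m.1, (d.two m.1 h (d.tn_rt x) hP m.2).1⟩⟩

theorem OD.f_eq (hP : P.Ok) {ζ : Circle} {x : Y.Z × N.Z} (h : d.Tn ζ x) (m : x ∈ (d.orb P).O) :
    (d.orb P).f x = W.ρ ζ⁻¹ (P.f (d.sl Y ζ x)) := (d.two m.1 (d.tn_rt x) h hP m.2).2.symm

theorem OD.sl_e (y : Y.Z) (v : M.Z) (l : ℝ) :
    d.sl Y 1 (y, d.e (v, (Real.exp l : ℝ))) = (y, v, l) := by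
  simp only [OD.sl, d.e.symm_apply_apply, Y.one, M.one, Complex.norm_real, Real.norm_eq_abs,
    Real.abs_exp, Real.log_exp]

theorem OD.tn_e (y : Y.Z) (v : M.Z) (l : ℝ) : d.Tn 1 (y, d.e (v, (Real.exp l : ℝ))) := by
  simp only [OD.Tn, d.e.symm_apply_apply, Circle.coe_one, one_pow, one_mul, Complex.norm_real,
    Real.norm_eq_abs, Real.abs_exp]

theorem OD.mem_e (hP : P.Ok) (y : Y.Z) (v : M.Z) (l : ℝ) :
    (y, d.e (v, (Real.exp l : ℝ))) ∈ (d.orb P).O ↔ (y, v, l) ∈ P.O := by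
  rw [d.mem_iff hP (d.tn_e y v l), d.sl_e, d.e.symm_apply_apply]
  exact and_iff_right (Complex.ofReal_ne_zero.2 (Real.exp_pos l).ne')

theorem OD.f_e (hP : P.Ok) {y : Y.Z} {v : M.Z} {l : ℝ} (m : (y, v, l) ∈ P.O) :
    (d.orb P).f (y, d.e (v, (Real.exp l : ℝ))) = P.f (y, v, l) := by
  rw [d.f_eq hP (d.tn_e y v l) ((d.mem_e hP y v l).2 m), d.sl_e, inv_one, map_one]
  rfl

theorem OD.tn_act {ζ : Circle} {x : Y.Z × N.Z} (h : d.Tn ζ x) (g : Circle) :
    d.Tn (ζ * g⁻¹) (Y.act g x.1, N.act g x.2) := by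
  have hg : (g : ℂ) ≠ 0 := g.coe_ne_zero
  simp only [OD.Tn, d.symm_act, norm_mul, norm_pow, Circle.norm_coe, one_pow, one_mul,
    Circle.coe_mul, Circle.coe_inv] at h ⊢
  rw [← h, mul_pow, inv_pow]
  field_simp

theorem OD.sl_act (ζ : Circle) (x : Y.Z × N.Z) (g : Circle) :
    d.sl Y (ζ * g⁻¹) (Y.act g x.1, N.act g x.2) = d.sl Y ζ x := by
  simp only [OD.sl, d.symm_act, norm_mul, norm_pow, Circle.norm_coe, one_pow, one_mul,
    ← Y.mul, ← M.mul, inv_mul_cancel_right]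

theorem OD.loc (x : Y.Z × N.Z) (h0 : (d.e.symm x.2).2 ≠ 0) : ∃ ζ : Y.Z × N.Z → Circle,
    (∀ x', d.Tn (ζ x') x') ∧ ContinuousAt ζ x ∧ ContinuousAt (fun x' => d.sl Y (ζ x') x') x := by
  set c := rt q (d.e.symm x.2).2
  have cw : Continuous fun x' : Y.Z × N.Z => d.e.symm x'.2 := d.e.symm.continuous.comp continuous_snd
  have hz : ContinuousAt (fun x' : Y.Z × N.Z => rt q ((c : ℂ) ^ q * (d.e.symm x'.2).2) * c) x := by
    refine ContinuousAt.mul ?_ continuousAt_const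
    have m : (c : ℂ) ^ q * (d.e.symm x.2).2 ∈ Complex.slitPlane := by
      rw [rt_spec d.q0]
      exact Complex.ofReal_mem_slitPlane.2 (norm_pos_iff.2 h0)
    exact ContinuousAt.comp (f := fun x' : Y.Z × N.Z => (c : ℂ) ^ q * (d.e.symm x'.2).2)
      ((rt_cont q).continuousAt (Complex.isOpen_slitPlane.mem_nhds m))
      (continuous_const.mul cw.snd).continuousAt
  refine ⟨_, fun x' => ?_, hz, ?_⟩
  · have := rt_spec d.q0 ((c : ℂ) ^ q * (d.e.symm x'.2).2)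
    rw [norm_mul, norm_pow, Circle.norm_coe, one_pow, one_mul] at this
    rw [OD.Tn, Circle.coe_mul, mul_pow, mul_assoc, this]
  · refine (Y.cont.continuousAt.comp (hz.prodMk continuousAt_fst)).prodMk
      ((M.cont.continuousAt.comp (hz.prodMk cw.fst.continuousAt)).prodMk ?_)
    exact (cw.snd.norm.continuousAt).log (norm_ne_zero_iff.2 h0)

theorem OD.ok (hP : P.Ok) : (d.orb P).Ok := by
  have cw : Continuous fun x' : Y.Z × N.Z => d.e.symm x'.2 := d.e.symm.continuous.comp continuous_snd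
  refine ⟨isOpen_iff_mem_nhds.2 fun x m => ?_, fun g x m => ?_, fun x m => ?_, fun g x m => ?_, ?_⟩
  · obtain ⟨ζ, a, -, c⟩ := d.loc x m.1
    filter_upwards [c.eventually (hP.op.mem_nhds ((d.mem_iff hP (a x)).1 m).2),
      cw.snd.continuousAt.eventually (isOpen_ne.mem_nhds m.1)] with x' h1 h2
    exact (d.mem_iff hP (a x')).2 ⟨h2, h1⟩
  · rw [d.mem_iff hP (d.tn_act (d.tn_rt x) g), d.sl_act, d.symm_act]
    exact ⟨mul_ne_zero (pow_ne_zero _ g.coe_ne_zero) m.1, m.2⟩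
  · obtain ⟨ζ, a, b, c⟩ := d.loc x m.1
    have h1 : ContinuousAt (fun x' => W.ρ (ζ x')⁻¹ (P.f (d.sl Y (ζ x') x'))) x :=
      W.cont2.continuousAt.comp (f := fun x' => ((ζ x')⁻¹, P.f (d.sl Y (ζ x') x'))) (b.inv.prodMk
        (ContinuousAt.comp (f := fun x' => d.sl Y (ζ x') x')
          (hP.ct.continuousAt (hP.op.mem_nhds ((d.mem_iff hP (a x)).1 m).2)) c))
    exact h1.continuousWithinAt.congr (fun x' m' => d.f_eq hP (a x') m') (d.f_eq hP (a x) m)
  · have m' : (Y.act g x.1, N.act g x.2) ∈ (d.orb P).O := by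
      rw [d.mem_iff hP (d.tn_act (d.tn_rt x) g), d.sl_act, d.symm_act]
      exact ⟨mul_ne_zero (pow_ne_zero _ g.coe_ne_zero) m.1, m.2⟩
    rw [d.f_eq hP (d.tn_act (d.tn_rt x) g) m', d.sl_act, mul_inv_rev, inv_inv, map_mul]
    rfl
  · have c : Continuous fun z : Circle × Y.Z × M.Z × ℝ =>
        (Y.act z.1 z.2.1, N.act z.1 (d.e (z.2.2.1, (Real.exp z.2.2.2 : ℝ)))) :=
      (Y.cont.comp (continuous_fst.prodMk continuous_snd.fst)).prodMk
        (N.cont.comp (continuous_fst.prodMk (d.e.continuous.comp (by fun_prop))))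
    convert (isCompact_univ.prod hP.cp).image c using 1
    ext x
    constructor
    · rintro ⟨m, h⟩
      set ζ := rt q (d.e.symm x.2).2
      have h' : P.f (d.sl Y ζ x) = 0 := by
        have := W.inv_apply ζ⁻¹ (P.f (d.sl Y ζ x))
        rw [← this]
        exact (congrArg (W.ρ ζ⁻¹⁻¹) h).trans (map_zero _)
      refine ⟨(ζ⁻¹, d.sl Y ζ x), ⟨trivial, m.2, h'⟩, Prod.ext ?_ ?_⟩
      · change Y.act ζ⁻¹ (Y.act ζ x.1) = x.1
        rw [← Y.mul, inv_mul_cancel, Y.one]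
      · change N.act ζ⁻¹ (d.e (M.act ζ (d.e.symm x.2).1,
          (Real.exp (Real.log ‖(d.e.symm x.2).2‖) : ℝ))) = x.2
        rw [Real.exp_log (norm_pos_iff.2 m.1), ← d.tn_rt x, ← d.he, N.inv_act]
        exact d.e.apply_symm_apply _
    · rintro ⟨⟨g, y, v, l⟩, ⟨-, m, h⟩, rfl⟩
      have t := d.tn_act (d.tn_e y v l) g
      have m' : (Y.act g y, N.act g (d.e (v, (Real.exp l : ℝ)))) ∈ (d.orb P).O := by
        rw [d.mem_iff hP t, d.sl_act 1 (y, d.e (v, (Real.exp l : ℝ))), d.sl_e, d.symm_act,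
          d.e.symm_apply_apply]
        exact ⟨mul_ne_zero (pow_ne_zero _ g.coe_ne_zero)
          (Complex.ofReal_ne_zero.2 (Real.exp_pos l).ne'), m⟩
      refine ⟨m', ?_⟩
      rw [d.f_eq hP t m', d.sl_act 1 (y, d.e (v, (Real.exp l : ℝ))), d.sl_e]
      exact (congrArg (W.ρ _) h).trans (map_zero _)

/-- a cut-off of the orbit problem restricts to the slice -/
theorem OD.cut (hP : P.Ok) {χ : Y.Z × N.Z → ℝ} (h : (d.orb P).Cut χ) :
    P.Cut fun x => χ (x.1, d.e (x.2.1, (Real.exp x.2.2 : ℝ))) := by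
  have c : Continuous fun x : Y.Z × M.Z × ℝ => (x.1, d.e (x.2.1, (Real.exp x.2.2 : ℝ))) :=
    continuous_fst.prodMk (d.e.continuous.comp (by fun_prop))
  have sb : tsupport (fun x : Y.Z × M.Z × ℝ => χ (x.1, d.e (x.2.1, (Real.exp x.2.2 : ℝ)))) ⊆
      (fun x : Y.Z × M.Z × ℝ => (x.1, d.e (x.2.1, (Real.exp x.2.2 : ℝ)))) ⁻¹' tsupport χ :=
    closure_minimal (fun x m => subset_closure m) ((isClosed_tsupport χ).preimage c)
  refine ⟨h.ct.comp c, fun x => h.nn _, ?_, fun x m => (d.mem_e hP _ _ _).1 (h.sub (sb m)),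
    fun x m e => h.pos _ ((d.mem_e hP _ _ _).2 m) ((d.f_e hP m).trans e), fun g x => ?_⟩
  · have k : IsCompact (d.sl Y 1 '' tsupport χ) := h.cp.image_of_continuousOn fun x m => by
      have cw : Continuous fun x' : Y.Z × N.Z => d.e.symm x'.2 :=
        d.e.symm.continuous.comp continuous_snd
      exact ((Y.cont.comp (continuous_const.prodMk continuous_fst)).continuousAt.prodMk
        ((M.cont.comp (continuous_const.prodMk cw.fst)).continuousAt.prodMk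
          (cw.snd.norm.continuousAt.log (norm_ne_zero_iff.2 (h.sub m).1)))).continuousWithinAt
    exact k.of_isClosed_subset (isClosed_tsupport _) fun x m => ⟨_, sb m, d.sl_e _ _ _⟩
  · have := h.inv (φ g) (x.1, d.e (x.2.1, (Real.exp x.2.2 : ℝ)))
    rw [d.he, d.pw_one, one_mul] at this
    exact this

end Crest.Agent.N218.Orb

end
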