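import Crest.Agent.N218.K.Dtrf
import Crest.Agent.N218.K.Vres
import Crest.Agent.N218.Tr.Cyc
import Crest.Agent.N218.D7.Dd

/-!
# Row 218, block D7 (helper37): the transfer formula for `d` over the base `B`
-/

set_option autoImplicit false
set_option linter.unusedVariables false

open Set Polynomial Module

noncomputable section

namespace Crest.Agent.N218.D7

open K Fo Al Tr

/-- transfer, with classes pulled back from common spaces -/
theorem trf0 {Γ Γ' : Type} [Group Γ] [Fintype Γ] [TopologicalSpace Γ] [DiscreteTopology Γ]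
    [Group Γ'] [Fintype Γ'] [TopologicalSpace Γ'] [DiscreteTopology Γ'] {χ : Γ →* Circle}
    {φ : Γ' →* Γ} {r m : ℕ} {X V : Rep Γ} (hχ : Function.Injective χ) (hφ : Function.Injective φ)
    (hm : Fintype.card Γ = Fintype.card Γ' * m) (hd : finrank ℝ X.W + 1 < finrank ℝ V.W + 2 * r)
    {P : PB X.ls V} {Q : PB (X.ls.res φ (cc φ)) (V.res φ (cc φ))} (hP : P.Fr) (hQ : Q.Fr)
    (sub : ∀ x ∈ Q.O, x ∈ P.O ∧ Q.f x = P.f x) (dis : ∀ g, ∀ x ∈ Q.O, X.ρ g x ∈ Q.O → g ∈ φ.range)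
    (cov : ∀ x ∈ P.Z, ∃ g, X.ρ g x ∈ Q.O) {l y} (hl : (Sb _ _).Rd l) (p : ℤ[X])
    (h : Dg (χ.comp φ) (cc _) r Q (pull (Vr.rH χ φ r (TT χ (cc χ) r V)).f l)
      ((Sb _ _).sm (ev (χ.comp φ) (cc _) r p) (pull (Vr.rH χ φ r X.ls.xr).f y))) :
    Dg χ (cc χ) r P l ((Sb _ _).sm
      (ev χ (cc χ) r ((∑ j ∈ Finset.range m, (Polynomial.X ^ Fintype.card Γ') ^ j) * p)) y) := by
  have e : (P.res φ (cc φ)).on Q.O = ⟨Q.O, P.f⟩ :=
    congrArg (fun U => (⟨U, P.f⟩ : PB (X.ls.res φ (cc φ)) (V.res φ (cc φ))))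
      (inter_eq_right.2 fun x a => (sub x a).1)
  have z : (⟨Q.O, P.f⟩ : PB _ (V.res φ (cc φ))).Z = Q.Z :=
    Set.ext fun x => and_congr_right fun a => by rw [(sub x a).2]
  have hU : ((P.res φ (cc φ)).on Q.O).Fr := e ▸ ⟨hQ.op, hQ.inv, hP.ct.mono fun x a => (sub x a).1,
    fun g x a => hP.eq (φ g) x (sub x a).1, z ▸ hQ.cp, z ▸ hQ.fr⟩
  have le : Q.Le ((P.res φ (cc φ)).on Q.O) :=
    ⟨fun x a => ⟨(sub x a).1, a⟩, fun x a => (sub x a).2, fun x a => a.1.2⟩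
  have := dtrf χ φ r m X V hχ hφ hm hd P Q.O hP hU dis cov (Vr.rH χ φ r X.ls.xr).f
    (Vr.rH χ φ r (TT χ (cc χ) r V)).f (fun _ _ => rfl) (fun _ _ => rfl) l
    ((Sb _ _).sm (ev χ (cc χ) r p) y) hl (Eq.mpr (congrArg (Dg _ _ r _ _)
      (((Vr.rH χ φ r X.ls.xr).pull_sm _ y).trans (by rw [Vr.pull_ev]; rfl)))
      (h.bd (PB.hb_le hU hQ hQ le (PB.Le.rfl' Q))))
  rw [← Orb.sm_mul] at this
  rw [map_mul, map_sum]
  simp only [← pow_mul, map_pow, ev, aeval_X]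
  exact this

/-- transfer for restrictions of circle representations to `C_h ⊆ C_q` -/
theorem trf1 {q h c r : ℕ} [NeZero q] [NeZero h] (e : q = h * c) {X V : Rep Circle}
    (hd : finrank ℝ X.W + 1 < finrank ℝ V.W + 2 * r) {χ : Ch h →* Circle} {hχ : Continuous χ}
    (e' : χ = (inc q).comp (Tr.ph e)) {P : PB (X.res (inc q) (inc_cont q)).ls (V.res _ (inc_cont q))}
    {Q : PB (X.res χ hχ).ls (V.res χ hχ)} (hP : P.Fr) (hQ : Q.Fr)
    (sub : ∀ x : X.W, x ∈ Q.O → x ∈ P.O ∧ Q.f x = P.f x)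
    (dis : ∀ (g : Ch q) (x : X.W), x ∈ Q.O → X.ρ (inc q g) x ∈ Q.O → ∃ b : ℕ, g.toAdd = b * c)
    (cov : ∀ x : X.W, x ∈ P.Z → ∃ g : Ch q, X.ρ (inc q g) x ∈ Q.O)
    {E1 E2 : Type} [TopologicalSpace E1] [TopologicalSpace E2] {lS : KX E1} {lT : KX E2}
    {G1 : C((Sb (Sp (inc q) (inc_cont q) r) (X.res _ (inc_cont q)).ls.xr).E, E1)}
    {G1' : C((Sb (Sp χ hχ r) (X.res χ hχ).ls.xr).E, E1)}
    {G2 : C((Sb (Sp (inc q) (inc_cont q) r) (TT _ (inc_cont q) r (V.res _ (inc_cont q)))).E, E2)}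
    {G2' : C((Sb (Sp χ hχ r) (TT χ hχ r (V.res χ hχ))).E, E2)}
    (h1 : ∀ y w, G1' (pt _ _ y w) = G1 (pt _ _ y w)) (h2 : ∀ y w, G2' (pt _ _ y w) = G2 (pt _ _ y w))
    (hl : (Sb _ _).Rd (pull G2 lT)) (p : ℤ[X])
    (H : Dg χ hχ r Q (pull G2' lT) ((Sb _ _).sm (ev χ hχ r p) (pull G1' lS))) :
    Dg (inc q) (inc_cont q) r P (pull G2 lT) ((Sb _ _).sm (ev _ (inc_cont q) r
      ((∑ j ∈ Finset.range c, (Polynomial.X ^ h) ^ j) * p)) (pull G1 lS)) := by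
  subst e'
  have a1 := pull_pull (Vr.rH (inc q) (Tr.ph e) r (X.res _ (inc_cont q)).ls.xr).f G1 G1'
    (fun z => by obtain ⟨y, w, rfl⟩ := pt_surj z; exact (h1 y w).symm) lS
  have a2 := pull_pull (Vr.rH (inc q) (Tr.ph e) r (TT _ (inc_cont q) r (V.res _ (inc_cont q)))).f G2 G2'
    (fun z => by obtain ⟨y, w, rfl⟩ := pt_surj z; exact (h2 y w).symm) lT
  have k : Fintype.card (Ch h) = h := by rw [Fintype.card_multiplicative, ZMod.card]
  have := trf0 (χ := inc q) (φ := ph e) (r := r) (m := c) (X := X.res _ (inc_cont q))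
    (V := V.res _ (inc_cont q)) (inc_inj q) (ph_inj e)
    (by rw [k, Fintype.card_multiplicative, ZMod.card, e]) hd (P := P) (Q := Q) hP hQ sub
    (fun g x a b => (mem_ph e g).2 (dis g x a b)) cov (y := pull G1 lS) hl p
    (Eq.mpr (congrArg₂ (fun a b => Dg _ hχ r Q a ((Sb _ _).sm _ b)) a2 a1) H)
  rwa [k] at this

theorem iS_trf (h c : ℕ) (p : ℤ[X]) :
    iS ((∑ j ∈ Finset.range c, (Polynomial.X ^ h) ^ j) * p) = N (L ^ h) c * iS p := by
  simp only [map_mul, map_sum, map_pow, iS, aeval_X, N]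

/-- **the field `trf`** -/
theorem trf {B : Type} [NormedAddCommGroup B] [NormedSpace ℝ B] [FiniteDimensional ℝ B]
    [LocallyCompactSpace B] {q : ℕ} [NeZero q] {E : Type} [NormedAddCommGroup E] [NormedSpace ℂ E]
    [FiniteDimensional ℂ E] (hB : finrank ℝ B = 11) (o : OC B q E) : TRF o := by
  rintro h c _ e P Q _ hP hQ sub dis cov - ⟨p, rfl, H⟩
  have hd : finrank ℝ (B × (ZMod q → E)) + 1 < finrank ℝ (ZMod q → E) + 2 * 7 := by
    rw [finrank_prod, hB]; omega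
  have a : ∀ (g : Ch q) (x : B × (ZMod q → E)),
      ((Rep.triv Circle B).prod (cir q E)).ρ (inc q g) x = (x.1, sh g.toAdd x.2) :=
    fun g x => Prod.ext rfl (reg_apply g x.2)
  exact ⟨_, (iS_trf h c p).symm, trf1 e (X := (Rep.triv Circle B).prod (cir q E)) (V := cir q E) hd
    (inc_ph e) (P := P) (Q := Q) hP hQ sub (fun g x u v => dis x g.toAdd u (a g x ▸ v))
    (fun x u => (cov x u).elim fun g v => ⟨.ofAdd g, (a (.ofAdd g) x).symm ▸ v⟩)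
    (G1 := (gH (inc q) (XC B q E).xr).f) (G1' := (gH (inc h) (XC B q E).xr).f)
    (G2 := (gH (inc q) (TC q E)).f) (G2' := (gH (inc h) (TC q E)).f) (fun _ _ => rfl)
    (fun _ _ => rfl) (Orb.pull_rd (gH (inc q) (TC q E)) o.tT.1) p H⟩

end Crest.Agent.N218.D7

end
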