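import Crest.Agent.N218.D7.St2
import Crest.Agent.N218.In.Kit
import Crest.Agent.N218.In.Emb
import Crest.Agent.N218.Pm.Kit1
import Crest.Agent.N218.K.Ai

/-!
# Row 218, block D7 (helper75): from the flat loop problem to the tube
-/

set_option autoImplicit false
set_option linter.unusedVariables false

open Set Module unitInterval

noncomputable section

namespace Crest.Agent.N218.D7

open Pm In K

/-- the axis of the tube -/
abbrev R10 : Type := EuclideanSpace ℝ (Fin 10)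

theorem ann_cpt (R : ℝ) : IsCompact {w : ℂ | w ≠ 0 ∧ |Real.log ‖w‖| ≤ R} := by
  have : {w : ℂ | w ≠ 0 ∧ |Real.log ‖w‖| ≤ R} =
      Metric.closedBall 0 (Real.exp R) ∩ {w | Real.exp (-R) ≤ ‖w‖} := by
    ext w
    simp only [mem_ofPred_eq, mem_inter_iff, mem_closedBall_zero_iff, abs_le]
    refine ⟨fun ⟨h, a, b⟩ => ?_, fun ⟨a, b⟩ => ?_⟩
    · have p := norm_pos_iff.2 h
      exact ⟨(Real.log_le_iff_le_exp p).1 b, (Real.le_log_iff_exp_le p).1 a⟩
    · have p : 0 < ‖w‖ := (Real.exp_pos _).trans_le b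
      exact ⟨norm_pos_iff.1 p, (Real.le_log_iff_exp_le p).2 b, (Real.log_le_iff_le_exp p).2 a⟩
  rw [this]
  exact (isCompact_closedBall _ _).inter_right (isClosed_le continuous_const continuous_norm)

theorem cp_emb {Y B C : Type} [TopologicalSpace Y] [T2Space Y] [TopologicalSpace B] [T2Space B]
    [TopologicalSpace C] [T1Space C] [Zero C] {Ω : Set B} {π : B → Y} {n : B → C}
    (cπ : ContinuousOn π Ω) (cn : ContinuousOn n Ω) {K : Set Y} (hK : IsCompact K) {L : Set B}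
    (hL : IsCompact L) (s : L ⊆ Ω) (h : ∀ p ∈ Ω, n p = 0 → π p ∈ K → p ∈ L) :
    IsCompact {p ∈ Ω | n p = 0 ∧ π p ∈ K} := by
  have : {p ∈ Ω | n p = 0 ∧ π p ∈ K} = L ∩ (fun p => (n p, π p)) ⁻¹' ({0} ×ˢ K) := by
    ext p; exact ⟨fun a => ⟨h p a.1 a.2.1 a.2.2, a.2⟩, fun a => ⟨s a.1, a.2⟩⟩
  rw [this]
  exact hL.of_isClosed_subset (((cn.prodMk cπ).mono s).preimage_isClosed_of_isClosed hL.isClosed
    (isClosed_singleton.prod hK.isClosed)) inter_subset_left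

variable (ψ : (R10 × ℝ) ≃L[ℝ] R11)

theorem bd_K {K : Set (R11 × UnitAddCircle)} (hK : IsCompact K) :
    ∃ R, ∀ x a, (ψ x, a) ∈ K → ‖x.1‖ ≤ R ∧ |x.2| ≤ R := by
  obtain ⟨R, hR⟩ := (hK.image (ψ.symm.continuous.comp continuous_fst)).isBounded.exists_norm_le
  refine ⟨R, fun x a m => ?_⟩
  have := hR x ⟨_, m, ψ.symm_apply_apply x⟩
  exact ⟨(norm_fst_le x).trans this, (norm_snd_le x).trans this⟩

/-- the tube around the circle -/
def eT : Emb (R11 × UnitAddCircle) (R10 × ℂ) Unit where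
  Ω := {p | p.2 ≠ 0}
  π p := (ψ (p.1, Real.log ‖p.2‖), ang p.2)
  n _ := 0
  op := isOpen_ne.preimage continuous_snd
  cπ := (ψ.continuous.comp_continuousOn (continuousOn_fst.prodMk
    (log_on.comp continuousOn_snd fun _ h => h))).prodMk (ang_on.comp continuousOn_snd fun _ h => h)
  cn := continuousOn_const
  cp K hK := by
    obtain ⟨R, hR⟩ := bd_K ψ hK
    exact cp_emb ((ψ.continuous.comp_continuousOn (continuousOn_fst.prodMk
      (log_on.comp continuousOn_snd fun _ h => h))).prodMk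
      (ang_on.comp continuousOn_snd fun _ h => h)) continuousOn_const hK
      ((isCompact_closedBall 0 R).prod (ann_cpt R)) (fun p m => m.2.1) fun p o _ m =>
        ⟨mem_closedBall_zero_iff.2 (hR _ _ m).1, o, (hR _ _ m).2⟩

theorem c_pi : ContinuousOn (fun p : ((R11 × ℝ) × ℂ) × I => (ψ ((ψ.symm p.1.1.1).1,
    (1 - (p.2 : ℝ)) * (ψ.symm p.1.1.1).2 + p.2 * Real.log ‖p.1.2‖), ang p.1.2))
    {p | p.1.2 ≠ 0} :=
  (ψ.continuous.comp_continuousOn (Continuous.continuousOn (by fun_prop) |>.prodMk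
    (ContinuousOn.add (Continuous.continuousOn (by fun_prop)) (ContinuousOn.mul
      (Continuous.continuousOn (by fun_prop))
      (log_on.comp continuous_fst.snd.continuousOn fun _ h => h))))).prodMk
    (ang_on.comp continuous_fst.snd.continuousOn fun _ h => h)

theorem c_n : ContinuousOn (fun p : ((R11 × ℝ) × ℂ) × I => (p.1.1.2,
    (1 - (p.2 : ℝ)) * Real.log ‖p.1.2‖ - p.2 * (ψ.symm p.1.1.1).2)) {p | p.1.2 ≠ 0} :=
  Continuous.continuousOn (by fun_prop) |>.prodMk (ContinuousOn.sub (ContinuousOn.mul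
    (Continuous.continuousOn (by fun_prop))
    (log_on.comp continuous_fst.snd.continuousOn fun _ h => h))
    (Continuous.continuousOn (by fun_prop)))

theorem rot_bd {t s l R : ℝ} (t0 : 0 ≤ t) (t1 : t ≤ 1) (e : (1 - t) * l - t * s = 0)
    (h : |(1 - t) * s + t * l| ≤ R) : |s| ≤ 2 * R ∧ |l| ≤ 2 * R := by
  obtain ⟨a, b⟩ := abs_le.1 h
  have d : 1 / 2 ≤ (1 - t) ^ 2 + t ^ 2 := by nlinarith [sq_nonneg (1 - 2 * t)]
  have e1 : ((1 - t) ^ 2 + t ^ 2) * s = (1 - t) * ((1 - t) * s + t * l) := by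
    linear_combination -t * e
  have e2 : ((1 - t) ^ 2 + t ^ 2) * l = t * ((1 - t) * s + t * l) := by
    linear_combination (1 - t) * e
  have R0 : 0 ≤ R := (abs_nonneg _).trans h
  generalize (1 - t) * s + t * l = c at *
  generalize (1 - t) ^ 2 + t ^ 2 = D at *
  refine ⟨abs_le.2 ⟨?_, ?_⟩, abs_le.2 ⟨?_, ?_⟩⟩ <;> by_contra k <;> push Not at k <;> nlinarith

/-- turning the plane of the last base coordinate and the radius -/
def eR : Emb (R11 × UnitAddCircle) (((R11 × ℝ) × ℂ) × I) (ℝ × ℝ) where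
  Ω := {p | p.1.2 ≠ 0}
  π p := (ψ ((ψ.symm p.1.1.1).1,
    (1 - (p.2 : ℝ)) * (ψ.symm p.1.1.1).2 + p.2 * Real.log ‖p.1.2‖), ang p.1.2)
  n p := (p.1.1.2, (1 - (p.2 : ℝ)) * Real.log ‖p.1.2‖ - p.2 * (ψ.symm p.1.1.1).2)
  op := isOpen_ne.preimage continuous_fst.snd
  cπ := c_pi ψ
  cn := c_n ψ
  cp K hK := by
    obtain ⟨R, hR⟩ := bd_K ψ hK
    refine cp_emb (c_pi ψ) (c_n ψ) hK (((((isCompact_closedBall 0 R).prod
      (isCompact_closedBall 0 (2 * R))).image ψ.continuous).prod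
        (isCompact_singleton (x := (0 : ℝ)))).prod (ann_cpt (2 * R)) |>.prod isCompact_univ)
      (fun p m => m.1.2.1) fun p o z m => ?_
    have a := hR _ _ m
    have b := rot_bd p.2.2.1 p.2.2.2 (congrArg Prod.snd z) a.2
    exact ⟨⟨⟨⟨ψ.symm p.1.1.1, ⟨mem_closedBall_zero_iff.2 a.1, mem_closedBall_zero_iff.2 b.1⟩,
      ψ.apply_symm_apply _⟩, congrArg Prod.fst z⟩, o, b.2⟩, trivial⟩

variable {k : ℕ} {E : Type} [NormedAddCommGroup E] [NormedSpace ℝ E] [FiniteDimensional ℝ E]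

/-- the tube problem -/
def tube (P : Pb (R11 × UnitAddCircle) k E) : PB (XX (R10 × ℂ) k E).ls (Rr k E) :=
  ⟨{z : (R10 × ℂ) × V k E | z.1.2 ≠ 0 ∧ ((ψ (z.1.1, Real.log ‖z.1.2‖), ang z.1.2), z.2) ∈ P.O},
    fun z : (R10 × ℂ) × V k E => P.h ((ψ (z.1.1, Real.log ‖z.1.2‖), ang z.1.2), z.2)⟩

variable {P : Pb (R11 × UnitAddCircle) k E}

theorem tube_fr (h : P.Ok) : (tube ψ P).Fr := by
  obtain ⟨a, b, c⟩ := (eT ψ).core h
  refine ⟨a, fun g z u => ⟨u.1, (ok_act h g.toAdd _ _ u.2).1⟩, b.snd,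
    fun g z u => (ok_act h g.toAdd _ _ u.2).2, Eq.subst (motive := IsCompact) ?_ c,
    fun z u => mem_fr (h.fr _ u.1.2)⟩
  ext z
  exact ⟨fun u => ⟨u.1, congrArg Prod.snd u.2⟩, fun u => ⟨u.1, Prod.ext rfl u.2⟩⟩

theorem adm_tube : Adm 12 (XX (R10 × ℂ) k E) (Rr k E) :=
  let e : (R10 × ℂ) ≃L[ℝ] (Fin 12 → ℝ) := ContinuousLinearEquiv.ofFinrankEq (by simp)
  ⟨⟨e.prodCongr (.refl ℝ (V k E)), fun _ _ => rfl⟩⟩

theorem adm_flat : Adm 12 (XX ((R11 × ℝ) × ℂ) k E) (XX (ℝ × ℝ) k E) := adm (by simp) k E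

variable (k E) in
/-- the source of the flat problem -/
def isoS : (XX ((R11 × ℝ) × ℂ) k E).ls.Iso
    ((XX (R10 × ℂ) k E).prod (Rep.triv (Gk k) (ℝ × ℝ))).ls where
  e := show (((R11 × ℝ) × ℂ) × V k E) ≃ₜ (((R10 × ℂ) × V k E) × (ℝ × ℝ)) from
    { toFun z := ((((ψ.symm z.1.1.1).1, z.1.2), z.2), (z.1.1.2, -(ψ.symm z.1.1.1).2))
      invFun z := (((ψ (z.1.1.1, -z.2.2), z.2.1), z.1.1.2), z.1.2)
      left_inv z := by simp
      right_inv z := by simp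
      continuous_toFun := by fun_prop
      continuous_invFun := by fun_prop }
  eq _ _ := rfl

variable (k E) in
/-- the target of the flat problem -/
def isoT : ((Rr k E).prod (Rep.triv (Gk k) (ℝ × ℝ))).Iso (XX (ℝ × ℝ) k E) :=
  ⟨ContinuousLinearEquiv.prodComm ℝ (V k E) (ℝ × ℝ), fun _ _ => rfl⟩

theorem flat_bd (h : P.Ok) :
    (flat P).Bd (((tube ψ P).st (Rep.triv (Gk k) (ℝ × ℝ))).iso (isoS ψ k E) (isoT k E)) := by
  obtain ⟨a, b, c⟩ := (eR ψ).core h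
  let s : ((((R11 × ℝ) × ℂ) × V k E) × I) ≃ₜ ((((R11 × ℝ) × ℂ) × I) × V k E) :=
    ⟨⟨fun z => ((z.1.1, z.2), z.1.2), fun z => ((z.1.1, z.2), z.1.2), fun _ => rfl, fun _ => rfl⟩,
      by fun_prop, by fun_prop⟩
  have H := PB.fam_ok (X := (XX ((R11 × ℝ) × ℂ) k E).ls) (V := XX (ℝ × ℝ) k E)
    (S := (XX ((R11 × ℝ) × ℂ) k E).ls.fr) (a.preimage s.continuous)
    (fun g z t u => ⟨u.1, (ok_act h g.toAdd _ _ u.2).1⟩) (b.comp s.continuous.continuousOn
      fun _ u => u) (fun g z t u => Prod.ext rfl (ok_act h g.toAdd _ _ u.2).2)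
    (s.isClosedEmbedding.isCompact_preimage c) fun z t u _ => mem_fr (h.fr _ u.2)
  have := H.hb_sl
  convert this using 1
  · refine congrArg₂ PB.mk (Set.ext fun z => ?_) (funext fun z => ?_)
    · change _ ↔ (_ ∧ ((ψ (_, (1 - ((0 : I) : ℝ)) * _ + ((0 : I) : ℝ) * _), _), _) ∈ _)
      simp only [Icc.coe_zero, sub_zero, one_mul, zero_mul, add_zero, Prod.mk.eta,
        ψ.apply_symm_apply]
      rfl
    · change _ = ((_, (1 - ((0 : I) : ℝ)) * _ - ((0 : I) : ℝ) * _),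
        P.h ((ψ (_, (1 - ((0 : I) : ℝ)) * _ + ((0 : I) : ℝ) * _), _), _))
      simp only [Icc.coe_zero, sub_zero, one_mul, zero_mul, add_zero, Prod.mk.eta,
        ψ.apply_symm_apply]
      rfl
  · refine congrArg₂ PB.mk (Set.ext fun z => ?_) (funext fun z => ?_)
    · change _ ↔ (_ ∧ ((ψ (_, (1 - ((1 : I) : ℝ)) * _ + ((1 : I) : ℝ) * _), _), _) ∈ _)
      simp only [Icc.coe_one, sub_self, one_mul, zero_mul, zero_add]
      exact ⟨fun u => u.1, fun u => ⟨u, trivial⟩⟩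
    · change _ = ((_, (1 - ((1 : I) : ℝ)) * _ - ((1 : I) : ℝ) * _),
        P.h ((ψ (_, (1 - ((1 : I) : ℝ)) * _ + ((1 : I) : ℝ) * _), _), _))
      simp only [Icc.coe_one, sub_self, one_mul, zero_mul, zero_add, zero_sub]
      rfl

theorem flat_zero (J : AI 12) (hk : 16 ≤ k) (h : P.Ok)
    (z : J.ν (ck k) (XX (R10 × ℂ) k E) (Rr k E) (tube ψ P) = 0) :
    J.ν (ck k) (XX ((R11 × ℝ) × ℂ) k E) (XX (ℝ × ℝ) k E) (flat P) = 0 := by
  obtain ⟨s, hs⟩ := J.stb (ck k) _ _ (Rep.triv (Gk k) (ℝ × ℝ)) (gq hk) (adm_tube (E := E))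
  obtain ⟨s', hs'⟩ := J.iso (ck k) _ _ _ _ (gq hk) (Ai.adm_st (adm_tube (E := E)) _) adm_flat
    (isoS ψ k E) (isoT k E)
  rw [J.bd (ck k) _ _ (gq hk) adm_flat _ _ (flat_bd ψ h), hs' _ (Ai.fr_st (tube_fr ψ h) _),
    hs _ (tube_fr ψ h), z, smul_zero, smul_zero]

end Crest.Agent.N218.D7

end
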