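import Crest.Agent.N218.D7.Ol
import Crest.Agent.N218.D7.Tub
import Crest.Agent.N218.D7.OrbG
import Crest.Agent.N218.D7.Dt
import Crest.Agent.N218.D7.Trf
import Crest.Agent.N218.D7.Oc
import Crest.Agent.N218.K.Kln
import Crest.Agent.N218.Th.Fin

/-!
# Row 218, block D7 (helper75): the flat orbit loop has invariant zero
-/

set_option autoImplicit false
set_option linter.unusedVariables false

open Set Module

noncomputable section

namespace Crest.Agent.N218.D7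

open Pm In K

/-- the field `ext` for the base that is used -/
def EXA : Prop := ∀ (k : ℕ) (E : Type) [NormedAddCommGroup E] [NormedSpace ℂ E]
  [FiniteDimensional ℂ E] (o : OC (R10 × ℝ) (2 ^ (k + 1)) E), OK o → UT _ _ o.lS → UT _ _ o.lT → EXT o

theorem ex_psi : ∃ ψ : (R10 × ℝ) ≃L[ℝ] R11, ∀ x, ‖x‖ ≤ ‖ψ x‖ := by
  let ψ : (R10 × ℝ) ≃L[ℝ] R11 := .ofFinrankEq (by simp)
  obtain ⟨C, c, h⟩ := (ψ.symm : R11 →L[ℝ] R10 × ℝ).bound
  refine ⟨(LinearEquiv.smulOfNeZero ℝ _ C c.ne').toContinuousLinearEquiv.trans ψ, fun x => ?_⟩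
  have := h (ψ x)
  change ‖x‖ ≤ ‖ψ (C • x)‖
  rw [map_smul, norm_smul, Real.norm_of_nonneg c.le]
  simpa using this

variable (k : ℕ) (E : Type) [NormedAddCommGroup E] [NormedSpace ℂ E] [FiniteDimensional ℂ E]

/-- the two models of the target -/
def isoV : ((Fo.cir (2 ^ (k + 1)) E).res (ck k) (cc _)).Iso (Rr k E) :=
  ⟨.refl ℝ (V k E), fun g y => Fo.reg_apply g y⟩

/-- the two models of the source -/
def isoX : (XX (R10 × ℂ) k E).ls.Iso ((Orb.XT R10 (2 ^ (k + 1)) E).res (ck k) (cc _)).ls where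
  e := .refl ((R10 × ℂ) × V k E)
  eq g x := by
    obtain ⟨⟨b, w⟩, y⟩ : (R10 × ℂ) × V k E := x
    refine Prod.ext (Prod.ext rfl ?_) (Fo.reg_apply g y).symm
    change w = ((Orb.cq (2 ^ (k + 1)) (ck k g) : Circle) : ℂ) * w
    rw [show Orb.cq (2 ^ (k + 1)) (ck k g) = 1 from
      ((Orb.odT R10 (2 ^ (k + 1)) E).hr _).2 ⟨g, rfl⟩, Circle.coe_one, one_mul]

variable {k E}

theorem rt_g (w : ℂ) (y : V k E) : (Fo.cir (2 ^ (k + 1)) E).ρ (Orb.rt (2 ^ (k + 1)) w) y =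
    Fo.g (-(w.arg / (2 * Real.pi))) y := by
  rw [← Fo.cir_exp, Orb.rt]
  congr 3
  field_simp

theorem rt_g' (w : ℂ) (y : V k E) : (Fo.cir (2 ^ (k + 1)) E).ρ (Orb.rt (2 ^ (k + 1)) w)⁻¹ y =
    Fo.g (w.arg / (2 * Real.pi)) y := by
  rw [← Fo.cir_exp, Orb.rt, ← Circle.exp_neg]
  congr 3
  field_simp

theorem tube_eq (ψ : (R10 × ℝ) ≃L[ℝ] R11) (δ : ℝ) (v : R11 × E → E) :
    (Orb.tube (zP ((2 ^ k : ℕ) : Ix k) (t0 k δ) fun z : (R10 × ℝ) × E => v (ψ z.1, z.2))).iso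
      (isoX k E) (isoV k E) = tube ψ (OL k v δ) := by
  refine Ai.pb_ext (Set.ext fun z : (R10 × ℂ) × V k E => and_congr_right fun _ => ?_)
    (funext fun z : (R10 × ℂ) × V k E => ?_)
  · change D7.mn (ht k) ((Fo.cir (2 ^ (k + 1)) E).ρ (Orb.rt (2 ^ (k + 1)) z.1.2) z.2) ≠ 0 ↔
      Pm.mn z.2 ≠ 0
    rw [rt_g, mn_pm, mn_g_ne]
  · refine Eq.trans ?_ (ol_coe (ψ (z.1.1, Real.log ‖z.1.2‖)) (z.1.2.arg / (2 * Real.pi)) z.2).symm
    exact (rt_g' z.1.2 (N0 k δ v (ψ (z.1.1, Real.log ‖z.1.2‖),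
      (Fo.cir (2 ^ (k + 1)) E).ρ (Orb.rt (2 ^ (k + 1)) z.1.2) z.2))).trans (by rw [rt_g])

theorem orbj (hD : DSUM) (hE : EXA) : ORBJ := by
  intro J hJ E _ _ _ k δ v hk hd hv
  obtain ⟨ψ, hψ⟩ := ex_psi
  have hB : finrank ℝ (R10 × ℝ) = 11 := by simp
  have h10 : finrank ℝ R10 = 10 := by simp
  obtain ⟨o, ok, u, u'⟩ := exists_oc' (R10 × ℝ) (2 ^ (k + 1)) E thom hB
  have nf : NF (fun z : (R10 × ℝ) × E => v (ψ z.1, z.2)) (4 * δ) :=
    ⟨hv.ct.comp (by fun_prop), fun x => hv.sm (ψ x), fun x y h => hv.far (ψ x) y (h.trans (hψ x)),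
      fun c => (hv.pr c).imp fun R h x => h (ψ x)⟩
  obtain ⟨f, d, -, dd, g⟩ := core _ k E (dt kln hD hB o ok (trf hB o) (hE k E o ok u u')) (t0 k δ) _ δ
    _ (by omega) (by omega) hd le_rfl nf (t0_cu hd) t0_sh
  have z := Orb.orbG thom kln hJ h10 ⟨k + 1, by omega, rfl⟩ o ok.dv dd g
  obtain ⟨s, hs⟩ := J.iso (ck k) _ _ _ _ (gq hk) (Orb.adm_tube h10) adm_tube (isoX k E) (isoV k E)
  refine flat_zero ψ J hk (hv.ok hd) ?_
  rw [← tube_eq, hs _ (Orb.tube_fr f)]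
  exact (congrArg (s • ·) z).trans (smul_zero s)

end Crest.Agent.N218.D7

end
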