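import Crest.Agent.N218.D7.St

/-!
# Row 218, block D7 (helper17): the groupoid of pointed homotopies
-/

set_option autoImplicit false

open Set OnePoint unitInterval

noncomputable section

namespace Crest.Agent.N218.D7

namespace PT
variable {B B' E : Type} [TopologicalSpace B] [TopologicalSpace B'] [TopologicalSpace E]

theorem ext' {a b : PT B E} (h : ∀ x y, a.f (x, y) = b.f (x, y)) : a = b := by
  obtain ⟨f, _, _⟩ := a
  obtain ⟨g, _, _⟩ := b
  have : f = g := funext fun z => h z.1 z.2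
  subst this; rfl

/-- fibrewise composition -/
def comp (a b : PT B E) : PT B E :=
  ⟨fun z => a.f (z.1, b.f z), a.ct.comp (continuous_fst.prodMk b.ct), fun x => by
    simp only [b.pt, a.pt]⟩

@[simp] theorem comp_f (a b : PT B E) (x : B) (y : OnePoint E) :
    (a.comp b).f (x, y) = a.f (x, b.f (x, y)) := rfl
@[simp] theorem one_f (x : B) (y : OnePoint E) : (one : PT B E).f (x, y) = y := rfl
@[simp] theorem pull_f (a : PT B E) (φ : B' → B) (h : Continuous φ) (x : B') (y : OnePoint E) :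
    (a.pull φ h).f (x, y) = a.f (φ x, y) := rfl
@[simp] theorem at'_f (a : PT B E) (x : B) (u : Unit) (y : OnePoint E) :
    (a.at' x).f (u, y) = a.f (x, y) := rfl

theorem Ht.of_eq {a b : PT B E} (h : ∀ x y, a.f (x, y) = b.f (x, y)) : a.Ht b :=
  ext' h ▸ Ht.rfl' a

theorem Ht.symm {a b : PT B E} (h : a.Ht b) : b.Ht a := by
  obtain ⟨H, h0, h1⟩ := h
  refine ⟨H.pull (fun z => (z.1, σ z.2)) (by fun_prop), fun x y => ?_, fun x y => ?_⟩
  · simp [h1]
  · simp [h0]

theorem Ht.trans {a b c : PT B E} (h : a.Ht b) (h' : b.Ht c) : a.Ht c := by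
  obtain ⟨H, h0, h1⟩ := h
  obtain ⟨K, k0, k1⟩ := h'
  have hc : Continuous (projIcc (0 : ℝ) 1 zero_le_one) := continuous_projIcc
  refine ⟨⟨fun z => if ((z.1.2 : I) : ℝ) ≤ 1 / 2 then
      H.f ((z.1.1, projIcc 0 1 zero_le_one (2 * (z.1.2 : ℝ))), z.2) else
      K.f ((z.1.1, projIcc 0 1 zero_le_one (2 * (z.1.2 : ℝ) - 1)), z.2), ?_, fun x => ?_⟩,
    fun x y => ?_, fun x y => ?_⟩
  · refine Continuous.if_le (H.ct.comp (by fun_prop)) (K.ct.comp (by fun_prop)) (by fun_prop)
      continuous_const fun z hz => ?_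
    have e1 : projIcc (0 : ℝ) 1 zero_le_one (2 * (z.1.2 : ℝ)) = 1 := by
      rw [hz]; exact projIcc_of_right_le _ (by norm_num)
    have e0 : projIcc (0 : ℝ) 1 zero_le_one (2 * (z.1.2 : ℝ) - 1) = 0 := by
      rw [hz]; exact projIcc_of_le_left _ (by norm_num)
    rw [e1, e0, h1, k0]
  · simp only [H.pt, K.pt, ite_self]
  · have e0 : projIcc (0 : ℝ) 1 zero_le_one 0 = 0 := projIcc_of_le_left _ le_rfl
    simp [e0, h0]
  · have e1 : projIcc (0 : ℝ) 1 zero_le_one (2 - 1) = 1 := projIcc_of_right_le _ (by norm_num)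
    have : ¬ ((1 : ℝ) ≤ 2⁻¹) := by norm_num
    simp [e1, k1, this]

theorem Ht.comp {a a' b b' : PT B E} (h : a.Ht a') (h' : b.Ht b') :
    (a.comp b).Ht (a'.comp b') := by
  obtain ⟨H, h0, h1⟩ := h
  obtain ⟨K, k0, k1⟩ := h'
  exact ⟨H.comp K, fun x y => by simp [h0, k0], fun x y => by simp [h1, k1]⟩

theorem Ht.pull {a a' : PT B E} (h : a.Ht a') (φ : B' → B) (hφ : Continuous φ) :
    (a.pull φ hφ).Ht (a'.pull φ hφ) := by
  obtain ⟨H, h0, h1⟩ := h
  exact ⟨H.pull (fun z => (φ z.1, z.2)) (by fun_prop), fun x y => by simp [h0],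
    fun x y => by simp [h1]⟩

/-- homotopic changes of base -/
theorem ht_pull (a : PT B E) (φ : B' × I → B) (hφ : Continuous φ) :
    (a.pull (fun x => φ (x, 0)) (by fun_prop)).Ht (a.pull (fun x => φ (x, 1)) (by fun_prop)) :=
  ⟨a.pull φ hφ, fun _ _ => rfl, fun _ _ => rfl⟩

/-- members along a path -/
theorem ht_at (a : PT B E) {x x' : B} (h : Joined x x') : (a.at' x).Ht (a.at' x') := by
  obtain ⟨γ⟩ := h
  exact ⟨a.pull (fun z => γ z.2) (by fun_prop), fun _ _ => by simp, fun _ _ => by simp⟩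

theorem Ht.at' {a a' : PT B E} (h : a.Ht a') (x : B) : (a.at' x).Ht (a'.at' x) :=
  h.pull _ continuous_const

end PT

theorem sx_joined (x x' : Sx) : Joined x x' := by
  have h : IsPathConnected (Metric.sphere (0 : EuclideanSpace ℝ (Fin 12)) 1) :=
    isPathConnected_sphere (by rw [← Module.finrank_eq_rank]; simp) _ zero_le_one
  haveI := isPathConnected_iff_pathConnectedSpace.1 h
  exact PathConnectedSpace.joined x x'

end Crest.Agent.N218.D7

end
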