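import Crest.Agent.N218.D7.Defs
import Crest.Agent.N218.Sk.Mid

/-!
# Row 218, block D7 (helper75): the K-free reduction to honest orbit loops (FROZEN statements, glue)
-/

set_option autoImplicit false
set_option linter.unusedVariables false

open Set OnePoint unitInterval
open scoped InnerProductSpace

noncomputable section

namespace Crest.Agent.N218.D7

open Pm

/-- the base sphere (`= Sk.S11`) -/
abbrev Sx : Type := Metric.sphere (0 : EuclideanSpace ℝ (Fin 12)) 1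

/-- families of pointed self-maps of `E⁺` -/
structure PT (B E : Type) [TopologicalSpace B] [TopologicalSpace E] where
  f : B × OnePoint E → OnePoint E
  ct : Continuous f
  pt : ∀ x, f (x, ∞) = ∞

namespace PT
variable {B B' E : Type} [TopologicalSpace B] [TopologicalSpace B'] [TopologicalSpace E]
/-- the identity -/
def one : PT B E := ⟨Prod.snd, continuous_snd, fun _ => rfl⟩
/-- change of base -/
def pull (a : PT B E) (φ : B' → B) (h : Continuous φ) : PT B' E :=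
  ⟨fun z => a.f (φ z.1, z.2), a.ct.comp ((h.comp continuous_fst).prodMk continuous_snd),
    fun _ => a.pt _⟩
/-- one member of the family -/
def at' (a : PT B E) (x : B) : PT Unit E := a.pull (fun _ => x) continuous_const
/-- pointed homotopies -/
def Ht (a a' : PT B E) : Prop := ∃ H : PT (B × I) E,
  (∀ x y, H.f ((x, 0), y) = a.f (x, y)) ∧ ∀ x y, H.f ((x, 1), y) = a'.f (x, y)
end PT

/-- the value of a finite point -/
def un {E : Type} [Zero E] (w : OnePoint E) : E := OnePoint.rec 0 (fun y => y) w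

section pl
variable {X E E₁ E₂ : Type} [TopologicalSpace X] [NormedAddCommGroup E] [NormedSpace ℂ E]

/-- the honest orbit loop `g_r (N v)' g_(-r)` -/
def OL (k : ℕ) (v : X × E → E) (δ : ℝ) : Pb (X × UnitAddCircle) k E :=
  ⟨{w | Pm.mn w.2 ≠ 0}, fun w => Fo.g (rep w.1.2)
    (nz (· + ((2 ^ k : ℕ) : Ix k)) (fun y => tau δ ((), y)) v (fun _ => w.1.1)
      (Fo.g (-rep w.1.2) w.2))⟩

/-- normal form over the sphere, supported near `-p` -/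
structure NS (v : Sx × E → E) (p : Sx) (a : ℝ) : Prop where
  ct : Continuous v
  sm : ∀ x y, ‖y‖ ≤ a → v (x, y) = y
  far : ∀ (x : Sx) y, -1 / 2 ≤ ⟪x.1, p.1⟫_ℝ → v (x, y) = y
  pr : ∀ c, ∃ R, ∀ x y, R ≤ ‖y‖ → c ≤ ‖v (x, y)‖

variable [NormedAddCommGroup E₁] [InnerProductSpace ℂ E₁] [NormedAddCommGroup E₂]
  [InnerProductSpace ℂ E₂]

/-- the loop `(g_r N a g_(-r) y, N b z)` with normal map `1` -/
def PL (k : ℕ) (a : PT X E₁) (b : PT X E₂) : PM (X × UnitAddCircle) k (E₁ × E₂) :=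
  ⟨{w | (∀ i, a.f (w.1.1, (Fo.g (-rep w.1.2) (s1 w.2) i : E₁)) ≠ ∞) ∧
      ∀ i, b.f (w.1.1, (s2 w.2 i : E₂)) ≠ ∞},
    fun w => pr (Fo.g (rep w.1.2) fun i => un (a.f (w.1.1, (Fo.g (-rep w.1.2) (s1 w.2) i : E₁))))
      fun i => un (b.f (w.1.1, (s2 w.2 i : E₂))), fun _ => 1⟩

/-- data of the end: constant projections, `j` identifies their ranges -/
structure En (D : Data X E₁ E₂) (j : E₁ →L[ℂ] E₂) (j' : E₂ →L[ℂ] E₁) : Prop where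
  p₁ : ∀ x y, D.π₁ x y = j' (j y)
  p₂ : ∀ x z, D.π₂ x z = j (j' z)
  jj : ∀ y, j (j' (j y)) = j y
  jj' : ∀ z, j' (j (j' z)) = j' z

/-- `a y = (1 - π₁) y - j' v (π₁ y)` -/
def IsA (D : Data X E₁ E₂) (j' : E₂ →L[ℂ] E₁) (a : PT X E₁) : Prop :=
  ∀ x (y : E₁), ((x, D.π₁ x y) ∈ D.Ov →
    a.f (x, y) = ((y - D.π₁ x y - j' (D.v (x, D.π₁ x y)) : E₁) : OnePoint E₁)) ∧
    ((x, D.π₁ x y) ∉ D.Ov → a.f (x, y) = ∞)
/-- `b z = (1 - π₂) z + j u z` -/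
def IsB (D : Data X E₁ E₂) (j : E₁ →L[ℂ] E₂) (b : PT X E₂) : Prop :=
  ∀ x (z : E₂), b.f (x, z) = ((z - D.π₂ x z + j (D.u (x, z)) : E₂) : OnePoint E₂)

/-- change of the real coordinates of the second slot -/
def rf (D : Data X E₁ E₂) (ρ : E₂ → E₂) : Data X E₁ E₂ :=
  { D with
    u := fun w => D.u (w.1, ρ w.2)
    v := fun w => ρ (D.v w)
    O₂ := {w | (w.1, ρ w.2) ∈ D.O₂}
    h₂ := fun w => ρ (D.h₂ (w.1, ρ w.2)) }
end pl

set_option hygiene false in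
/-- quantify over an invariant and two spaces -/
local macro "∀T " X:term ", " t:term : term =>
  `(∀ (A : Type) [AddCommGroup A] (T : Th $X A) (E₁ E₂ : Type) [NormedAddCommGroup E₁]
    [InnerProductSpace ℂ E₁] [FiniteDimensional ℂ E₁] [NormedAddCommGroup E₂]
    [InnerProductSpace ℂ E₂] [FiniteDimensional ℂ E₂] (k : ℕ) (δ : ℝ), 16 ≤ k → 0 < δ → $t)

/-- homotopy invariance -/
def PLH : Prop := ∀T Sx, ∀ (a a' : PT Sx E₁) (b b' : PT Sx E₂), a.Ht a' → b.Ht b' →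
  (PL k a b).Ok ∧ ((PL k a b).F (tau δ)).Ok ∧ T.an k (sp (E₁ × E₂)) ((PL k a b).F (tau δ)) =
    T.an k (sp (E₁ × E₂)) ((PL k a' b').F (tau δ))
/-- uncoupling the rest and rotating the two slots -/
def ROT : Prop := ∀T Sx, ∀ (D : Data Sx E₁ E₂) c κ R₀ M j j', D.Ok c κ R₀ M → En D j j' →
  ∃ a b, IsA D j' a ∧ IsB D j b ∧ T.an k (sp (E₁ × E₂)) ((D.Orb k).F (tau δ)) =
    T.an k (sp (E₁ × E₂)) ((PL k a b).F (tau δ))
/-- real isometries of the second slot -/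
def RFL : Prop := ∀T Sx, ∀ (D : Data Sx E₁ E₂) c κ R₀ M j j' (ρ : E₂ ≃ₗᵢ[ℝ] E₂), D.Ok c κ R₀ M →
  En D j j' → (∀ z, ρ (ρ z) = z) → (∀ z, ρ (j (j' z)) = j (j' (ρ z))) →
  (∀ z, j' z = 0 → ρ z = z) → ((D.Y k).F (tau δ)).Ok →
  (rf D ρ).Ok c κ R₀ M ∧ Pe (T.pa k (sp (E₁ × E₂)) (((rf D ρ).Y k).F (tau δ)))
    (T.pa k (sp (E₁ × E₂)) ((D.Y k).F (tau δ)))
/-- degree one after a reflection -/
def DEG : Prop := ∀ (E₁ E₂ : Type) [NormedAddCommGroup E₁] [InnerProductSpace ℂ E₁]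
  [FiniteDimensional ℂ E₁] [NormedAddCommGroup E₂] [InnerProductSpace ℂ E₂]
  [FiniteDimensional ℂ E₂] (D : Data Sx E₁ E₂) c κ R₀ M j j' (x : Sx), D.Ok c κ R₀ M →
  En D j j' → j' ≠ 0 → ∃ ρ : E₂ ≃ₗᵢ[ℝ] E₂, (∀ z, ρ (ρ z) = z) ∧
    (∀ z, ρ (j (j' z)) = j (j' (ρ z))) ∧ (∀ z, j' z = 0 → ρ z = z) ∧ ∀ a b, IsA (rf D ρ) j' a →
    IsB (rf D ρ) j b → (a.at' x).Ht PT.one ∧ (b.at' x).Ht PT.one
/-- the two unstable spaces have the same dimension -/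
def DIM : Prop := ∀ (E₁ E₂ : Type) [NormedAddCommGroup E₁] [InnerProductSpace ℂ E₁]
  [FiniteDimensional ℂ E₁] [NormedAddCommGroup E₂] [InnerProductSpace ℂ E₂]
  [FiniteDimensional ℂ E₂] (D : Data Sx E₁ E₂) c κ R₀ M, D.Ok c κ R₀ M →
  (∀ x x', D.π₁ x = D.π₁ x') → (∀ x x', D.π₂ x = D.π₂ x') → ∃ j j', En D j j'
/-- no unstable directions -/
def ZER : Prop := ∀T Sx, ∀ (D : Data Sx E₁ E₂) c κ R₀ M j, D.Ok c κ R₀ M → En D j 0 →
  ((D.Orb k).F (tau δ)).Ok → T.an k (sp (E₁ × E₂)) ((D.Orb k).F (tau δ)) = 0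
/-- localising a family near `-p` -/
def LOC : Prop := ∀ (E : Type) [TopologicalSpace E] (a : PT Sx E) (p x₀ : Sx),
  (a.at' x₀).Ht PT.one → ∃ a', a.Ht a' ∧ ∀ (x : Sx) y, -1 / 2 ≤ ⟪x.1, p.1⟫_ℝ → a'.f (x, y) = y
/-- separated supports -/
def SEP : Prop := ∀T Sx, ∀ (a : PT Sx E₁) (b : PT Sx E₂) (p : Sx),
  (∀ (x : Sx) y, -1 / 2 ≤ ⟪x.1, p.1⟫_ℝ → a.f (x, y) = y) →
  (∀ (x : Sx) z, -1 / 2 ≤ ⟪x.1, (-p).1⟫_ℝ → b.f (x, z) = z) →
  T.an k (sp (E₁ × E₂)) ((PL k a b).F (tau δ)) = T.an k (sp (E₁ × E₂)) ((PL k a PT.one).F (tau δ))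
/-- normal form -/
def NFT : Prop := ∀T Sx, ∀ (a : PT Sx E₁) (p : Sx), Nontrivial E₂ →
  (∀ (x : Sx) y, -1 / 2 ≤ ⟪x.1, p.1⟫_ℝ → a.f (x, y) = y) → ∃ v, NS v p (4 * δ) ∧
    T.an k (sp (E₁ × E₂)) ((PL k a PT.one).F (tau δ)) = T.an k (sp (E₁ × E₂)) (OL k v δ)

/-- the property of the `e`-invariant -/
def ORBT {A : Type} [AddCommGroup A] (T : Th Sx A) : Prop :=
  ∀ (E : Type) [NormedAddCommGroup E] [NormedSpace ℂ E] [FiniteDimensional ℂ E] (k : ℕ) (δ : ℝ)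
    (v : Sx × E → E) (p : Sx), 16 ≤ k → 0 < δ → NS v p (4 * δ) → T.an k (sp E) (OL k v δ) = 0

/-- **output of D7, loop form** (degree one at a point) -/
def D7O {A : Type} [AddCommGroup A] (T : Th Sx A) : Prop :=
  ∀ (E₁ E₂ : Type) [NormedAddCommGroup E₁] [InnerProductSpace ℂ E₁] [FiniteDimensional ℂ E₁]
    [NormedAddCommGroup E₂] [InnerProductSpace ℂ E₂] [FiniteDimensional ℂ E₂] (k : ℕ) (δ : ℝ)
    (D : Data Sx E₁ E₂) c κ R₀ M j j' (x : Sx), 16 ≤ k → 0 < δ → D.Ok c κ R₀ M → En D j j' →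
    j' ≠ 0 → (∀ a b, IsA D j' a → IsB D j b → (a.at' x).Ht PT.one ∧ (b.at' x).Ht PT.one) →
    T.an k (sp (E₁ × E₂)) ((D.Orb k).F (tau δ)) = 0

/-- **output of D7, path form** -/
def D7Y {A : Type} [AddCommGroup A] (T : Th Sx A) : Prop :=
  ∀ (E₁ E₂ : Type) [NormedAddCommGroup E₁] [InnerProductSpace ℂ E₁] [FiniteDimensional ℂ E₁]
    [NormedAddCommGroup E₂] [InnerProductSpace ℂ E₂] [FiniteDimensional ℂ E₂] (k : ℕ) (δ : ℝ)
    (D : Data Sx E₁ E₂) c κ R₀ M j j', 21 ≤ k → 0 < δ → D.Ok c κ R₀ M → En D j j' → j' ≠ 0 →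
    T.pa k (sp (E₁ × E₂)) ((D.Y k).F (tau δ)) = 0

theorem PT.Ht.rfl' {B E : Type} [TopologicalSpace B] [TopologicalSpace E] (a : PT B E) : a.Ht a :=
  ⟨a.pull Prod.fst continuous_fst, fun _ _ => rfl, fun _ _ => rfl⟩

theorem d7o {A : Type} [AddCommGroup A] {T : Th Sx A} (h1 : PLH) (h2 : ROT) (h3 : LOC) (h4 : SEP)
    (h5 : NFT) (h6 : ORBT T) : D7O T := by
  intro E₁ E₂ _ _ _ _ _ _ k δ D c κ R₀ M j j' x hk hd hD he hj hx
  have nt : Nontrivial E₂ := by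
    by_contra c
    rw [not_nontrivial_iff_subsingleton] at c
    exact hj (ContinuousLinearMap.ext fun z => by rw [Subsingleton.elim z 0, map_zero]; rfl)
  obtain ⟨a, b, ia, ib, e1⟩ := h2 A T E₁ E₂ k δ hk hd D c κ R₀ M j j' hD he
  obtain ⟨a', ta, la⟩ := h3 _ a x x (hx a b ia ib).1
  obtain ⟨b', tb, lb⟩ := h3 _ b (-x) x (hx a b ia ib).2
  obtain ⟨v, nv, e4⟩ := h5 A T E₁ E₂ k δ hk hd a' x nt la
  rw [e1, (h1 A T E₁ E₂ k δ hk hd a a' b b' ta tb).2.2, h4 A T E₁ E₂ k δ hk hd a' b' x la lb, e4]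
  exact h6 (E₁ × E₂) k δ v x hk hd nv

theorem d7y {A : Type} [AddCommGroup A] {T : Th Sx A} (h0 : ALG) (h1 : RFL) (h2 : DEG)
    (h3 : D7O T) : D7Y T := by
  intro E₁ E₂ _ _ _ _ _ _ k δ D c κ R₀ M j j' hk hd hD he hj
  obtain ⟨x⟩ : Nonempty Sx := (NormedSpace.sphere_nonempty.2 zero_le_one).to_subtype
  obtain ⟨ρ, r, r1, r2, hρ⟩ := h2 E₁ E₂ D c κ R₀ M j j' x hD he hj
  obtain ⟨ok, e⟩ := h1 A T E₁ E₂ k δ (by omega) hd D c κ R₀ M j j' ρ hD he r r1 r2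
    (h0 Sx A T E₁ E₂ D c κ R₀ M k δ hD hk hd).1
  have z := h3 E₁ E₂ k δ (rf D ρ) c κ R₀ M j j' x (by omega) hd ok ⟨he.p₁, he.p₂, he.jj, he.jj'⟩
    hj hρ
  have a := (h0 Sx A T E₁ E₂ (rf D ρ) c κ R₀ M k δ ok hk hd).2.2
  rw [z] at a
  have : T.pa k (sp (E₁ × E₂)) (((rf D ρ).Y k).F (tau δ)) = 0 := by rcases a with a | a <;> simp [a]
  rw [this] at e
  rcases e with e | e
  exacts [e.symm, neg_eq_zero.1 e.symm]

/-- **block D7** -/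
theorem val {T : Th Sx Sk.QQ} (h0 : ALG) (h1 : DIM) (h2 : ZER) (h3 : D7Y T) :
    Sk.Val T 21 Sk.Trv 0 := by
  intro n₁ n₂ D c κ R₀ M δ hD hT hd ok
  obtain ⟨j, j', he⟩ := h1 _ _ D c κ R₀ M hD hT.1 hT.2
  by_cases z : j' = 0
  · subst z
    exact h2 _ T _ _ 21 δ (by norm_num) hd D c κ R₀ M j hD he ok
  · have a := (h0 Sx _ T _ _ D c κ R₀ M 21 δ hD le_rfl hd).2.2
    rw [h3 _ _ 21 δ D c κ R₀ M j j' le_rfl hd hD he z] at a
    rcases a with a | a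
    exacts [a.symm, neg_eq_zero.1 a.symm]

end Crest.Agent.N218.D7

end
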